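import Vale.Agent.P158.Spec

/-!
Hypotheses on a weight law without any moment or boundedness assumption.
-/

open MeasureTheory Filter Topology
open scoped ENNReal

namespace Vale.Agent.P158

/-- An atomless law of one nonnegative weight. -/
structure LawGen (G : Measure ℝ) : Prop where
  prob : IsProbabilityMeasure G
  noAtoms : ∀ x, G {x} = 0
  supp : G (Set.Ici 0) = 1

/-- A bounded atomless law is an atomless law. -/
theorem LawOK.gen {G : Measure ℝ} {M : ℝ} (h : LawOK G M) : LawGen G := by
  have := h.prob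
  exact ⟨h.prob, h.noAtoms, le_antisymm prob_le_one
    (h.supp.ge.trans (measure_mono fun x hx => hx.1))⟩

/-- The configurations on which the deterministic lemmas work, without an upper bound. -/
structure GoodG (κ : ℝ) (t : Conf) : Prop where
  pos : ∀ e, 0 < t e
  tieFree : TieFree t
  lenBound : LenBound κ t

/-- A good configuration is good without an upper bound. -/
theorem Good.gen {M κ : ℝ} {t : Conf} (h : Good M κ t) : GoodG κ t :=
  ⟨h.pos, h.tieFree, h.lenBound⟩

instance LawOK.coeGen {G : Measure ℝ} {M : ℝ} : CoeOut (LawOK G M) (LawGen G) := ⟨LawOK.gen⟩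

instance Good.coeGen {M κ : ℝ} {t : Conf} : CoeOut (Good M κ t) (GoodG κ t) := ⟨Good.gen⟩

theorem GoodG.nonneg {κ : ℝ} {t : Conf} (h : GoodG κ t) (e : Edge) : 0 ≤ t e := (h.pos e).le

/-- The properties used by the deterministic arguments of the second stage. -/
structure NiceG (κ : ℝ) (t : Conf) : Prop where
  good : GoodG κ t
  fork : ¬ ∃ γ δ, IsBigeodesic t γ ∧ IsBigeodesic t δ ∧
    (∀ n : ℕ, γ n = δ n) ∧ γ (-1) ≠ δ (-1)
  matched : ∀ γ, IsBigeodesic t γ → ∀ r, IsRayIn t Set.univ r →
    (∃ C : ℝ, ∀ z, -C ≤ bus t Set.univ r z + bus t Set.univ (fwd γ 0) z) →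
    ∃ c : ℝ, ∀ z, bus t Set.univ r z - bus t Set.univ (bwd γ 0) z = c

/-- The weights above `m` are rare. -/
def SmallTail (m : ℝ) (G : Measure ℝ) : Prop :=
  0 < m ∧ G (Set.Ioi m) ≤ ENNReal.ofReal ((1 / 2) ^ 20)

end Vale.Agent.P158
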