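import Vale.Agent.P158.Gen.Bent.Linear
import Vale.Agent.P158.Gen.Bent.Strict

/-!
Bent sites are rare at every pair of large proportional scales, for every atomless law.
-/

open MeasureTheory Filter Topology
open scoped ENNReal

namespace Vale.Agent.P158.Gen

open Vale.Agent.P158
open Vale.Agent.P158.Straight (IsOffset vec)

namespace Bent

open Vale.Agent.P158.Bent (pairSite Seed seed_of_site tendsto_zero_of_toReal exists_Iic_pos)

/-- The sites of one pair of slopes are rare. -/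
theorem pair_tendsto_zero {m : ℝ} {G : Measure ℝ} {κ AY κ' A' κ'' A : ℝ} (hG : LawGen G)
    (hF : ShieldFacts m) (hL : ShieldLaw m G κ AY) (hB : BoxProp m G κ' A')
    (hS : ShapeG m G κ'' A) {k : ℤ} (hk : k = 0 ∨ k = 1) (R : ℕ) {r₁ : ℝ}
    (hr : 0 < G (Set.Iio r₁)) (C : ℝ) {v1 v2 c₁ c₂ : ℝ} (hv : v1 < v2) (hc₁ : 0 < c₁)
    (hc₂ : 0 < c₂) :
    Tendsto (fun n : ℕ => law G (pairSite k R r₁ C v1 v2 ⌈c₁ * n⌉₊ ⌈c₂ * n⌉₊)) atTop (𝓝 0) := by
  by_cases hlin : muG m G (vec k v1 + vec k v2) = muG m G (vec k v1) + muG m G (vec k v2)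
  swap
  · exact strict_tendsto_zero hG hF hL hB hS hk R r₁ C hv hc₁ hc₂ hlin
  have := hG.prob
  have : IsProbabilityMeasure (law G) := by unfold law; infer_instance
  obtain ⟨r₀, hr₀, hpos⟩ := exists_Iic_pos hr
  let E : V → ℕ → Set Conf := fun d n =>
    {t | IsOffset k d ∧ Seed k ⌈c₁ * n⌉₊ ⌈c₂ * n⌉₊ R v1 v2 r₁ d t}
  have hE : ∀ d, Tendsto (fun n => law G (E d n)) atTop (𝓝 0) := by
    intro d
    by_cases hd : IsOffset k d
    · have h := tendsto_zero_of_toReal
        (seed_tendsto_zero hG hS.shape hk (Straight.meets hk) hd hv hlin R hr₀ hpos hc₁ hc₂)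
      exact h.congr fun n => congrArg (law G) (by ext t; simp [E, hd])
    · exact tendsto_const_nhds.congr fun n => by
        rw [show E d n = ∅ by ext t; simp [E, hd], measure_empty]
  have hsum : Tendsto (fun n => law G (E (1, 0) n) + law G (E (0, 1) n)) atTop (𝓝 0) := by
    simpa using (hE (1, 0)).add (hE (0, 1))
  refine tendsto_of_tendsto_of_tendsto_of_le_of_le tendsto_const_nhds hsum
    (fun n => zero_le) fun n => ?_
  refine le_trans (measure_mono (t := (E (1, 0) n ∪ E (0, 1) n) ∪ {t | ¬∀ e, 0 ≤ t e}) ?_)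
    ((measure_union_le _ _).trans ?_)
  · rintro t ⟨γ, i₀, i₁, i, j, h, h1, h2⟩
    by_cases h0 : ∀ e, 0 ≤ t e
    swap
    · exact Or.inr h0
    obtain ⟨d, hd, hs⟩ := seed_of_site hk h0 h h1 h2
    rcases hd.2 with rfl | rfl
    · exact Or.inl (Or.inl ⟨hd, hs⟩)
    · exact Or.inl (Or.inr ⟨hd, hs⟩)
  · rw [show law G {t | ¬∀ e, 0 ≤ t e} = 0 from ae_iff.1 (ae_nonneg hG), add_zero]
    exact measure_union_le _ _

end Bent

/-- Bent sites are rare for every atomless law. -/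
theorem bentNullG {m : ℝ} {G : Measure ℝ} {κ AY κ' A' κ'' A : ℝ} (hG : LawGen G)
    (hF : ShieldFacts m) (hL : ShieldLaw m G κ AY) (hB : BoxProp m G κ' A')
    (hS : ShapeG m G κ'' A) : BentNull G :=
  have := hG.prob
  bentNull_of_pairs fun _ hk R _ hr _ _ hc₁ hc₂ C _ _ hv =>
    Bent.pair_tendsto_zero hG hF hL hB hS hk R hr C hv hc₁ hc₂

end Vale.Agent.P158.Gen
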