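import Mathlib

/-!
A finite family of intervals contains two families of disjoint intervals which cover its union.
-/

namespace Vale.Agent.P158.Gen

/-- The weight of a union is at most the sum of the weights. -/
lemma sum_biUnion_le {ι : Type*} {w : ℕ → ℝ} (hw : ∀ i, 0 ≤ w i) (s : Finset ι)
    (g : ι → Finset ℕ) : ∑ n ∈ s.biUnion g, w n ≤ ∑ j ∈ s, ∑ n ∈ g j, w n := by
  classical
  induction s using Finset.induction_on with
  | empty => simp
  | insert a s ha ih =>
    rw [Finset.biUnion_insert, Finset.sum_insert ha]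
    have h := Finset.sum_union_inter (s₁ := g a) (s₂ := s.biUnion g) (f := w)
    have : 0 ≤ ∑ n ∈ g a ∩ s.biUnion g, w n := Finset.sum_nonneg fun n _ => hw n
    linarith

/-- If every ordered disjoint subfamily carries at most `B` of a nonnegative weight, the union of
the family carries at most `2 B`. -/
theorem union_le {S : Finset (ℕ × ℕ)} {w : ℕ → ℝ} (hw : ∀ i, 0 ≤ w i) {B : ℝ}
    (hfam : ∀ (l : ℕ) (e : Fin l → ℕ × ℕ), l ≤ S.card → (∀ j, e j ∈ S ∧ (e j).1 < (e j).2) →
      (∀ i j, i < j → (e i).2 ≤ (e j).1) → ∑ j, ∑ n ∈ Finset.Ico (e j).1 (e j).2, w n ≤ B) :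
    ∑ n ∈ S.biUnion (fun I => Finset.Ico I.1 I.2), w n ≤ 2 * B := by
  classical
  set U := fun T : Finset (ℕ × ℕ) => T.biUnion fun I => Finset.Ico I.1 I.2
  obtain ⟨T, hT, hmin⟩ := Finset.exists_min_image (S.powerset.filter fun T => U S ⊆ U T)
    Finset.card ⟨S, Finset.mem_filter.2 ⟨Finset.mem_powerset.2 subset_rfl, subset_rfl⟩⟩
  obtain ⟨hTS, hUT⟩ := Finset.mem_filter.1 hT
  rw [Finset.mem_powerset] at hTS
  -- no member of a minimal cover is covered by the others
  have hneed : ∀ I ∈ T, ∃ n, I.1 ≤ n ∧ n < I.2 ∧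
      ∀ J ∈ T, J ≠ I → n < J.1 ∨ J.2 ≤ n := by
    intro I hI
    by_contra hcon
    push Not at hcon
    have h : U S ⊆ U (T.erase I) := fun n hn => by
      obtain ⟨J, hJ, hnJ⟩ := Finset.mem_biUnion.1 (hUT hn)
      by_cases hJI : J = I
      · obtain ⟨h1, h2⟩ := Finset.mem_Ico.1 (hJI ▸ hnJ)
        obtain ⟨K, hK, hKI, h3, h4⟩ := hcon n h1 h2
        exact Finset.mem_biUnion.2
          ⟨K, Finset.mem_erase.2 ⟨hKI, hK⟩, Finset.mem_Ico.2 ⟨h3, h4⟩⟩
      · exact Finset.mem_biUnion.2 ⟨J, Finset.mem_erase.2 ⟨hJI, hJ⟩, hnJ⟩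
    have := hmin (T.erase I) (Finset.mem_filter.2
      ⟨Finset.mem_powerset.2 ((Finset.erase_subset _ _).trans hTS), h⟩)
    have := Finset.card_erase_lt_of_mem hI
    omega
  have hinj : Set.InjOn Prod.fst (T : Set (ℕ × ℕ)) := by
    intro I hI J hJ hIJ
    by_contra hne
    obtain ⟨n, h1, h2, h3⟩ := hneed I hI
    obtain ⟨n', h1', h2', h3'⟩ := hneed J hJ
    rcases h3 J hJ (Ne.symm hne) with h | h <;> rcases h3' I hI hne with h' | h' <;> omega
  set k := T.card
  set F := (T.image Prod.fst).orderEmbOfFin (k := k) (Finset.card_image_of_injOn hinj)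
  have hF : ∀ i, ∃ I ∈ T, I.1 = F i := fun i =>
    Finset.mem_image.1 (Finset.orderEmbOfFin_mem _ _ i)
  choose e he1 he2 using hF
  have hlt : ∀ i, (e i).1 < (e i).2 := fun i => by
    obtain ⟨n, h1, h2, -⟩ := hneed _ (he1 i); omega
  have hmono : ∀ i j, i < j → (e i).1 < (e j).1 := fun i j h => by
    rw [he2, he2]; exact F.strictMono h
  have hright : ∀ i j, i < j → (e i).2 < (e j).2 := by
    intro i j h
    have h1 := hmono i j h
    obtain ⟨n, a1, a2, a3⟩ := hneed _ (he1 j)
    rcases a3 _ (he1 i) (fun hh => absurd (congrArg Prod.fst hh) h1.ne) with b | b <;> omega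
  have htwo : ∀ i j k' : Fin k, i < j → j < k' → (e i).2 ≤ (e k').1 := by
    intro i j k' hij hjk
    by_contra hcon
    obtain ⟨n, a1, a2, a3⟩ := hneed _ (he1 j)
    have := hmono i j hij; have := hmono j k' hjk
    have := hright i j hij; have := hright j k' hjk
    have b1 := a3 _ (he1 i) fun hh => absurd (congrArg Prod.fst hh) (hmono i j hij).ne
    have b2 := a3 _ (he1 k') fun hh => absurd (congrArg Prod.fst hh) (hmono j k' hjk).ne'
    omega
  have himg : T ⊆ Finset.univ.image e := by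
    intro I hI
    obtain ⟨i, hi⟩ : ∃ i, F i = I.1 := by
      have : I.1 ∈ Set.range F := by
        rw [Finset.range_orderEmbOfFin]; exact Finset.mem_image_of_mem _ hI
      exact this
    exact Finset.mem_image.2 ⟨i, Finset.mem_univ _, hinj (he1 i) hI ((he2 i).trans hi)⟩
  have hk : k ≤ S.card := Finset.card_le_card hTS
  have half : ∀ a : ℕ, a < 2 → ∑ j ∈ (Finset.univ : Finset (Fin k)).filter (fun j => j.1 % 2 = a),
      ∑ n ∈ Finset.Ico (e j).1 (e j).2, w n ≤ B := by
    intro a ha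
    set P := (Finset.univ : Finset (Fin k)).filter fun j => j.1 % 2 = a with hP
    rw [← Finset.map_orderEmbOfFin_univ P rfl, Finset.sum_map]
    refine hfam P.card (fun j => e (P.orderEmbOfFin rfl j))
      ((Finset.card_le_univ P).trans ((Fintype.card_fin k).trans_le hk))
      (fun j => ⟨hTS (he1 _), hlt _⟩) fun i j hij => ?_
    have hlt' := (P.orderEmbOfFin rfl).strictMono hij
    obtain ⟨-, hi⟩ := Finset.mem_filter.1 (P.orderEmbOfFin_mem rfl i)
    obtain ⟨-, hj⟩ := Finset.mem_filter.1 (P.orderEmbOfFin_mem rfl j)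
    set x := P.orderEmbOfFin rfl i
    set y := P.orderEmbOfFin rfl j
    have : (x : ℕ) < y := hlt'
    exact htwo x ⟨x + 1, by omega⟩ y (Nat.lt_succ_self (x : ℕ))
      (show (x : ℕ) + 1 < y by omega)
  calc ∑ n ∈ U S, w n ≤ ∑ n ∈ (Finset.univ : Finset (Fin k)).biUnion
        (fun j => Finset.Ico (e j).1 (e j).2), w n := by
        refine Finset.sum_le_sum_of_subset_of_nonneg (fun n hn => ?_) fun n _ _ => hw n
        obtain ⟨I, hI, hnI⟩ := Finset.mem_biUnion.1 (hUT hn)
        obtain ⟨j, -, rfl⟩ := Finset.mem_image.1 (himg hI)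
        exact Finset.mem_biUnion.2 ⟨j, Finset.mem_univ _, hnI⟩
    _ ≤ ∑ j, ∑ n ∈ Finset.Ico (e j).1 (e j).2, w n :=
        sum_biUnion_le hw _ _
    _ ≤ 2 * B := by
        rw [← Finset.sum_filter_add_sum_filter_not _ (fun j : Fin k => j.1 % 2 = 0)]
        have h1 := half 0 two_pos
        have h2 := half 1 one_lt_two
        simp only [Nat.mod_two_ne_zero] at h1 h2 ⊢
        linarith

end Vale.Agent.P158.Gen
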