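import Vale.Agent.P158.Gen.BlockDefs
import Vale.Agent.P158.Gen.Cover
import Vale.Agent.P158.Block

/-!
The block shape lemma for all atomless laws: along a geodesic segment between unenclosed vertices
the sum of the norms of the displacements at scale `r` exceeds the passage time by at most `ε n`.
The revisits of bad cells are paid by the cutting property instead of a bound on the weights.
-/

open MeasureTheory Filter Topology
open scoped ENNReal

namespace Vale.Agent.P158.Gen

open Vale.Agent.P158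

variable {m : ℝ} {G : Measure ℝ} {κ A : ℝ} {t : Conf} {a b : V}

lemma sum_Ico_int (f : ℤ → ℝ) {i j : ℕ} (hij : i ≤ j) :
    ∑ l ∈ Finset.Ico (i : ℤ) (j : ℤ), f l = ∑ l ∈ Finset.Ico i j, f l := by
  refine Finset.sum_nbij' (fun l : ℤ => l.toNat) (fun l : ℕ => (l : ℤ)) ?_ ?_ ?_ ?_ ?_
  · intro l hl; simp only [Finset.mem_Ico] at hl ⊢; omega
  · intro l hl; simp only [Finset.mem_Ico] at hl ⊢; omega
  · intro l hl; simp only [Finset.mem_Ico] at hl; omega
  · intro l _; simp
  · intro l hl; rw [Finset.mem_Ico] at hl; rw [Int.toNat_of_nonneg (by omega)]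

/-- The walk as a geodesic segment indexed by integers. -/
lemma segGeo_of_walk {p : grid.Walk a b} (hp : p.IsPath) (hgeo : plen t p = T t a b) :
    SegGeo t (fun k : ℤ => p.getVert k.toNat) 0 (p.length : ℤ) := by
  refine ⟨by omega, fun k h1 h2 => ?_, fun i hi j hj h => ?_, ?_⟩
  · rw [show (k + 1).toNat = k.toNat + 1 by omega]
    exact p.adj_getVert_succ (by omega)
  · simp only [Set.mem_Icc] at hi hj
    have := ((SimpleGraph.Walk.IsPath.getVert_injOn_iff p).2 hp)
      (show i.toNat ∈ {n | n ≤ p.length} by simp only [Set.mem_ofPred_eq]; omega)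
      (show j.toNat ∈ {n | n ≤ p.length} by simp only [Set.mem_ofPred_eq]; omega) h
    omega
  · simp only [Int.toNat_zero, SimpleGraph.Walk.getVert_zero, Int.toNat_natCast,
      SimpleGraph.Walk.getVert_length]
    rw [← hgeo, plen_eq_rlen, rlen]
    have h := sum_Ico_int
      (fun l => wt t (p.getVert l.toNat) (p.getVert (l + 1).toNat)) (Nat.zero_le p.length)
    rw [Nat.cast_zero] at h
    rw [h, Finset.range_eq_Ico]
    refine Finset.sum_congr rfl fun l _ => ?_
    rw [show ((l : ℤ) + 1).toNat = l + 1 by omega, Int.toNat_natCast]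

lemma capTo_nonneg {Y x : ℝ} (hY : 0 ≤ Y) (hx : 0 ≤ x) : 0 ≤ capTo Y x := by
  unfold capTo
  split_ifs with h
  · exact hx
  · have : 0 ≤ (x - Y) / (1 + (x - Y)) :=
      div_nonneg (by linarith) (by linarith)
    linarith

/-- Shielding lowers passage times. -/
lemma T_shield_le (hm : 0 < m) (hSF : ShieldFacts m) (h0 : ∀ e, 0 ≤ t e) (x y : V) :
    T (shield m t) x y ≤ T t x y := by
  have hs : ∀ e, 0 ≤ shield m t e := fun e =>
    (capTo_nonneg hm.le (h0 e)).trans (hSF.cap_low Set.univ t e)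
  exact le_T fun p => (T_le hs p).trans
    (List.sum_le_sum fun d _ => hSF.le Set.univ t _)

lemma muG_seg_le (hS : ShapeG m G κ A) (p : grid.Walk a b) {i j : ℕ} (hij : i ≤ j) :
    muG m G (toR (p.getVert j) - toR (p.getVert i)) ≤ A * ((j - i : ℕ) : ℝ) := by
  obtain ⟨q, hq, -⟩ := exists_seg (fun _ => (0 : ℝ)) p hij
  refine (hS.upperR _).trans (mul_le_mul_of_nonneg_left ((r1_le_length q).trans ?_) hS.A_pos.le)
  exact_mod_cast hq

lemma muG_piece_le (hS : ShapeG m G κ A) (p : grid.Walk a b) (r i : ℕ) :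
    muG m G (toR (p.getVert ((i + 1) * r)) - toR (p.getVert (i * r))) ≤ A * r := by
  have := muG_seg_le hS p (Nat.mul_le_mul_right r (Nat.le_add_right i 1))
  rwa [show (i + 1) * r - i * r = r by rw [Nat.add_mul, one_mul, Nat.add_sub_cancel_left]] at this

lemma stepSumG_le_length (hS : ShapeG m G κ A) {r : ℕ} (p : grid.Walk a b) :
    stepSumG m G r p ≤ A * (p.length + r) := by
  refine (Finset.sum_le_card_nsmul _ _ (A * r) fun i _ => muG_piece_le hS p r i).trans ?_
  rw [Finset.card_range, nsmul_eq_mul]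
  have : ((p.length / r : ℕ) : ℝ) * r ≤ p.length := by
    exact_mod_cast Nat.div_mul_le_self p.length r
  have := mul_le_mul_of_nonneg_left this hS.A_pos.le
  push_cast; linarith

lemma dist1_same_cell {r : ℕ} (hr : 0 < r) {x y : V} (h : cellOf r x = cellOf r y) :
    dist1 x y ≤ 2 * r := by
  simp only [cellOf, Prod.mk.injEq] at h
  obtain ⟨a1, a2⟩ := ediv_bounds hr x.1
  obtain ⟨b1, b2⟩ := ediv_bounds hr x.2
  obtain ⟨a3, a4⟩ := ediv_bounds hr y.1
  obtain ⟨b3, b4⟩ := ediv_bounds hr y.2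
  rw [h.1] at a1 a2
  rw [h.2] at b1 b2
  have e1 : |x.1 - y.1| ≤ (r : ℤ) := abs_le.2 ⟨by omega, by omega⟩
  have e2 : |x.2 - y.2| ≤ (r : ℤ) := abs_le.2 ⟨by omega, by omega⟩
  have e3 : ((|x.1 - y.1| + |x.2 - y.2| : ℤ) : ℝ) ≤ ((2 * r : ℤ) : ℝ) :=
    Int.cast_le.2 (by omega)
  push_cast at e3
  simpa [dist1] using e3

open scoped Classical in
/-- The deterministic part of the block shape lemma. -/
theorem blockG_det (hm : 0 < m) (hS : ShapeG m G κ A) {r : ℕ} (hr : 0 < r)
    {ε₁ ε₂ r₀ β low : ℝ} (hr₀ : 0 < r₀) (hε₁ : 0 ≤ ε₁) (h0 : ∀ e, 0 ≤ t e) {C n : ℕ}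
    (hcut : CutOK m ε₂ C r n t) {p : grid.Walk a b} (hp : p.IsPath)
    (hgeo : plen t p = T t a b) (hOa : OKpt m t a) (hOb : OKpt m t b)
    (ha : InSq ((C * n : ℕ) : ℤ) a) (hlen : p.length ≤ C * n) (hβC : r * β ≤ ((C * n : ℕ) : ℝ))
    (hlow : (hitCount (Set.Iio r₀) t p : ℝ) ≤ low)
    (hbad : ∀ S ⊆ (Finset.range (p.length / r)).image fun i => cellOf r (p.getVert (i * r)),
      (∀ Q ∈ S, t ∈ BadCellF (muG m G) ε₁ r Q) → (S.card : ℝ) ≤ β) :
    stepSumG m G r p ≤ T t a b + ε₁ * p.length +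
      A * (r * β + ((100 * m * (r * β) + 2 * (ε₂ * n)) / r₀ + low)) + A * r := by
  have hA := hS.A_pos.le
  set ℓ := p.length with hℓ
  set N := ℓ / r with hN
  set z : ℕ → V := fun i => p.getVert (i * r) with hz
  set c : ℕ → V := fun i => cellOf r (z i) with hc
  set w : ℕ → ℝ := fun i => rlen t p.getVert ((i + 1) * r) - rlen t p.getVert (i * r) with hw
  have hle : ∀ i : ℕ, i ≤ N → i * r ≤ ℓ := fun i hi =>
    le_trans (Nat.mul_le_mul_right r hi) (Nat.div_mul_le_self ℓ r)
  have hw0 : ∀ i, 0 ≤ w i := fun i =>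
    sub_nonneg.2 (rlen_mono h0 _ (Nat.mul_le_mul_right r (Nat.le_add_right i 1)))
  have hsumw : ∀ f g : ℕ, f ≤ g → ∑ i ∈ Finset.Ico f g, w i =
      rlen t p.getVert (g * r) - rlen t p.getVert (f * r) := fun f g hfg => by
    rw [Finset.sum_Ico_eq_sub _ hfg]
    simp only [hw, Finset.sum_range_sub (fun i => rlen t p.getVert (i * r))]
    ring
  set Bset := (Finset.range N).filter fun i => t ∈ BadCellF (muG m G) ε₁ r (c i) with hB
  set S := Bset.image c with hS'
  set I := Bset.filter fun i => ∃ j ∈ Bset, i < j ∧ c j = c i with hI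
  have hSb : (S.card : ℝ) ≤ β := hbad S (Finset.image_subset_image (Finset.filter_subset _ _))
    fun Q hQ => by
      obtain ⟨i, hi, rfl⟩ := Finset.mem_image.1 hQ
      exact (Finset.mem_filter.1 hi).2
  have hcardB : Bset.card ≤ S.card + I.card := by
    have h1 : (Bset.filter fun i => ¬ ∃ j ∈ Bset, i < j ∧ c j = c i).card ≤ S.card := by
      refine Finset.card_le_card_of_injOn c
        (fun i hi => Finset.mem_image.2 ⟨i, (Finset.mem_filter.1 hi).1, rfl⟩) ?_
      intro i hi j hj hij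
      rw [Finset.mem_coe, Finset.mem_filter] at hi hj
      push Not at hi hj
      rcases lt_trichotomy i j with h | h | h
      · exact absurd hij.symm (hi.2 j hj.1 h)
      · exact h
      · exact absurd hij (hj.2 i hi.1 h)
    have h2 := Finset.card_filter_add_card_filter_not (s := Bset)
      (fun i => ∃ j ∈ Bset, i < j ∧ c j = c i)
    rw [← hI] at h2
    omega
  -- between the first and the last visit of each bad cell
  have hpairs : ∀ Q ∈ S, ∃ I₀ : ℕ × ℕ, I₀.1 ≤ I₀.2 ∧ I₀.2 ≤ N ∧ c I₀.1 = c I₀.2 ∧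
      ∀ i ∈ Bset, c i = Q → I₀.1 ≤ i ∧ i ≤ I₀.2 := by
    intro Q hQ
    obtain ⟨i₀, hi₀, hi₀Q⟩ := Finset.mem_image.1 hQ
    set F := Bset.filter fun i => c i = Q with hF
    have hFne : F.Nonempty := ⟨i₀, Finset.mem_filter.2 ⟨hi₀, hi₀Q⟩⟩
    obtain ⟨-, hf2⟩ := Finset.mem_filter.1 (F.min'_mem hFne)
    obtain ⟨hg1, hg2⟩ := Finset.mem_filter.1 (F.max'_mem hFne)
    exact ⟨(F.min' hFne, F.max' hFne), F.min'_le _ (F.max'_mem hFne),
      (Finset.mem_range.1 (Finset.mem_filter.1 hg1).1).le, hf2.trans hg2.symm,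
      fun i hi hiQ => ⟨F.min'_le i (Finset.mem_filter.2 ⟨hi, hiQ⟩),
        F.le_max' i (Finset.mem_filter.2 ⟨hi, hiQ⟩)⟩⟩
  choose pr hpr1 hpr2 hpr3 hpr4 using hpairs
  set P := S.attach.image fun Q => pr Q.1 Q.2 with hP
  have hPS : (P.card : ℝ) ≤ β :=
    le_trans (Nat.cast_le.2 (Finset.card_image_le.trans_eq Finset.card_attach)) hSb
  have hseg := segGeo_of_walk hp hgeo
  have hIw : ∑ i ∈ I, w i ≤ 2 * (25 * m * (2 * r * β) + ε₂ * n) := by
    refine le_trans (Finset.sum_le_sum_of_subset_of_nonneg (fun i hi => ?_) fun i _ _ => hw0 i)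
      (union_le (S := P) hw0 fun l e hl he hord => ?_)
    · obtain ⟨hiB, j, hjB, hij, hcj⟩ := Finset.mem_filter.1 hi
      have hQ : c i ∈ S := Finset.mem_image_of_mem c hiB
      refine Finset.mem_biUnion.2 ⟨pr _ hQ, Finset.mem_image.2 ⟨⟨c i, hQ⟩, Finset.mem_attach _ _,
        rfl⟩, Finset.mem_Ico.2 ⟨(hpr4 _ hQ i hiB rfl).1, ?_⟩⟩
      exact hij.trans_le (hpr4 _ hQ j hjB hcj).2
    · have hmem : ∀ j, (e j).1 ≤ (e j).2 ∧ (e j).2 ≤ N ∧ c (e j).1 = c (e j).2 := fun j => by
        obtain ⟨⟨Q, hQ⟩, -, h⟩ := Finset.mem_image.1 (he j).1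
        rw [← h]
        exact ⟨hpr1 Q hQ, hpr2 Q hQ, hpr3 Q hQ⟩
      have hlβ : (l : ℝ) ≤ β := le_trans (Nat.cast_le.2 hl) hPS
      have hlr : l * r ≤ C * n := by
        have h1 := mul_le_mul_of_nonneg_left hlβ (Nat.cast_nonneg (α := ℝ) r)
        have h2 : ((l * r : ℕ) : ℝ) ≤ ((C * n : ℕ) : ℝ) := by push_cast at hβC ⊢; linarith
        exact_mod_cast h2
      have hzero : p.getVert (Int.toNat 0) = a := p.getVert_zero
      have hlast : p.getVert (ℓ : ℤ).toNat = b := by
        rw [Int.toNat_natCast]; exact p.getVert_length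
      have h := hcut (fun k : ℤ => p.getVert k.toNat) 0 (ℓ : ℤ) hseg (by rwa [hzero])
        (by rwa [hlast]) (by rwa [hzero]) (by omega) l
        (fun j => (((e j).1 * r : ℕ) : ℤ)) (fun j => (((e j).2 * r : ℕ) : ℤ)) hlr
        (fun j => ⟨by omega, Int.ofNat_le.2 (Nat.mul_le_mul_right r (hmem j).1),
          Int.ofNat_le.2 (hle _ (hmem j).2.1)⟩)
        (fun i j hij => Int.ofNat_le.2 (Nat.mul_le_mul_right r (hord i j hij)))
      simp only [Int.toNat_natCast] at h
      have hsum : ∑ j, ∑ i ∈ Finset.Ico (e j).1 (e j).2, w i = ∑ j, ∑ k ∈ Finset.Ico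
          (((e j).1 * r : ℕ) : ℤ) (((e j).2 * r : ℕ) : ℤ),
            wt t (p.getVert k.toNat) (p.getVert (k + 1).toNat) := by
        refine Finset.sum_congr rfl fun j _ => ?_
        rw [hsumw _ _ (hmem j).1, rlen_sub_eq_Ico (Nat.mul_le_mul_right r (hmem j).1),
          sum_Ico_int _ (Nat.mul_le_mul_right r (hmem j).1)]
        refine Finset.sum_congr rfl fun k _ => ?_
        rw [show ((k : ℤ) + 1).toNat = k + 1 by omega, Int.toNat_natCast]
      rw [hsum]
      refine h.trans (add_le_add (mul_le_mul_of_nonneg_left ?_ (by linarith)) le_rfl)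
      refine (Finset.sum_le_card_nsmul _ _ (2 * (r : ℝ)) fun j _ =>
        dist1_same_cell hr (hmem j).2.2).trans ?_
      rw [Finset.card_univ, Fintype.card_fin, nsmul_eq_mul]
      have := mul_le_mul_of_nonneg_right hlβ (show (0 : ℝ) ≤ 2 * r by positivity)
      linarith
  set cnt : ℕ → ℝ := fun l =>
    (Set.Iio r₀).indicator (fun _ => (1 : ℝ)) (wt t (p.getVert l) (p.getVert (l + 1))) with hcnt
  have hcnt0 : ∀ l, 0 ≤ cnt l := fun l => Set.indicator_nonneg (fun _ _ => zero_le_one) _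
  have hcntsum : ∑ i ∈ I, ∑ l ∈ Finset.Ico (i * r) ((i + 1) * r), cnt l ≤ low := by
    have hI' : I ⊆ Finset.range N := (Finset.filter_subset _ _).trans (Finset.filter_subset _ _)
    refine (Finset.sum_le_sum_of_subset_of_nonneg hI'
      fun i _ _ => Finset.sum_nonneg fun l _ => hcnt0 l).trans ?_
    refine le_trans (le_of_eq ?_) ((Finset.sum_le_sum_of_subset_of_nonneg
      (Finset.range_mono (hle N le_rfl)) fun l _ _ => hcnt0 l).trans
      ((hitCount_eq_sum _ t p).ge.trans hlow))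
    calc ∑ i ∈ Finset.range N, ∑ l ∈ Finset.Ico (i * r) ((i + 1) * r), cnt l
        = ∑ i ∈ Finset.range N, ((∑ l ∈ Finset.range ((i + 1) * r), cnt l) -
            ∑ l ∈ Finset.range (i * r), cnt l) :=
          Finset.sum_congr rfl fun i _ =>
            Finset.sum_Ico_eq_sub _ (Nat.mul_le_mul_right r (Nat.le_add_right i 1))
      _ = _ := by
          rw [Finset.sum_range_sub (fun i => ∑ l ∈ Finset.range (i * r), cnt l)]; simp
  have hIr : (I.card : ℝ) * r ≤ (100 * m * (r * β) + 2 * (ε₂ * n)) / r₀ + low := by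
    have h1 : ∀ i, r₀ * ((r : ℝ) - ∑ l ∈ Finset.Ico (i * r) ((i + 1) * r), cnt l) ≤ w i := by
      intro i
      simp only [hw, rlen_sub_eq_Ico (Nat.mul_le_mul_right r (Nat.le_add_right i 1))]
      have : (r : ℝ) = ∑ _l ∈ Finset.Ico (i * r) ((i + 1) * r), (1 : ℝ) := by
        simp [Nat.add_mul]
      rw [this, ← Finset.sum_sub_distrib, Finset.mul_sum]
      refine Finset.sum_le_sum fun l _ => ?_
      simp only [hcnt, Set.indicator_apply, Set.mem_Iio]
      split_ifs with h
      · simpa [wt] using h0 _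
      · rw [sub_zero, mul_one]; exact not_lt.1 h
    have h2 := (Finset.sum_le_sum (s := I) fun i _ => h1 i).trans hIw
    rw [← Finset.mul_sum, Finset.sum_sub_distrib, Finset.sum_const, nsmul_eq_mul] at h2
    have h4 := mul_le_mul_of_nonneg_left hcntsum hr₀.le
    rw [← sub_le_iff_le_add, le_div_iff₀ hr₀]
    linarith
  have hpiece : ∀ i ∈ Finset.range N, muG m G (toR (z (i + 1)) - toR (z i)) ≤
      w i + ε₁ * r + (if t ∈ BadCellF (muG m G) ε₁ r (c i) then A * r else 0) := by
    intro i hi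
    have hεr : 0 ≤ ε₁ * (r : ℝ) := by positivity
    split_ifs with hbi
    · have := muG_piece_le hS p r i
      simp only [hz]
      linarith [hw0 i]
    · obtain ⟨q, hq, hqw⟩ := exists_seg t p (Nat.mul_le_mul_right r (Nat.le_add_right i 1))
      replace hq : q.length ≤ r := hq.trans
        (show (i + 1) * r - i * r = r by rw [Nat.add_mul, one_mul, Nat.add_sub_cancel_left]).le
      simp only [BadCellF, Set.mem_ofPred_eq, not_exists, not_and, not_lt] at hbi
      have h2 : muG m G (toR (p.getVert ((i + 1) * r)) - toR (p.getVert (i * r))) - ε₁ * r ≤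
          plen t q := hbi _ _ q rfl hq
      rw [hqw (hle (i + 1) (Finset.mem_range.1 hi))] at h2
      simp only [hw, hz]
      linarith
  have hsum1 : ∑ i ∈ Finset.range N, muG m G (toR (z (i + 1)) - toR (z i)) ≤
      rlen t p.getVert (N * r) + N * (ε₁ * r) + Bset.card * (A * r) := by
    refine (Finset.sum_le_sum hpiece).trans (le_of_eq ?_)
    rw [Finset.sum_add_distrib, Finset.sum_add_distrib, ← Finset.sum_filter, ← hB, Finset.sum_const,
      Finset.sum_const, Finset.card_range, nsmul_eq_mul, nsmul_eq_mul, Finset.range_eq_Ico,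
      hsumw 0 N (Nat.zero_le _), Nat.zero_mul, rlen_zero, sub_zero]
  have hTT : rlen t p.getVert (N * r) ≤ T t a b := by
    rw [← hgeo, plen_eq_rlen]; exact rlen_mono h0 _ (hle N le_rfl)
  have hNr : (N : ℝ) * (ε₁ * r) ≤ ε₁ * ℓ := by
    have : (N : ℝ) * r ≤ ℓ := by exact_mod_cast hle N le_rfl
    have := mul_le_mul_of_nonneg_left this hε₁
    linarith
  have hBc : (Bset.card : ℝ) * (A * r) ≤
      A * (r * β + ((100 * m * (r * β) + 2 * (ε₂ * n)) / r₀ + low)) := by
    have h1 : (Bset.card : ℝ) ≤ S.card + I.card := by exact_mod_cast hcardB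
    have h2 := mul_le_mul_of_nonneg_right h1 (show (0 : ℝ) ≤ A * r by positivity)
    have h3 := mul_le_mul_of_nonneg_left hIr hA
    have h4 := mul_le_mul_of_nonneg_left hSb (show (0 : ℝ) ≤ A * r by positivity)
    linarith
  have hlastp : muG m G (toR (z (N + 1)) - toR (z N)) ≤ A * r := muG_piece_le hS p r N
  calc stepSumG m G r p = ∑ i ∈ Finset.range N, muG m G (toR (z (i + 1)) - toR (z i)) +
        muG m G (toR (z (N + 1)) - toR (z N)) := by
        simp only [stepSumG, ← hℓ, ← hN, Finset.sum_range_succ, hz]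
    _ ≤ _ := by linarith

/-- Large cells are rarely bad, uniformly in the cell. -/
lemma badCellG_prob (hG : LawGen G) (hm : 0 < m) (hSF : ShieldFacts m) (hS : ShapeG m G κ A)
    {ε δ : ℝ} (hε : 0 < ε) (hδ : 0 < δ) :
    ∀ᶠ r : ℕ in atTop, ∀ Q : V, law G (BadCellF (muG m G) ε r Q) ≤ ENNReal.ofReal δ := by
  have := hG.prob
  filter_upwards [(hS.box 2 ε hε).eventually_le_const (ENNReal.ofReal_pos.2 hδ),
    eventually_ge_atTop 1] with r hr hr1 Q
  refine le_trans ?_ hr
  set v : V := ((r : ℤ) * Q.1, (r : ℤ) * Q.2) with hv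
  rw [← law_shift_preimage (G := G) v {t | ∃ x y : V, InBox (2 * r) x ∧ InBox (2 * r) y ∧
    ε * r < |T (shield m t) x y - muG m G (toR y - toR x)|}]
  refine measure_mono_ae ((ae_posG hG).mono fun t ht => ?_)
  rintro ⟨z, w, q, hz, hl, hlt⟩
  simp only [cellOf] at hz
  obtain ⟨a1, a2⟩ := ediv_bounds (show 0 < r by omega) z.1
  obtain ⟨b1, b2⟩ := ediv_bounds (show 0 < r by omega) z.2
  have hq := l1_le_length q
  have := abs_nonneg (z.1 - w.1)
  have := abs_nonneg (z.2 - w.2)
  have c1 := abs_le.1 (show |z.1 - w.1| ≤ (r : ℤ) by omega)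
  have c2 := abs_le.1 (show |z.2 - w.2| ≤ (r : ℤ) by omega)
  subst hz
  simp only at hv
  refine ⟨z - v, w - v, ?_, ?_, ?_⟩
  · simp only [InBox, hv, abs_le, Prod.fst_sub, Prod.snd_sub]; push_cast; omega
  · simp only [InBox, hv, abs_le, Prod.fst_sub, Prod.snd_sub]; push_cast; omega
  · have h1 := T_shield_le hm hSF (t := shift v t) (fun e => (ht _).le) (z - v) (w - v)
    rw [T_shift, sub_add_cancel, sub_add_cancel] at h1
    rw [toR_sub, toR_sub, sub_sub_sub_cancel_right, abs_sub_comm]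
    refine lt_of_lt_of_le ?_ (le_abs_self _)
    linarith [T_le (fun e => (ht e).le) q]

/-- Walks rarely have many edges below a small threshold. -/
lemma exists_light (hG : LawGen G) {θ : ℝ} (hθ : 0 < θ) : ∃ r₀ : ℝ, 0 < r₀ ∧
    ∀ (x : V) (n : ℕ), law G {t | ∃ y, ∃ p : grid.Walk x y, p.IsPath ∧ p.length = n ∧
      θ * n < hitCount (Set.Iio r₀) t p} ≤ ENNReal.ofReal ((1 / 2) ^ n) := by
  obtain ⟨δ, hδ, h⟩ := hitCount_probG hG hθ
  obtain ⟨r₀, hr₀, -, hr₀G⟩ := exists_small_lowG hG hδ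
  exact ⟨r₀, hr₀, h _ measurableSet_Iio hr₀G⟩

/-- The block shape bound holds with probability tending to one, for every large scale. -/
theorem blockPropG (hG : LawGen G) (hm : 0 < m) (hSF : ShieldFacts m) (hS : ShapeG m G κ A)
    (hC : CutProp m G) : BlockPropG m G := by
  classical
  intro C ε hε
  have hA := hS.A_pos
  have := hG.prob
  have : IsProbabilityMeasure (law G) := by unfold law; infer_instance
  set ε₁ : ℝ := ε / (8 * (C + 1)) with hε₁
  set θ : ℝ := ε / (8 * A * (C + 1)) with hθ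
  obtain ⟨r₀, hr₀, hhit⟩ := exists_light hG (show 0 < θ by positivity)
  obtain ⟨m₀, hm₀⟩ := exists_nat_gt (4 * A / ε)
  have hm₀' : (0 : ℝ) < m₀ := lt_trans (by positivity) hm₀
  have hm₀n : 0 < m₀ := by exact_mod_cast hm₀'
  set β : ℝ := min 1 (ε / (8 * A * (1 + 100 * m / r₀))) with hβ
  have hβ0 : 0 < β := lt_min one_pos (by positivity)
  set ε₂ : ℝ := ε * r₀ / (16 * A) with hε₂
  obtain ⟨rc, hrc⟩ := hC (C + 1) ε₂ (by positivity)
  obtain ⟨M₀, hM₀⟩ := exists_nat_gt (16 / β)
  rw [div_lt_iff₀ hβ0] at hM₀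
  set ρ : ℝ := 1 / (2 * 18 ^ C) with hρ
  have hρ0 : 0 < ρ := by positivity
  have hρ1 : ρ ≤ 1 := by
    rw [hρ, div_le_one (by positivity)]
    linarith [one_le_pow₀ (show (1 : ℝ) ≤ 18 by norm_num) (n := C)]
  filter_upwards [badCellG_prob hG hm hSF hS (show 0 < ε₁ by positivity)
    (show (0 : ℝ) < ρ ^ M₀ by positivity), eventually_gt_atTop 0, eventually_ge_atTop rc]
    with r hQ hr hrrc
  have hr' : (0 : ℝ) < r := by exact_mod_cast hr
  set g : ℕ → ℝ := fun n => ((2 * C + 1 : ℕ) : ℝ) ^ 2 *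
    (18 ^ C * (((n : ℝ) + 1) ^ 2 * (1 / 2) ^ (n / r)) +
      ((C : ℝ) + 1) * (((n : ℝ) + 1) ^ 3 * (1 / 2) ^ (n / m₀))) with hg
  have hgt : Tendsto (fun n => ENNReal.ofReal (g n)) atTop (𝓝 0) := by
    have := ((((summable_poly_half hr 2).mul_left (18 ^ C : ℝ)).add
      ((summable_poly_half hm₀n 3).mul_left ((C : ℝ) + 1))).mul_left
        (((2 * C + 1 : ℕ) : ℝ) ^ 2)).tendsto_atTop_zero
    rw [← ENNReal.ofReal_zero]
    exact ENNReal.tendsto_ofReal this
  have hall := (hrc r hrrc).add hgt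
  rw [add_zero] at hall
  refine tendsto_of_tendsto_of_tendsto_of_le_of_le' tendsto_const_nhds hall
    (Eventually.of_forall fun n => zero_le) ?_
  filter_upwards [tendsto_natCast_atTop_atTop.eventually_ge_atTop (4 * A * r / ε)] with n hnε
  rw [div_le_iff₀ hε] at hnε
  have hn0 : (0 : ℝ) ≤ n := Nat.cast_nonneg n
  set Bx : Finset V := Finset.Icc (-((C * n : ℕ) : ℤ)) (C * n : ℕ) ×ˢ
    Finset.Icc (-((C * n : ℕ) : ℤ)) (C * n : ℕ) with hBx
  set k : ℕ := ⌈β * n / (16 * r)⌉₊ with hk
  set Many : V → Set Conf := fun a => {t | ∃ c : ℕ → V, c 0 = cellOf r a ∧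
    (∀ i, CellNbr (c i) (c (i + 1))) ∧ ∃ S ⊆ (Finset.range (C * (n / r + 1))).image c,
      β * n / r < S.card ∧ ∀ Q ∈ S, t ∈ BadCellF (muG m G) ε₁ r Q} with hMany
  set Hit : V → ℕ → Set Conf := fun a ℓ => {t | ∃ y, ∃ p : grid.Walk a y, p.IsPath ∧ p.length = ℓ ∧
    θ * ℓ < hitCount (Set.Iio r₀) t p} with hHit
  have hneg : law G {t | ¬ ∀ e, 0 < t e} = 0 := ae_iff.1 (ae_posG hG)
  refine (measure_mono (t := {t | ¬ CutOK m ε₂ (C + 1) r n t} ∪
    (⋃ a ∈ Bx, Many a ∪ ⋃ ℓ ∈ Finset.Icc (n / m₀) (C * n), Hit a ℓ) ∪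
    {t | ¬ ∀ e, 0 < t e}) ?_).trans ?_
  · intro t ht
    simp only [Set.mem_ofPred_eq, BlockGoodG] at ht
    push Not at ht
    obtain ⟨a, b, p, ha, hp, hlen, hgeo, hOa, hOb, hlt⟩ := ht
    by_contra hcon
    simp only [Set.mem_union, Set.mem_iUnion, not_or, not_exists, Set.mem_ofPred_eq,
      not_not] at hcon
    obtain ⟨⟨hcut, hcon⟩, hpos⟩ := hcon
    have h0 : ∀ e, 0 ≤ t e := fun e => (hpos e).le
    have haB : a ∈ Bx := Finset.mem_product.2
      ⟨Finset.mem_Icc.2 (abs_le.1 ha.1), Finset.mem_Icc.2 (abs_le.1 ha.2)⟩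
    obtain ⟨hnMany, hnHit⟩ := hcon a haB
    have hT0 := T_nonneg h0 a b
    have hlenR : (p.length : ℝ) ≤ (C : ℝ) * n := by exact_mod_cast hlen
    by_cases hsmall : p.length < n / m₀
    · have h1 : (p.length : ℝ) * m₀ ≤ n := by
        have : p.length * m₀ ≤ n :=
          (Nat.mul_le_mul_right _ hsmall.le).trans (Nat.div_mul_le_self n m₀)
        exact_mod_cast this
      have h2 := stepSumG_le_length hS (r := r) p
      rw [div_lt_iff₀ hε] at hm₀
      have h3 : A * (p.length : ℝ) ≤ ε / 4 * n := by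
        have a1 := mul_le_mul_of_nonneg_left h1 hε.le
        have a2 := mul_le_mul_of_nonneg_right hm₀.le (Nat.cast_nonneg p.length)
        linarith
      have : 0 ≤ ε * (n : ℝ) := by positivity
      linarith
    have hlow : (hitCount (Set.Iio r₀) t p : ℝ) ≤ θ * p.length := by
      by_contra hc
      exact hnHit p.length (Finset.mem_Icc.2 ⟨not_lt.1 hsmall, hlen⟩)
        ⟨b, p, hp, rfl, not_le.1 hc⟩
    have hSb : ∀ S ⊆ (Finset.range (p.length / r)).image fun i => cellOf r (p.getVert (i * r)),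
        (∀ Q ∈ S, t ∈ BadCellF (muG m G) ε₁ r Q) → (S.card : ℝ) ≤ β * n / r := by
      intro S hSub hS'
      by_contra hc
      refine hnMany ⟨fun i => cellOf r (p.getVert (i * r)), by simp, fun i => cell_seg hr p i, S,
        hSub.trans (Finset.image_subset_image (Finset.range_mono ?_)), not_le.1 hc, hS'⟩
      rw [Nat.div_le_iff_le_mul_add_pred hr]
      have := Nat.mul_le_mul_left C (Nat.lt_mul_div_succ n hr).le
      rw [mul_left_comm] at this
      omega
    have hCn : C * n ≤ (C + 1) * n := Nat.mul_le_mul_right n (Nat.le_succ C)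
    have hdet := blockG_det hm hS hr hr₀ (show (0 : ℝ) ≤ ε₁ by positivity) h0 hcut hp hgeo hOa hOb
      (by
        obtain ⟨h1, h2⟩ := ha
        rw [abs_le] at h1 h2
        have : ((C * n : ℕ) : ℤ) ≤ (((C + 1) * n : ℕ) : ℤ) := Int.ofNat_le.2 hCn
        exact ⟨by omega, by omega, by omega, by omega⟩)
      (hlen.trans hCn)
      (by
        rw [show (r : ℝ) * (β * n / r) = β * n by field_simp]
        have := mul_le_mul_of_nonneg_right (min_le_left (1 : ℝ) (ε / (8 * A * (1 + 100 * m / r₀))))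
          hn0
        rw [← hβ] at this
        have : (0 : ℝ) ≤ (C : ℝ) * n := by positivity
        push_cast
        linarith)
      hlow hSb
    have hεn : 0 ≤ ε * (n : ℝ) := by positivity
    have e1 : ε₁ * (p.length : ℝ) ≤ ε / 8 * n := by
      have a1 := mul_le_mul_of_nonneg_left hlenR (show (0 : ℝ) ≤ ε₁ by positivity)
      have a2 : ε₁ * ((C : ℝ) + 1) = ε / 8 := by rw [hε₁]; field_simp
      have a3 : 0 ≤ ε₁ * (n : ℝ) := by positivity
      have a4 : ε₁ * ((C : ℝ) + 1) * n = ε / 8 * n := by rw [a2]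
      linarith
    have e2 : A * ((r : ℝ) * (β * n / r) +
        ((100 * m * (r * (β * n / r)) + 2 * (ε₂ * n)) / r₀ + θ * p.length)) ≤ ε / 2 * n := by
      rw [show (r : ℝ) * (β * n / r) = β * n by field_simp]
      have b1 : A * (1 + 100 * m / r₀) * β ≤ ε / 8 := by
        have := mul_le_mul_of_nonneg_left
          (min_le_right (1 : ℝ) (ε / (8 * A * (1 + 100 * m / r₀))))
          (show 0 ≤ A * (1 + 100 * m / r₀) by positivity)
        rw [← hβ] at this
        refine this.trans (le_of_eq ?_)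
        field_simp
      have b2 := mul_le_mul_of_nonneg_right b1 hn0
      have b3 : A * (2 * (ε₂ * n)) / r₀ = ε / 8 * n := by rw [hε₂]; field_simp; ring
      have b4 : A * θ * ((C : ℝ) + 1) * n = ε / 8 * n := by rw [hθ]; field_simp
      have b5 := mul_le_mul_of_nonneg_left hlenR (show (0 : ℝ) ≤ A * θ by positivity)
      have b6 : 0 ≤ A * θ * (n : ℝ) := by positivity
      rw [show A * (β * n + ((100 * m * (β * n) + 2 * (ε₂ * n)) / r₀ + θ * p.length)) =
        A * (1 + 100 * m / r₀) * β * n + A * (2 * (ε₂ * n)) / r₀ + A * θ * p.length by ring]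
      linarith
    linarith
  · refine (measure_union_le _ _).trans ?_
    rw [hneg, add_zero]
    refine (measure_union_le _ _).trans (add_le_add le_rfl ?_)
    refine (measure_biUnion_finset_le _ _).trans ((Finset.sum_le_card_nsmul _ _
      (ENNReal.ofReal (18 ^ C * (1 / 2) ^ (n / r) +
        ((C : ℝ) + 1) * ((n : ℝ) + 1) * (1 / 2) ^ (n / m₀))) fun a _ => ?_).trans ?_)
    · refine (measure_union_le _ _).trans ?_
      rw [ENNReal.ofReal_add (by positivity) (by positivity)]
      refine add_le_add ?_ ?_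
      · refine (many_bad hG.prob (pow_le_one₀ hρ0.le hρ1) hr hQ (cellOf r a) _ (m := k)
          (fun i hi => ?_)).trans ?_
        · have h1 : (k : ℝ) < β * n / (16 * r) + 1 := Nat.ceil_lt_add_one (by positivity)
          rw [show β * n / (16 * (r : ℝ)) = β * n / r / 16 by ring] at h1
          have h2 : ((16 * k : ℕ) : ℝ) < ((i + 16 : ℕ) : ℝ) := by push_cast; linarith
          have h3 : 16 * k < i + 16 := by exact_mod_cast h2
          omega
        · have hmq : n / r ≤ M₀ * k := by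
            have h1 : β * n / (16 * r) ≤ k := Nat.le_ceil _
            have h2 : ((n / r : ℕ) : ℝ) ≤ (n : ℝ) / r := Nat.cast_div_le
            have h3 : (n : ℝ) / r ≤ (M₀ : ℝ) * k := by
              refine le_trans ?_ (mul_le_mul_of_nonneg_left h1 (Nat.cast_nonneg M₀))
              rw [← mul_div_assoc, div_le_div_iff₀ hr' (by positivity)]
              have := mul_le_mul_of_nonneg_right hM₀.le (show (0 : ℝ) ≤ (n : ℝ) * r by positivity)
              linarith
            exact_mod_cast h2.trans h3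
          rw [← ENNReal.ofReal_pow (by positivity), show (18 : ℝ≥0∞) = ENNReal.ofReal 18 by simp,
            ← ENNReal.ofReal_pow (by norm_num), ← ENNReal.ofReal_mul (by positivity), ← pow_mul]
          refine ENNReal.ofReal_le_ofReal ((mul_le_mul_of_nonneg_left
            (pow_le_pow_of_le_one hρ0.le hρ1 hmq) (by positivity)).trans (le_of_eq ?_))
          rw [Nat.mul_succ, pow_add, pow_mul, hρ, one_div, mul_inv, mul_pow, inv_pow (18 ^ C : ℝ)]
          field_simp
      · refine (measure_biUnion_finset_le _ _).trans ((Finset.sum_le_card_nsmul _ _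
          (ENNReal.ofReal ((1 / 2) ^ (n / m₀))) fun ℓ hℓ =>
            (hhit a ℓ).trans (ENNReal.ofReal_le_ofReal
              (pow_le_pow_of_le_one (by norm_num) (by norm_num) (Finset.mem_Icc.1 hℓ).1))).trans ?_)
        rw [nsmul_eq_mul, ← ENNReal.ofReal_natCast, ← ENNReal.ofReal_mul (Nat.cast_nonneg _)]
        refine ENNReal.ofReal_le_ofReal (mul_le_mul_of_nonneg_right ?_ (by positivity))
        have : (Finset.Icc (n / m₀) (C * n)).card ≤ C * n + 1 := by
          rw [Nat.card_Icc]; exact Nat.sub_le _ _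
        have : ((Finset.Icc (n / m₀) (C * n)).card : ℝ) ≤ ((C * n + 1 : ℕ) : ℝ) := Nat.cast_le.2 this
        push_cast at this
        have : (0 : ℝ) ≤ (C : ℝ) + n := by positivity
        linarith
    · rw [nsmul_eq_mul, ← ENNReal.ofReal_natCast, ← ENNReal.ofReal_mul (Nat.cast_nonneg _)]
      refine ENNReal.ofReal_le_ofReal ?_
      simp only [hg]
      have hcard : (Bx.card : ℝ) ≤ ((2 * C + 1 : ℕ) : ℝ) ^ 2 * ((n : ℝ) + 1) ^ 2 := by
        rw [hBx, Finset.card_product, Int.card_Icc,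
          show ((C * n : ℕ) : ℤ) + 1 - -((C * n : ℕ) : ℤ) = ((2 * (C * n) + 1 : ℕ) : ℤ) by
            push_cast; ring, Int.toNat_natCast, Nat.cast_mul, ← _root_.sq, ← mul_pow]
        refine pow_le_pow_left₀ (by positivity) ?_ 2
        push_cast
        have : (0 : ℝ) ≤ 2 * (C : ℝ) + n := by positivity
        linarith
      refine (mul_le_mul_of_nonneg_right hcard (by positivity)).trans (le_of_eq ?_)
      ring

/-- Along a geodesic whose ends almost realise a linear minorant of the norm, the displacements at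
scale `r` almost realise it as well. -/
theorem block_slopeG {C r : ℕ} {ε : ℝ} {n : ℕ} (h : BlockGoodG m G C r ε n t)
    (hr : 0 < r) {p : grid.Walk a b} (ha : InBox (C * n) a) (hp : p.IsPath)
    (hlen : p.length ≤ C * n) (hgeo : plen t p = T t a b) (hOa : OKpt m t a) (hOb : OKpt m t b)
    (hup : T t a b ≤ muG m G (toR b - toR a) + ε * n) (φ : ℝ × ℝ →ₗ[ℝ] ℝ)
    (hφ : muG m G (toR b - toR a) ≤ φ (toR b - toR a) + ε * n) :
    ∑ i ∈ Finset.range (p.length / r + 1),
      (muG m G (toR (p.getVert ((i + 1) * r)) - toR (p.getVert (i * r))) -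
        φ (toR (p.getVert ((i + 1) * r)) - toR (p.getVert (i * r)))) ≤ 3 * ε * n := by
  have h1 := h a b p ha hp hlen hgeo hOa hOb
  have h2 : ∑ i ∈ Finset.range (p.length / r + 1),
      φ (toR (p.getVert ((i + 1) * r)) - toR (p.getVert (i * r))) = φ (toR b - toR a) := by
    simp only [map_sub]
    rw [Finset.sum_range_sub (fun i => φ (toR (p.getVert (i * r))))]
    simp [p.getVert_of_length_le (show p.length ≤ (p.length / r + 1) * r from
      (Nat.lt_mul_div_succ p.length hr).le.trans (Nat.mul_comm _ _).le)]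
  rw [Finset.sum_sub_distrib, h2]
  simp only [stepSumG] at h1
  linarith

end Vale.Agent.P158.Gen
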