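import Vale.Agent.P158.Gen.Spec

/-!
The block shape bound for all atomless laws.
-/

open MeasureTheory Filter Topology

namespace Vale.Agent.P158.Gen

open Vale.Agent.P158

/-- The sum of the norms of the displacements of a walk after every `r` steps. -/
noncomputable def stepSumG (m : ℝ) (G : Measure ℝ) (r : ℕ) {a b : V} (p : grid.Walk a b) : ℝ :=
  ∑ i ∈ Finset.range (p.length / r + 1),
    muG m G (toR (p.getVert ((i + 1) * r)) - toR (p.getVert (i * r)))

/-- Geodesic segments of length at most `C n` between unenclosed vertices obey the block shape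
bound at scale `r` with error `ε n`. -/
def BlockGoodG (m : ℝ) (G : Measure ℝ) (C r : ℕ) (ε : ℝ) (n : ℕ) (t : Conf) : Prop :=
  ∀ (a b : V) (p : grid.Walk a b), InBox (C * n) a → p.IsPath → p.length ≤ C * n →
    plen t p = T t a b → OKpt m t a → OKpt m t b → stepSumG m G r p ≤ T t a b + ε * n

/-- The block shape bound holds with probability tending to one. -/
def BlockPropG (m : ℝ) (G : Measure ℝ) : Prop :=
  ∀ (C : ℕ) (ε : ℝ), 0 < ε → ∀ᶠ r : ℕ in atTop,
    Tendsto (fun n : ℕ => law G {t | ¬ BlockGoodG m G C r ε n t}) atTop (𝓝 0)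

end Vale.Agent.P158.Gen
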