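import Vale.Agent.P158.Gen.Defs

/-!
The clusters of rare edges have exponential tails: an exploration of a connected set of `S`
edges from a finite set `U` is coded by `|U| + 6 S` bits.
-/

open MeasureTheory Filter Topology ProbabilityTheory
open scoped ENNReal

namespace Vale.Agent.P158.Gen

open Vale.Agent.P158

/-- The six other edges in the two squares of an edge. -/
def sqNbr (e : Edge) : Finset Edge :=
  ((if e.2 then sq e.1 ∪ sq (e.1.1 - 1, e.1.2) else sq e.1 ∪ sq (e.1.1, e.1.2 - 1))).erase e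

lemma sqNbr_card (e : Edge) : (sqNbr e).card ≤ 6 := by
  obtain ⟨⟨a, b⟩, v⟩ := e
  have h4 : ∀ w : V, (sq w).card ≤ 4 := fun w => by
    refine (Finset.card_insert_le _ _).trans (Nat.succ_le_succ ?_)
    refine (Finset.card_insert_le _ _).trans (Nat.succ_le_succ ?_)
    exact (Finset.card_insert_le _ _).trans (by simp)
  have key : ∀ w₁ w₂ : V, ((a, b), v) ∈ sq w₁ → ((a, b), v) ∈ sq w₂ →
      ((sq w₁ ∪ sq w₂).erase ((a, b), v)).card ≤ 6 := fun w₁ w₂ h1 h2 => by
    rw [Finset.card_erase_of_mem (Finset.mem_union_left _ h1)]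
    have := Finset.card_union_add_card_inter (sq w₁) (sq w₂)
    have : 1 ≤ (sq w₁ ∩ sq w₂).card :=
      Finset.card_pos.2 ⟨_, Finset.mem_inter.2 ⟨h1, h2⟩⟩
    have := h4 w₁
    have := h4 w₂
    omega
  cases v <;> simp only [sqNbr, Bool.false_eq_true, if_true, if_false] <;>
    exact key _ _ (by simp [sq]) (by simp [sq])

lemma mem_sqNbr {e f : Edge} (h : SqAdj e f) : f = e ∨ f ∈ sqNbr e := by
  obtain ⟨w, he, hf⟩ := h
  rcases eq_or_ne f e with hfe | hfe
  · exact Or.inl hfe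
  refine Or.inr ?_
  obtain ⟨⟨a, b⟩, v⟩ := e
  obtain ⟨c, d⟩ := w
  simp only [sqNbr, Finset.mem_erase]
  refine ⟨hfe, ?_⟩
  simp only [sq, Finset.mem_insert, Finset.mem_singleton, Prod.mk.injEq] at he
  rcases he with ⟨⟨rfl, rfl⟩, rfl⟩ | ⟨⟨rfl, rfl⟩, rfl⟩ | ⟨⟨rfl, rfl⟩, rfl⟩ | ⟨⟨rfl, rfl⟩, rfl⟩ <;>
    simp [hf]

/-- Every edge of `A` is joined inside `A` to an edge of `U`. -/
def Reach (U A : Finset Edge) : Prop :=
  ∀ a ∈ A, ∃ u ∈ U, u ∈ A ∧ Relation.ReflTransGen (fun x y => SqAdj x y ∧ y ∈ A) u a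

lemma Reach.erase_of_notMem {U A : Finset Edge} {u : Edge} (h : Reach U A) (hu : u ∉ A) :
    Reach (U.erase u) A := by
  intro a ha
  obtain ⟨w, hw, hwA, hwa⟩ := h a ha
  exact ⟨w, Finset.mem_erase.2 ⟨fun e => hu (e ▸ hwA), hw⟩, hwA, hwa⟩

lemma Reach.step {U A : Finset Edge} {u : Edge} (h : Reach U A) :
    Reach (U.erase u ∪ sqNbr u) (A.erase u) := by
  intro a ha
  obtain ⟨hau, haA⟩ := Finset.mem_erase.1 ha
  obtain ⟨w, hw, hwA, hwa⟩ := h a haA
  have key : a = u ∨ ∃ s ∈ U.erase u ∪ sqNbr u, s ∈ A.erase u ∧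
      Relation.ReflTransGen (fun x y => SqAdj x y ∧ y ∈ A.erase u) s a := by
    clear hau haA ha
    induction hwa with
    | refl =>
      rcases eq_or_ne w u with e | e
      · exact Or.inl e
      · exact Or.inr ⟨w, Finset.mem_union_left _ (Finset.mem_erase.2 ⟨e, hw⟩),
          Finset.mem_erase.2 ⟨e, hwA⟩, Relation.ReflTransGen.refl⟩
    | @tail x y _ hxy ih =>
      rcases eq_or_ne y u with e | e
      · exact Or.inl e
      rcases ih with rfl | ⟨s, hs, hsA, hsx⟩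
      · rcases mem_sqNbr hxy.1 with e' | e'
        · exact absurd e' e
        · exact Or.inr ⟨y, Finset.mem_union_right _ e', Finset.mem_erase.2 ⟨e, hxy.2⟩,
            Relation.ReflTransGen.refl⟩
      · exact Or.inr ⟨s, hs, hsA, hsx.tail ⟨hxy.1, Finset.mem_erase.2 ⟨e, hxy.2⟩⟩⟩
  rcases key with e | hk
  · exact absurd e hau
  · exact hk

/-- At most `2 ^ (|U| + 6 S)` sets of `S` edges suffice to witness all sets joined to `U`. -/
theorem exists_witness (S : ℕ) (U : Finset Edge) :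
    ∃ 𝔉 : Finset (Finset Edge), 𝔉.card ≤ 2 ^ (U.card + 6 * S) ∧ (∀ F ∈ 𝔉, F.card = S) ∧
      ∀ A, Reach U A → S ≤ A.card → ∃ F ∈ 𝔉, F ⊆ A := by
  suffices h : ∀ (k S : ℕ) (U : Finset Edge), U.card + 6 * S ≤ k →
      ∃ 𝔉 : Finset (Finset Edge), 𝔉.card ≤ 2 ^ k ∧ (∀ F ∈ 𝔉, F.card = S) ∧
        ∀ A, Reach U A → S ≤ A.card → ∃ F ∈ 𝔉, F ⊆ A from h _ S U le_rfl
  clear S U
  intro k
  induction k with
  | zero =>
    intro S U h
    refine ⟨{∅}, by simp, fun F hF => ?_, fun A _ _ => ⟨∅, by simp, by simp⟩⟩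
    rw [Finset.mem_singleton.1 hF, Finset.card_empty]
    omega
  | succ k ih =>
    intro S U h
    rcases Nat.eq_zero_or_pos S with rfl | hS
    · exact ⟨{∅}, by simpa using Nat.one_le_two_pow,
        fun F hF => by simp [Finset.mem_singleton.1 hF], fun A _ _ => ⟨∅, by simp, by simp⟩⟩
    rcases U.eq_empty_or_nonempty with rfl | ⟨u, hu⟩
    · refine ⟨∅, by simp, by simp, fun A hA hle => ?_⟩
      obtain ⟨a, ha⟩ := Finset.card_pos.1 (hS.trans_le hle)
      obtain ⟨w, hw, -⟩ := hA a ha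
      simp at hw
    have hc := Finset.card_erase_of_mem hu
    have hU := Finset.card_pos.2 ⟨u, hu⟩
    obtain ⟨𝔄, a1, a2, a3⟩ := ih S (U.erase u) (by omega)
    obtain ⟨𝔅, b1, b2, b3⟩ := ih (S - 1) (U.erase u ∪ sqNbr u) (by
      have := Finset.card_union_le (U.erase u) (sqNbr u)
      have := sqNbr_card u
      omega)
    refine ⟨𝔄 ∪ (𝔅.filter fun F => u ∉ F).image (insert u), ?_, ?_, ?_⟩
    · refine (Finset.card_union_le _ _).trans ?_
      rw [pow_succ, mul_two]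
      exact add_le_add a1 ((Finset.card_image_le.trans (Finset.card_filter_le _ _)).trans b1)
    · intro F hF
      rcases Finset.mem_union.1 hF with hF | hF
      · exact a2 F hF
      · obtain ⟨F', hF', rfl⟩ := Finset.mem_image.1 hF
        obtain ⟨h1, h2⟩ := Finset.mem_filter.1 hF'
        rw [Finset.card_insert_of_notMem h2, b2 F' h1]
        omega
    · intro A hA hle
      by_cases hua : u ∈ A
      · obtain ⟨F, hF, hFA⟩ := b3 _ hA.step (by rw [Finset.card_erase_of_mem hua]; omega)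
        refine ⟨insert u F, Finset.mem_union_right _ (Finset.mem_image_of_mem _
          (Finset.mem_filter.2 ⟨hF, fun hm => (Finset.mem_erase.1 (hFA hm)).1 rfl⟩)), ?_⟩
        exact Finset.insert_subset hua (hFA.trans (Finset.erase_subset _ _))
      · obtain ⟨F, hF, hFA⟩ := a3 _ (hA.erase_of_notMem hua) hle
        exact ⟨F, Finset.mem_union_left _ hF, hFA⟩

/-- An edge of a cluster lies in a finite bad set joined inside itself to the first edge. -/
lemma cl_finite_witness {m : ℝ} {t : Conf} {e f : Edge} (h : f ∈ cl m t e) :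
    ∃ A : Finset Edge, f ∈ A ∧ (∀ a ∈ A, m < t a) ∧ Reach {e} A := by
  obtain ⟨he, hf⟩ := h
  induction hf with
  | refl =>
    refine ⟨{e}, Finset.mem_singleton_self _, by simpa using he, fun a ha => ?_⟩
    rw [Finset.mem_singleton] at ha
    subst ha
    exact ⟨a, Finset.mem_singleton_self _, Finset.mem_singleton_self _,
      Relation.ReflTransGen.refl⟩
  | @tail x y _ hxy ih =>
    obtain ⟨A, hxA, hbad, hA⟩ := ih
    have mono : ∀ u a, Relation.ReflTransGen (fun p q => SqAdj p q ∧ q ∈ A) u a →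
        Relation.ReflTransGen (fun p q => SqAdj p q ∧ q ∈ insert y A) u a := fun u a hua =>
      Relation.ReflTransGen.mono (fun p q hpq => ⟨hpq.1, Finset.mem_insert_of_mem hpq.2⟩) _ _ hua
    refine ⟨insert y A, Finset.mem_insert_self _ _, ?_, fun a ha => ?_⟩
    · intro a ha
      rcases Finset.mem_insert.1 ha with rfl | ha
      · exact hxy.2
      · exact hbad a ha
    rcases Finset.mem_insert.1 ha with rfl | ha
    · obtain ⟨u, hu, huA, hux⟩ := hA x hxA
      exact ⟨u, hu, Finset.mem_insert_of_mem huA,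
        (mono u x hux).tail ⟨hxy.1, Finset.mem_insert_self _ _⟩⟩
    · obtain ⟨u, hu, huA, hua⟩ := hA a ha
      exact ⟨u, hu, Finset.mem_insert_of_mem huA, mono u a hua⟩

/-- A large union of clusters contains one of the witness sets. -/
lemma exists_bad_witness {m : ℝ} {t : Conf} {U : Finset Edge} {S : ℕ}
    {𝔉 : Finset (Finset Edge)} (h𝔉 : ∀ A, Reach U A → S ≤ A.card → ∃ F ∈ 𝔉, F ⊆ A)
    (h : (S : ℕ∞) ≤ (⋃ e ∈ U, cl m t e).encard) : ∃ F ∈ 𝔉, ∀ a ∈ F, m < t a := by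
  classical
  obtain ⟨P, hP, hPS⟩ := Set.exists_subset_encard_eq h
  have hPfin : P.Finite := Set.finite_of_encard_eq_coe hPS
  have hmem : ∀ f ∈ hPfin.toFinset, ∃ A : Finset Edge, f ∈ A ∧ (∀ a ∈ A, m < t a) ∧ Reach U A := by
    intro f hf
    obtain ⟨e, he, hfe⟩ := Set.mem_iUnion₂.1 (hP (hPfin.mem_toFinset.1 hf))
    obtain ⟨A, h1, h2, h3⟩ := cl_finite_witness hfe
    refine ⟨A, h1, h2, fun a ha => ?_⟩
    obtain ⟨u, hu, huA, hua⟩ := h3 a ha
    rw [Finset.mem_singleton] at hu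
    exact ⟨u, hu ▸ he, huA, hua⟩
  choose! A hA1 hA2 hA3 using hmem
  have hsub : hPfin.toFinset ⊆ hPfin.toFinset.biUnion A := fun f hf =>
    Finset.mem_biUnion.2 ⟨f, hf, hA1 f hf⟩
  have hcard : hPfin.toFinset.card = S := by
    have := hPfin.encard_eq_coe_toFinset_card.symm.trans hPS
    exact_mod_cast this
  obtain ⟨F, hF, hFA⟩ := h𝔉 (hPfin.toFinset.biUnion A) (fun a ha => by
    obtain ⟨f, hf, haf⟩ := Finset.mem_biUnion.1 ha
    obtain ⟨u, hu, huA, hua⟩ := hA3 f hf a haf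
    refine ⟨u, hu, Finset.mem_biUnion.2 ⟨f, hf, huA⟩, Relation.ReflTransGen.mono
      (fun p q hpq => ⟨hpq.1, Finset.mem_biUnion.2 ⟨f, hf, hpq.2⟩⟩) _ _ hua⟩) (hcard.ge.trans (Finset.card_le_card hsub))
  refine ⟨F, hF, fun a ha => ?_⟩
  obtain ⟨f, hf, haf⟩ := Finset.mem_biUnion.1 (hFA ha)
  exact hA2 f hf a haf

section law
variable {G : Measure ℝ} {m : ℝ}

lemma law_bad (hG : LawGen G) (m : ℝ) (F : Finset Edge) :
    law G {t | ∀ a ∈ F, m < t a} = G (Set.Ioi m) ^ F.card := by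
  have := hG.prob
  have h := Measure.infinitePi_pi (μ := fun _ : Edge => G) (s := F) (t := fun _ => Set.Ioi m)
    fun _ _ => measurableSet_Ioi
  rw [Finset.prod_const] at h
  rw [← h]
  congr 1

/-- **The tail of clusters.** -/
theorem cl_tail (hG : LawGen G) (m : ℝ) (U : Finset Edge) (S : ℕ) :
    law G {t | (S : ℕ∞) ≤ (⋃ e ∈ U, cl m t e).encard} ≤
      2 ^ U.card * (64 * G (Set.Ioi m)) ^ S := by
  obtain ⟨𝔉, h1, h2, h3⟩ := exists_witness S U
  refine (measure_mono (t := ⋃ F ∈ 𝔉, {t | ∀ a ∈ F, m < t a}) fun t ht => ?_).trans ?_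
  · obtain ⟨F, hF, hb⟩ := exists_bad_witness h3 ht
    exact Set.mem_iUnion₂.2 ⟨F, hF, hb⟩
  refine (measure_biUnion_finset_le _ _).trans ?_
  rw [Finset.sum_congr rfl fun F hF => by rw [law_bad hG m F, h2 F hF], Finset.sum_const,
    nsmul_eq_mul, mul_pow, ← mul_assoc]
  refine mul_le_mul_left ?_ _
  calc (𝔉.card : ℝ≥0∞) ≤ ((2 ^ (U.card + 6 * S) : ℕ) : ℝ≥0∞) := by exact_mod_cast h1
    _ = 2 ^ U.card * 64 ^ S := by
      push_cast
      rw [pow_add, pow_mul]
      norm_num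

/-- The tail of clusters below the threshold of `SmallTail`. -/
theorem cl_tail_small (hG : LawGen G) (hm : SmallTail m G) (U : Finset Edge) (S : ℕ) :
    law G {t | (S : ℕ∞) ≤ (⋃ e ∈ U, cl m t e).encard} ≤
      2 ^ U.card * ENNReal.ofReal ((1 / 2) ^ 14) ^ S := by
  refine (cl_tail hG m U S).trans (mul_le_mul_right (pow_le_pow_left' ?_ S) _)
  calc (64 : ℝ≥0∞) * G (Set.Ioi m) ≤ ENNReal.ofReal 64 * ENNReal.ofReal ((1 / 2) ^ 20) := by
        rw [ENNReal.ofReal_ofNat]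
        exact mul_le_mul_right hm.2 _
    _ = ENNReal.ofReal ((1 / 2) ^ 14) := by
        rw [← ENNReal.ofReal_mul (by norm_num)]
        norm_num

/-- The tail of one cluster. -/
theorem cl_tail_one (hG : LawGen G) (hm : SmallTail m G) (e : Edge) (S : ℕ) :
    law G {t | (S : ℕ∞) ≤ (cl m t e).encard} ≤ 2 * ENNReal.ofReal ((1 / 2) ^ 14) ^ S := by
  simpa using cl_tail_small hG hm {e} S

end law

end Vale.Agent.P158.Gen
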