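import Vale.Agent.P158.Gen.Spec
import Vale.Agent.P158.Gen.ClusterTail

/-!
Boxes are under control with high probability: small clusters, short shielded passage times
through unenclosed vertices, and long paths of positive weight per step.
-/

open MeasureTheory Filter Topology
open scoped BigOperators ENNReal

namespace Vale.Agent.P158.Gen.Box

open Vale.Agent.P158

open SimpleGraph (Walk)

variable {G : Measure ℝ} {m : ℝ} {t : Conf}

/-- The tail of the union of the clusters of a finite edge set. -/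
def TailBound (m : ℝ) (G : Measure ℝ) : Prop :=
  ∀ (U : Finset Edge) (S : ℕ),
    law G {t | S ≤ (⋃ e ∈ U, cl m t e).ncard} ≤ ENNReal.ofReal (2 ^ U.card * (1 / 2) ^ S)

/-- The tail bound follows from a small tail of the law. -/
theorem tailBound (hG : LawGen G) (hm : SmallTail m G) : TailBound m G := by
  intro U S
  refine (measure_mono (fun t ht => ?_)).trans ((cl_tail_small hG hm U S).trans ?_)
  · exact (Nat.cast_le.2 ht).trans (Set.ncard_le_encard _)
  · rw [← ENNReal.ofReal_pow (by positivity), show (2 : ℝ≥0∞) = ENNReal.ofReal 2 by simp,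
      ← ENNReal.ofReal_pow (by positivity), ← ENNReal.ofReal_mul (by positivity)]
    refine ENNReal.ofReal_le_ofReal (mul_le_mul_of_nonneg_left ?_ (by positivity))
    exact pow_le_pow_left₀ (by positivity) (by norm_num) S

theorem cl_bad {e f : Edge} (h : f ∈ cl m t e) : m < t f := by
  obtain ⟨he, hr⟩ := h
  rcases Relation.ReflTransGen.cases_tail hr with rfl | ⟨b, -, -, hb⟩
  exacts [he, hb]

theorem mem_cl_self {e : Edge} (h : m < t e) : e ∈ cl m t e := ⟨h, .refl⟩

theorem cl_subset {e f : Edge} (h : f ∈ cl m t e) : cl m t f ⊆ cl m t e :=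
  fun _ hg => ⟨h.1, h.2.trans hg.2⟩

theorem inSq_mono {N N' : ℤ} (h : N ≤ N') {v : V} (hv : InSq N v) : InSq N' v := by
  unfold InSq at *; omega

theorem ae_nonneg (hG : LawGen G) : ∀ᵐ t ∂law G, ∀ e, 0 ≤ t e := by
  have := hG.prob
  refine ae_all_iff.2 fun e => ?_
  have hnull : G (Set.Ici 0)ᶜ = 0 := (prob_compl_eq_zero_iff measurableSet_Ici).2 hG.supp
  rw [← Measure.infinitePi_map_eval (fun _ : Edge => G) e,
    Measure.map_apply (measurable_pi_apply e) measurableSet_Ici.compl] at hnull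
  rw [ae_iff]
  simp only [not_le]
  refine le_antisymm (le_trans (measure_mono fun t ht => ?_) hnull.le) zero_le
  simpa using ht

theorem capTo_nonneg (hm : 0 ≤ m) {x : ℝ} (hx : 0 ≤ x) : 0 ≤ capTo m x := by
  unfold capTo
  split_ifs with h
  · exact hx
  · push Not at h
    have : 0 ≤ (x - m) / (1 + (x - m)) := div_nonneg (by linarith) (by linarith)
    linarith

theorem measurable_capTo (m : ℝ) : Measurable (capTo m) := by
  unfold capTo
  exact Measurable.ite measurableSet_Iic measurable_id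
    (measurable_const.add ((measurable_id.sub measurable_const).div
      (measurable_const.add (measurable_id.sub measurable_const))))

theorem capTo_strictMono (m : ℝ) : StrictMono (capTo m) := by
  intro a b hab
  unfold capTo
  by_cases hb : b ≤ m
  · rw [if_pos hb, if_pos (hab.le.trans hb)]; exact hab
  · rw [if_neg hb]
    push Not at hb
    have hbpos : 0 < (b - m) / (1 + (b - m)) := div_pos (by linarith) (by linarith)
    by_cases ha : a ≤ m
    · rw [if_pos ha]; linarith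
    · rw [if_neg ha]
      push Not at ha
      have : (a - m) / (1 + (a - m)) < (b - m) / (1 + (b - m)) := by
        rw [div_lt_div_iff₀ (by linarith) (by linarith)]
        nlinarith
      linarith

theorem capTo_le (x : ℝ) : capTo m x ≤ m + 1 := by
  unfold capTo
  split_ifs with h
  · linarith
  · push Not at h
    have : (x - m) / (1 + (x - m)) ≤ 1 := by
      rw [div_le_one (by linarith)]; linarith
    linarith

theorem lawOK_capTo (hG : LawGen G) (hm : 0 ≤ m) : LawOK (G.map (capTo m)) (m + 1) := by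
  have := hG.prob
  have hprob : IsProbabilityMeasure (G.map (capTo m)) :=
    Measure.isProbabilityMeasure_map (measurable_capTo m).aemeasurable
  refine ⟨hprob, fun x => ?_, le_antisymm prob_le_one ?_⟩
  · rw [Measure.map_apply (measurable_capTo m) (measurableSet_singleton x)]
    by_cases hx : ∃ a, capTo m a = x
    · obtain ⟨a, rfl⟩ := hx
      rw [show capTo m ⁻¹' {capTo m a} = {a} from by
        ext y; simp [(capTo_strictMono m).injective.eq_iff]]
      exact hG.noAtoms a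
    · rw [show capTo m ⁻¹' {x} = ∅ from Set.eq_empty_of_forall_notMem fun y hy => hx ⟨y, hy⟩]
      exact measure_empty
  · rw [Measure.map_apply (measurable_capTo m) measurableSet_Icc]
    exact hG.supp.ge.trans (measure_mono fun x hx => ⟨capTo_nonneg hm hx, capTo_le x⟩)

theorem law_map_capTo (hG : LawGen G) (m : ℝ) :
    (law G).map (fun t e => capTo m (t e)) = law (G.map (capTo m)) := by
  have := hG.prob
  unfold law
  exact Measure.infinitePi_map_pi (μ := fun _ : Edge => G) (fun _ => measurable_capTo m)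

/-- The edges near the box. -/
noncomputable def edgesIn (N : ℕ) : Finset Edge :=
  (Finset.Icc (-(N : ℤ)) N ×ˢ Finset.Icc (-(N : ℤ)) N) ×ˢ (Finset.univ : Finset Bool)

theorem mem_edgesIn {N : ℕ} {e : Edge} (h : InSq (N : ℤ) (eFst e)) : e ∈ edgesIn N := by
  obtain ⟨h1, h2, h3, h4⟩ := h
  simp only [edgesIn, Finset.mem_product, Finset.mem_Icc, Finset.mem_univ, and_true]
  exact ⟨⟨h1, h2⟩, h3, h4⟩

theorem card_edgesIn (N : ℕ) : (edgesIn N).card = 2 * (2 * N + 1) ^ 2 := by
  simp only [edgesIn, Finset.card_product, Int.card_Icc, Finset.card_univ, Fintype.card_bool]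
  rw [show ((N : ℤ) + 1 - -(N : ℤ)).toNat = 2 * N + 1 by omega]
  ring

theorem eventually_sq_geom : ∃ K : ℝ, 0 ≤ K ∧ ∀ s : ℕ, ((s : ℝ) + 1) ^ 2 * (1 / 2) ^ s ≤
    K * (3 / 4) ^ s := by
  have h := (tendsto_pow_const_mul_const_pow_of_lt_one 2 (show (0 : ℝ) ≤ 2 / 3 by norm_num)
    (by norm_num)).bddAbove_range
  obtain ⟨K, hK⟩ := h
  refine ⟨max K 0 * (3 / 2), by positivity, fun s => ?_⟩
  have h1 : ((s + 1 : ℕ) : ℝ) ^ 2 * (2 / 3) ^ (s + 1) ≤ max K 0 :=
    (hK ⟨s + 1, rfl⟩).trans (le_max_left _ _)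
  have h2 : ((s : ℝ) + 1) ^ 2 * (2 / 3) ^ s ≤ max K 0 * (3 / 2) := by
    rw [pow_succ (2 / 3 : ℝ) s] at h1
    push_cast at h1
    nlinarith
  calc ((s : ℝ) + 1) ^ 2 * (1 / 2) ^ s = ((s : ℝ) + 1) ^ 2 * (2 / 3) ^ s * (3 / 4) ^ s := by
        rw [mul_assoc, ← mul_pow]; norm_num
    _ ≤ _ := mul_le_mul_of_nonneg_right h2 (by positivity)

/-- Large clusters at a box are rare. -/
theorem loc_prob (hT : TailBound m G) (htame : ∀ᵐ t ∂law G, Tame m t) (hF : ShieldFacts m) :
    ∃ K : ℝ, 0 ≤ K ∧ ∀ N L : ℕ, law G {t | ¬ Loc m N L t} ≤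
      ENNReal.ofReal (K * ((N : ℝ) + 1) ^ 2 * (3 / 4) ^ L) := by
  obtain ⟨K, hK0, hK⟩ := eventually_sq_geom
  refine ⟨256 * K, by positivity, fun N L => ?_⟩
  set E : ℕ → Set Conf := fun j => ⋃ e ∈ edgesIn (N + (L + j) + 1),
    {t | L + j ≤ (⋃ f ∈ ({e} : Finset Edge), cl m t f).ncard} with hE
  have hsub : ∀ᵐ t ∂law G, ¬ Loc m N L t → t ∈ ⋃ j, E j := by
    filter_upwards [htame] with t ht hbad
    obtain ⟨e, he, hle⟩ : ∃ e, (InSq N (eFst e) ∨ InSq N (eSnd e) ∨
        ∃ x, InSq N x ∧ Encl (cl m t e) x) ∧ L ≤ (cl m t e).ncard := by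
      by_contra hc
      exact hbad ⟨ht, fun e he => not_le.1 fun h => hc ⟨e, he, h⟩⟩
    refine Set.mem_iUnion.2 ⟨(cl m t e).ncard - L, Set.mem_iUnion₂.2 ⟨e, mem_edgesIn ?_, by
      simp only [Finset.mem_singleton, Set.iUnion_iUnion_eq_left, Set.mem_ofPred_eq]; omega⟩⟩
    rcases he with h | h | ⟨x, hx, h⟩
    · simp only [InSq] at h ⊢; omega
    · have := adj_iff.1 (eFst_eSnd_adj e)
      simp only [InSq] at h ⊢; omega
    · obtain ⟨d1, d2⟩ := hF.encl_near t e x (ht.fin e) h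
      rw [abs_le] at d1 d2
      simp only [InSq] at hx ⊢; omega
  have hEj : ∀ j, law G (E j) ≤
      ENNReal.ofReal (64 * K * ((N : ℝ) + 1) ^ 2 * (3 / 4) ^ L * (3 / 4) ^ j) := by
    intro j
    refine (measure_biUnion_finset_le _ _).trans ((Finset.sum_le_card_nsmul _ _ _ fun e _ =>
      (hT {e} (L + j)).trans_eq (by rw [Finset.card_singleton, pow_one])).trans ?_)
    rw [nsmul_eq_mul, ← ENNReal.ofReal_natCast, ← ENNReal.ofReal_mul (Nat.cast_nonneg _),
      card_edgesIn]
    refine ENNReal.ofReal_le_ofReal ?_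
    have h1 := hK (L + j)
    have h2 : ((2 * ((2 * (N + (L + j) + 1) + 1) ^ 2) : ℕ) : ℝ) ≤
        32 * ((N : ℝ) + 1) ^ 2 * (((L + j : ℕ) : ℝ) + 1) ^ 2 := by
      have h3 : 2 * (N + (L + j) + 1) + 1 ≤ 4 * ((N + 1) * (L + j + 1)) := by nlinarith
      have h4 := Nat.mul_le_mul_left 2 (Nat.pow_le_pow_left h3 2)
      refine (Nat.cast_le.2 h4).trans_eq ?_
      push_cast; ring
    rw [pow_add (3 / 4 : ℝ)] at h1
    refine (mul_le_mul_of_nonneg_right h2 (by positivity)).trans ?_
    have h5 := mul_le_mul_of_nonneg_left h1 (show (0 : ℝ) ≤ 64 * ((N : ℝ) + 1) ^ 2 by positivity)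
    refine le_trans (le_of_eq ?_) (h5.trans (le_of_eq ?_)) <;> ring
  calc law G {t | ¬ Loc m N L t} ≤ law G (⋃ j, E j) := measure_mono_ae hsub
    _ ≤ ∑' j, law G (E j) := measure_iUnion_le _
    _ ≤ ∑' j, ENNReal.ofReal (64 * K * ((N : ℝ) + 1) ^ 2 * (3 / 4) ^ L * (3 / 4) ^ j) :=
        ENNReal.tsum_le_tsum hEj
    _ = _ := by
        have hs : HasSum (fun j : ℕ => (3 / 4 : ℝ) ^ j) 4 := by
          have := hasSum_geometric_of_lt_one (show (0 : ℝ) ≤ 3 / 4 by norm_num) (by norm_num)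
          norm_num at this
          exact this
        have hs' := hs.mul_left (64 * K * ((N : ℝ) + 1) ^ 2 * (3 / 4) ^ L)
        rw [← ENNReal.ofReal_tsum_of_nonneg (fun j => by positivity) hs'.summable, hs'.tsum_eq]
        congr 1; ring

/-- A shortest route between two vertices. -/
noncomputable def route (x y : V) : grid.Walk x y := (exists_walk_l1 x y).choose

theorem route_length (x y : V) : ((route x y).length : ℝ) = dist1 x y := by
  have h := (exists_walk_l1 x y).choose_spec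
  have h' : (((route x y).length : ℤ) : ℝ) = ((|x.1 - y.1| + |x.2 - y.2| : ℤ) : ℝ) :=
    congrArg _ h
  unfold dist1
  push_cast at h'
  exact h'

/-- The clusters met by the routes between the vertices of a box are small. -/
def RouteOK (m : ℝ) (N L : ℕ) (t : Conf) : Prop :=
  ∀ x y, InSq N x → InSq N y →
    (⋃ e ∈ (edgeList (route x y)).toFinset, cl m t e).ncard < 2 * ((route x y).length + L)

theorem route_prob (hT : TailBound m G) (N L : ℕ) : law G {t | ¬ RouteOK m N L t} ≤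
    ENNReal.ofReal ((2 * (N : ℝ) + 1) ^ 4 * (3 / 4) ^ L) := by
  set box : Finset V := Finset.Icc (-(N : ℤ)) N ×ˢ Finset.Icc (-(N : ℤ)) N with hbox
  have hcard : box.card = (2 * N + 1) ^ 2 := by
    rw [hbox, Finset.card_product, Int.card_Icc,
      show ((N : ℤ) + 1 - -(N : ℤ)).toNat = 2 * N + 1 by omega]
    ring
  have hsub : {t | ¬ RouteOK m N L t} ⊆ ⋃ q ∈ box ×ˢ box, {t | 2 * ((route q.1 q.2).length + L) ≤
      (⋃ e ∈ (edgeList (route q.1 q.2)).toFinset, cl m t e).ncard} := by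
    intro t ht
    simp only [RouteOK, Set.mem_ofPred_eq, not_forall, not_lt] at ht
    obtain ⟨x, y, ⟨a1, a2, a3, a4⟩, ⟨b1, b2, b3, b4⟩, h⟩ := ht
    refine Set.mem_iUnion₂.2 ⟨(x, y), ?_, h⟩
    simp only [hbox, Finset.mem_product, Finset.mem_Icc]
    exact ⟨⟨⟨a1, a2⟩, a3, a4⟩, ⟨b1, b2⟩, b3, b4⟩
  refine (measure_mono hsub).trans ((measure_biUnion_finset_le _ _).trans
    ((Finset.sum_le_card_nsmul _ _ (ENNReal.ofReal ((3 / 4) ^ L)) fun q _ => ?_).trans ?_))
  · refine (hT _ _).trans (ENNReal.ofReal_le_ofReal ?_)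
    set n := (route q.1 q.2).length with hn
    have h1 : (edgeList (route q.1 q.2)).toFinset.card ≤ n :=
      (List.toFinset_card_le _).trans_eq (length_edgeList _)
    calc (2 : ℝ) ^ (edgeList (route q.1 q.2)).toFinset.card * (1 / 2) ^ (2 * (n + L))
        ≤ 2 ^ n * (1 / 2) ^ (2 * (n + L)) :=
          mul_le_mul_of_nonneg_right (pow_le_pow_right₀ (by norm_num) h1) (by positivity)
      _ = (1 / 2) ^ n * (1 / 4) ^ L := by
          rw [mul_add, pow_add, pow_mul, pow_mul, ← mul_assoc, ← mul_pow]; norm_num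
      _ ≤ 1 * (3 / 4) ^ L := mul_le_mul (pow_le_one₀ (by norm_num) (by norm_num))
          (pow_le_pow_left₀ (by norm_num) (by norm_num) L) (by positivity) zero_le_one
      _ = _ := one_mul _
  · rw [Finset.card_product, hcard, nsmul_eq_mul, ← ENNReal.ofReal_natCast,
      ← ENNReal.ofReal_mul (Nat.cast_nonneg _)]
    refine ENNReal.ofReal_le_ofReal (le_of_eq ?_)
    push_cast; ring

/-- Long paths from a box have positive weight per step, already after capping at `m`. -/
theorem long_prob (hG : LawGen G) (hm : 0 ≤ m) : ∃ κ : ℝ, 0 < κ ∧ ∀ N L : ℕ,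
    law G {t : Conf | ∃ x y, ∃ p : grid.Walk x y, InSq (N : ℤ) x ∧ p.IsPath ∧ L ≤ p.length ∧
      plen (fun e => capTo m (t e)) p < κ * p.length} ≤
      ENNReal.ofReal ((2 * (N : ℝ) + 1) ^ 2 * 4 * (3 / 4) ^ L) := by
  obtain ⟨κ, hκ, h⟩ := short_walk_prob (lawOK_capTo hG hm)
  refine ⟨κ, hκ, fun N L => ?_⟩
  set S : V → ℕ → Set Conf := fun x j =>
    {t | ∃ y, ∃ p : grid.Walk x y, p.IsPath ∧ p.length = j ∧ plen t p < κ * j} with hS
  set box : Finset V := Finset.Icc (-(N : ℤ)) N ×ˢ Finset.Icc (-(N : ℤ)) N with hbox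
  have hm' : Measurable fun (t : Conf) (e : Edge) => capTo m (t e) :=
    measurable_pi_lambda _ fun e => (measurable_capTo m).comp (measurable_pi_apply e)
  have hsub : {t : Conf | ∃ x y, ∃ p : grid.Walk x y, InSq (N : ℤ) x ∧ p.IsPath ∧ L ≤ p.length ∧
      plen (fun e => capTo m (t e)) p < κ * p.length} ⊆
      (fun t e => capTo m (t e)) ⁻¹' ⋃ x ∈ box, ⋃ j : ℕ, S x (L + j) := by
    rintro t ⟨x, y, p, ⟨a1, a2, a3, a4⟩, hp, hL, hlt⟩
    refine Set.mem_iUnion₂.2 ⟨x, by simp [hbox, a1, a2, a3, a4],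
      Set.mem_iUnion.2 ⟨p.length - L, y, p, hp, by omega, ?_⟩⟩
    rwa [show L + (p.length - L) = p.length by omega]
  refine (measure_mono hsub).trans ((Measure.le_map_apply hm'.aemeasurable _).trans ?_)
  rw [law_map_capTo hG m]
  refine (measure_biUnion_finset_le _ _).trans ((Finset.sum_le_card_nsmul _ _
    (ENNReal.ofReal (4 * (3 / 4) ^ L)) fun x _ => ?_).trans ?_)
  · refine (measure_iUnion_le _).trans ((ENNReal.tsum_le_tsum fun j => (h x (L + j)).trans
      (ENNReal.ofReal_le_ofReal (pow_le_pow_left₀ (by norm_num) (show (1 / 2 : ℝ) ≤ 3 / 4 by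
        norm_num) _))).trans ?_)
    have hs : HasSum (fun j : ℕ => (3 / 4 : ℝ) ^ (L + j)) (4 * (3 / 4) ^ L) := by
      have := (hasSum_geometric_of_lt_one (show (0 : ℝ) ≤ 3 / 4 by norm_num)
        (by norm_num)).mul_left ((3 / 4 : ℝ) ^ L)
      simp only [← pow_add] at this
      norm_num at this
      rwa [mul_comm] at this
    rw [← ENNReal.ofReal_tsum_of_nonneg (fun j => by positivity) hs.summable, hs.tsum_eq]
  · rw [hbox, Finset.card_product, Int.card_Icc,
      show ((N : ℤ) + 1 - -(N : ℤ)).toNat = 2 * N + 1 by omega, nsmul_eq_mul,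
      ← ENNReal.ofReal_natCast, ← ENNReal.ofReal_mul (Nat.cast_nonneg _)]
    refine ENNReal.ofReal_le_ofReal (le_of_eq ?_)
    push_cast; ring

theorem shield_nonneg (hF : ShieldFacts m) (hm : 0 ≤ m) (h0 : ∀ e, 0 ≤ t e) (e : Edge) :
    0 ≤ shield m t e :=
  (capTo_nonneg hm (h0 e)).trans (hF.cap_low _ t e)

/-- From a vertex of a box an unenclosed vertex is at most `L + 1` cheap steps away. -/
theorem exists_okpt (hF : ShieldFacts m) (hm : 0 ≤ m) (h0 : ∀ e, 0 ≤ t e) {N L : ℕ}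
    (hloc : Loc m (N + (L + 1)) L t) {x : V} (hx : InSq (N : ℤ) x) :
    ∃ x' : V, OKpt m t x' ∧ InSq ((N + (L + 1) : ℕ) : ℤ) x' ∧ dist1 x x' ≤ (L : ℝ) + 1 ∧
      T (shield m t) x x' ≤ ((L : ℝ) + 1) * (10 * m * L + 1) := by
  have key : ∀ n : ℕ, n ≤ L + 1 → ∃ w : grid.Walk x (x.1 + n, x.2),
      plen (shield m t) w ≤ n * (10 * m * L + 1) ∧
      ∀ v ∈ w.support, ∃ i : ℕ, i ≤ n ∧ v = (x.1 + i, x.2) := by
    intro n
    induction n with
    | zero =>
      refine fun _ => ⟨(Walk.nil' x).copy rfl (by simp), by simp [plen], fun v hv => ⟨0, le_rfl, ?_⟩⟩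
      rw [Walk.support_copy, Walk.support_nil, List.mem_singleton] at hv
      simp [hv]
    | succ n ih =>
      intro hn
      obtain ⟨w, hw, hs⟩ := ih (by omega)
      have hadj : grid.Adj (x.1 + (n : ℤ), x.2) (x.1 + ((n + 1 : ℕ) : ℤ), x.2) := by
        show Adj _ _
        simp [Adj]
      refine ⟨w.concat hadj, ?_, fun v hv => ?_⟩
      · have he : edgeOf (x.1 + (n : ℤ), x.2) (x.1 + ((n + 1 : ℕ) : ℤ), x.2) =
            ((x.1 + (n : ℤ), x.2), false) := by simp [edgeOf]
        have hin : InSq ((N + (L + 1) : ℕ) : ℤ) (x.1 + (n : ℤ), x.2) := by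
          simp only [InSq] at hx ⊢; omega
        have h1 := hF.le_capY Set.univ t ((x.1 + (n : ℤ), x.2), false) trivial (hloc.tame.fin _)
        have h2 : capY m t ((x.1 + (n : ℤ), x.2), false) ≤ 10 * m * L := by
          rw [capY, if_pos (hloc.tame.fin _)]
          have h3 := hloc.small ((x.1 + (n : ℤ), x.2), false) (Or.inl hin)
          have h4 : ((cl m t ((x.1 + (n : ℤ), x.2), false)).ncard : ℝ) + 1 ≤ L := by
            exact_mod_cast h3
          exact mul_le_mul_of_nonneg_left h4 (by positivity)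
        rw [plen_concat, wt, he]
        change plen (shield m t) w + shieldOn m Set.univ t _ ≤ _
        push_cast
        linarith
      · rw [Walk.support_concat, List.mem_append, List.mem_singleton] at hv
        rcases hv with hv | rfl
        · obtain ⟨i, hi, rfl⟩ := hs v hv
          exact ⟨i, by omega, rfl⟩
        · exact ⟨n + 1, le_rfl, rfl⟩
  obtain ⟨i, hi, hok⟩ : ∃ i : ℕ, i ≤ L + 1 ∧ OKpt m t (x.1 + i, x.2) := by
    obtain ⟨w, -, hs⟩ := key (L + 1) le_rfl
    by_contra hc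
    have hesc := hF.escape _ L t hloc x _ w (inSq_mono (by omega) hx) (fun v hv hok => by
      obtain ⟨i, hi, rfl⟩ := hs v hv
      exact hc ⟨i, hi, hok⟩) _ w.end_mem_support
    have h1 := (abs_le.1 hesc.1).2
    simp only at h1
    omega
  obtain ⟨w, hw, -⟩ := key i hi
  refine ⟨_, hok, by simp only [InSq] at hx ⊢; omega, ?_, ?_⟩
  · unfold dist1
    have : (i : ℝ) ≤ (L : ℝ) + 1 := by exact_mod_cast hi
    simp only [Int.cast_add, Int.cast_natCast, sub_self, abs_zero, add_zero, sub_add_cancel_left,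
      abs_neg, Nat.abs_cast]
    exact this
  · refine ((T_le (shield_nonneg hF hm h0) w).trans hw).trans ?_
    refine mul_le_mul_of_nonneg_right ?_ (by positivity)
    exact_mod_cast hi

/-- Between unenclosed vertices the detour of a route is short. -/
theorem T_route (hF : ShieldFacts m) (hm : 0 ≤ m) (h0 : ∀ e, 0 ≤ t e) (htame : Tame m t)
    {N L : ℕ} (hR : RouteOK m N L t) {x y : V} (hx : InSq (N : ℤ) x) (hy : InSq (N : ℤ) y)
    (hxo : OKpt m t x) (hyo : OKpt m t y) :
    T (shield m t) x y ≤ 17 * m * dist1 x y + 16 * m * L := by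
  classical
  set Us : Set Edge := ⋃ e ∈ (edgeList (route x y)).toFinset, cl m t e with hUs
  have hfin : Us.Finite :=
    (edgeList (route x y)).toFinset.finite_toSet.biUnion fun e _ => htame.fin e
  have hbad : ∀ e ∈ hfin.toFinset, m < t e ∧ cl m t e ⊆ ↑hfin.toFinset := by
    intro e he
    rw [Set.Finite.mem_toFinset, hUs, Set.mem_iUnion₂] at he
    obtain ⟨a, ha, hae⟩ := he
    refine ⟨cl_bad hae, fun f hf => ?_⟩
    rw [Set.Finite.coe_toFinset, hUs]
    exact Set.mem_iUnion₂.2 ⟨a, ha, cl_subset hae hf⟩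
  obtain ⟨q, hq, -⟩ := hF.detour t h0 x y (route x y) hfin.toFinset hbad
    (fun e _ => hxo e trivial) (fun e _ => hyo e trivial)
  have hgood : (((edgeList (route x y)).filter fun e => e ∉ hfin.toFinset).map t).sum ≤
      m * (route x y).length := by
    refine (List.sum_le_card_nsmul _ m fun a ha => ?_).trans ?_
    · obtain ⟨e, he, rfl⟩ := List.mem_map.1 ha
      simp only [List.mem_filter, decide_eq_true_eq, Set.Finite.mem_toFinset] at he
      by_contra hlt
      exact he.2 (Set.mem_iUnion₂.2 ⟨e, List.mem_toFinset.2 he.1, mem_cl_self (not_le.1 hlt)⟩)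
    · rw [nsmul_eq_mul, mul_comm, List.length_map]
      refine mul_le_mul_of_nonneg_left ?_ hm
      exact_mod_cast (List.length_filter_le _ _).trans_eq (length_edgeList _)
  have hcard : (hfin.toFinset.card : ℝ) ≤ 2 * (((route x y).length : ℝ) + L) := by
    rw [← Set.ncard_eq_toFinset_card Us hfin]
    exact_mod_cast (hR x y hx hy).le
  have hle : plen (shield m t) q ≤ plen t q :=
    List.sum_le_sum fun d _ => hF.le _ t _
  have h1 := (T_le (shield_nonneg hF hm h0) q).trans (hle.trans hq)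
  have h2 := mul_le_mul_of_nonneg_left hcard (show (0 : ℝ) ≤ 8 * m by positivity)
  rw [route_length] at hgood h2
  linarith

/-- The deterministic part: small clusters, short routes and long paths control a box. -/
theorem boxOK_of_events (hF : ShieldFacts m) (hm : 0 ≤ m) (h0 : ∀ e, 0 ≤ t e) {κ : ℝ} {N L : ℕ}
    (hL : 1 ≤ L) (hloc : Loc m (N + (L + 1)) L t) (hR : RouteOK m (N + (L + 1)) L t)
    (hlong : ∀ x y (p : grid.Walk x y), InSq (N : ℤ) x → p.IsPath → L ≤ p.length →
      κ * p.length ≤ plen (fun e => capTo m (t e)) p) :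
    BoxOK m κ (200 * (m + 1)) N L t := by
  have hsub : ∀ {v : V}, InSq (N : ℤ) v → InSq ((N + (L + 1) : ℕ) : ℤ) v := fun h =>
    inSq_mono (by omega) h
  have hlocN : Loc m N L t := ⟨hloc.tame, fun e he => hloc.small e (by
    rcases he with h | h | ⟨x, hx, h⟩
    exacts [Or.inl (hsub h), Or.inr (Or.inl (hsub h)), Or.inr (Or.inr ⟨x, hsub hx, h⟩)])⟩
  refine ⟨h0, hlocN, fun e he => ?_, fun x y hx hy => ?_, fun x y p hx hp hl => ?_⟩
  · rw [capY, if_pos (hloc.tame.fin e)]
    have h4 : ((cl m t e).ncard : ℝ) + 1 ≤ L := by exact_mod_cast hlocN.small e (Or.inl he)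
    refine (mul_le_mul_of_nonneg_left h4 (by positivity)).trans ?_
    refine mul_le_mul_of_nonneg_right ?_ (Nat.cast_nonneg L)
    linarith
  · obtain ⟨x', hxo, hx', dx, hTx⟩ := exists_okpt hF hm h0 hloc hx
    obtain ⟨y', hyo, hy', dy, hTy⟩ := exists_okpt hF hm h0 hloc hy
    have hs := shield_nonneg hF hm h0
    have h1 := T_triangle hs x x' y
    have h2 := T_triangle hs x' y' y
    rw [T_comm (shield m t) y' y] at h2
    have h3 := T_route hF hm h0 hloc.tame hR hx' hy' hxo hyo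
    have h4 : dist1 x' y' ≤ dist1 x y + 2 * ((L : ℝ) + 1) := by
      unfold dist1 at dx dy ⊢
      linarith [abs_sub_le (x'.1 : ℝ) x.1 y'.1, abs_sub_le (x'.2 : ℝ) x.2 y'.2,
        abs_sub_le (x.1 : ℝ) y.1 y'.1, abs_sub_le (x.2 : ℝ) y.2 y'.2,
        abs_sub_comm (x.1 : ℝ) x'.1, abs_sub_comm (x.2 : ℝ) x'.2]
    have h5 : 0 ≤ dist1 x y := by unfold dist1; positivity
    have hL' : (1 : ℝ) ≤ L := by exact_mod_cast hL
    have h6 := mul_le_mul_of_nonneg_left h4 hm
    have h7 : (L : ℝ) ≤ (L : ℝ) ^ 2 := le_self_pow₀ hL' (by norm_num)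
    have h8 := mul_le_mul_of_nonneg_left hL' hm
    have h9 := mul_le_mul_of_nonneg_left h7 hm
    have h10 := mul_nonneg hm h5
    nlinarith
  · refine (hlong x y p hx hp hl).trans ?_
    exact List.sum_le_sum fun d _ => hF.cap_low _ t _

theorem Lc_pow (n : ℕ) : n ≤ Lc n ^ 4 := by
  have h1 := Nat.lt_succ_sqrt n
  have h2 := Nat.lt_succ_sqrt (Nat.sqrt n)
  simp only [Nat.succ_eq_add_one] at h1 h2
  have h3 : Nat.sqrt n + 1 ≤ Lc n ^ 2 := by unfold Lc; rw [pow_two]; omega
  calc n ≤ (Nat.sqrt n + 1) * (Nat.sqrt n + 1) := h1.le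
    _ ≤ Lc n ^ 2 * Lc n ^ 2 := Nat.mul_le_mul h3 h3
    _ = _ := by ring

theorem tendsto_Lc : Tendsto Lc atTop atTop := by
  refine tendsto_atTop.2 fun b => eventually_atTop.2 ⟨b ^ 4, fun n hn => ?_⟩
  by_contra hlt
  have := Nat.pow_lt_pow_left (not_le.1 hlt) (show (4 : ℕ) ≠ 0 by norm_num)
  have := Lc_pow n
  omega

/-- Boxes are under control with high probability. -/
theorem exists_boxProp (hG : LawGen G) (hm : 0 < m) (hF : ShieldFacts m)
    (htame : ∀ᵐ t ∂law G, Tame m t) (hT : TailBound m G) :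
    ∃ κ A : ℝ, BoxProp m G κ A := by
  obtain ⟨K, hK0, hloc⟩ := loc_prob hT htame hF
  obtain ⟨κ, hκ, hlong⟩ := long_prob hG hm.le
  refine ⟨κ, 200 * (m + 1), hκ, by positivity, fun C => ?_⟩
  set b : ℕ → ℝ := fun L => (K + 4 + 1) * (3 * ((C : ℝ) + 3)) ^ 4 * (((L : ℝ) ^ 16) * (3 / 4) ^ L)
    with hb
  have hb0 : Tendsto (fun n => ENNReal.ofReal (b (Lc n))) atTop (𝓝 0) := by
    have h1 : Tendsto b atTop (𝓝 0) := by
      have := (tendsto_pow_const_mul_const_pow_of_lt_one 16 (show (0 : ℝ) ≤ 3 / 4 by norm_num)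
        (by norm_num)).const_mul ((K + 4 + 1) * (3 * ((C : ℝ) + 3)) ^ 4)
      rwa [mul_zero] at this
    have := ENNReal.tendsto_ofReal (h1.comp tendsto_Lc)
    rwa [ENNReal.ofReal_zero] at this
  refine tendsto_of_tendsto_of_tendsto_of_le_of_le tendsto_const_nhds hb0 (fun _ => zero_le)
    fun n => ?_
  set N := C * n with hN
  set L := Lc n with hL
  have hsub : ∀ᵐ t ∂law G, ¬ BoxOK m κ (200 * (m + 1)) N L t →
      t ∈ ({t | ¬ Loc m (N + (L + 1)) L t} ∪ {t | ¬ RouteOK m (N + (L + 1)) L t}) ∪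
        {t | ∃ x y, ∃ p : grid.Walk x y, InSq (N : ℤ) x ∧ p.IsPath ∧ L ≤ p.length ∧
          plen (fun e => capTo m (t e)) p < κ * p.length} := by
    filter_upwards [ae_nonneg hG] with t h0 hbad
    by_contra hc
    simp only [Set.mem_union, Set.mem_ofPred_eq, not_or, not_not] at hc
    exact hbad (boxOK_of_events hF hm.le h0 (by rw [hL]; unfold Lc; omega) hc.1.1 hc.1.2
      fun x y p hx hp hl => not_lt.1 fun h => hc.2 ⟨x, y, p, hx, hp, hl, h⟩)
  refine (measure_mono_ae hsub).trans ((measure_union_le _ _).trans ((add_le_add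
    ((measure_union_le _ _).trans (add_le_add (hloc _ _) (route_prob hT _ _))) (hlong N L)).trans
    ?_))
  rw [← ENNReal.ofReal_add (by positivity) (by positivity),
    ← ENNReal.ofReal_add (by positivity) (by positivity)]
  refine ENNReal.ofReal_le_ofReal ?_
  have hL1 : (1 : ℝ) ≤ L := by exact_mod_cast (show 1 ≤ L by rw [hL]; unfold Lc; omega)
  have hn : (n : ℝ) ≤ (L : ℝ) ^ 4 := by exact_mod_cast Lc_pow n
  have hL4 : (L : ℝ) ≤ (L : ℝ) ^ 4 := le_self_pow₀ hL1 (by norm_num)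
  have hC : (0 : ℝ) ≤ C := Nat.cast_nonneg C
  set X : ℝ := 3 * ((C : ℝ) + 3) * (L : ℝ) ^ 4 with hX
  have hX1 : 1 ≤ X := by nlinarith
  have hN1 : 2 * ((N + (L + 1) : ℕ) : ℝ) + 1 ≤ X := by
    rw [hN, hX]; push_cast
    nlinarith [mul_le_mul_of_nonneg_left hn hC]
  have hN0 : (0 : ℝ) ≤ N := Nat.cast_nonneg N
  push_cast at hN1 ⊢
  have e1 : ((N : ℝ) + ((L : ℝ) + 1) + 1) ^ 2 ≤ X ^ 4 :=
    (pow_le_pow_left₀ (by positivity) (by linarith) 2).trans (pow_le_pow_right₀ hX1 (by norm_num))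
  have e2 : (2 * ((N : ℝ) + ((L : ℝ) + 1)) + 1) ^ 4 ≤ X ^ 4 :=
    pow_le_pow_left₀ (by positivity) hN1 4
  have e3 : (2 * (N : ℝ) + 1) ^ 2 ≤ X ^ 4 :=
    (pow_le_pow_left₀ (by positivity) (by linarith) 2).trans (pow_le_pow_right₀ hX1 (by norm_num))
  have eb : b L = (K + 4 + 1) * X ^ 4 * (3 / 4) ^ L := by
    simp only [hb, hX]; ring
  rw [eb]
  have h34 : (0 : ℝ) ≤ (3 / 4) ^ L := by positivity
  nlinarith [mul_le_mul_of_nonneg_left (mul_le_mul_of_nonneg_right e1 h34) hK0,
    mul_le_mul_of_nonneg_right e2 h34, mul_le_mul_of_nonneg_right e3 h34]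

/-- Boxes are under control with high probability when the tail of the law is small. -/
theorem boxProp_of_small (hG : LawGen G) (hm : SmallTail m G) (hF : ShieldFacts m)
    (htame : ∀ᵐ t ∂law G, Tame m t) : ∃ κ A : ℝ, BoxProp m G κ A :=
  exists_boxProp hG hm.1 hF htame (tailBound hG hm)

end Vale.Agent.P158.Gen.Box
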