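import Vale.Agent.P158.Gen.ChordDet
import Vale.Agent.P158.Block

/-!
The chord property for all atomless laws: with high probability every geodesic chord through the
middle of a box is short and has a frame in which almost all levels are crossed quickly through a
heavy edge.
-/

open MeasureTheory Filter Topology
open scoped ENNReal

namespace Vale.Agent.P158.Gen

open Vale.Agent.P158

variable {m κ κb A Ab : ℝ} {G : Measure ℝ}

/-- The square of the local scale is of smaller order than the scale. -/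
lemma eventually_Lc_sq (c : ℕ) : ∀ᶠ n : ℕ in atTop, c * (Lc n + 1) ^ 2 ≤ n := by
  filter_upwards [eventually_ge_atTop ((9 * c + 1) * (9 * c + 1))] with n hn
  have hs : 9 * c + 1 ≤ Nat.sqrt n := Nat.le_sqrt.2 hn
  have h1 := Nat.sqrt_le' (Nat.sqrt n)
  have h2 := Nat.sqrt_le n
  have h3 : 1 ≤ Nat.sqrt (Nat.sqrt n) := Nat.le_sqrt.2 (by omega)
  have h4 : Lc n + 1 ≤ 3 * Nat.sqrt (Nat.sqrt n) := by unfold Lc; omega
  calc c * (Lc n + 1) ^ 2 ≤ c * (3 * Nat.sqrt (Nat.sqrt n)) ^ 2 :=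
        Nat.mul_le_mul_left _ (Nat.pow_le_pow_left h4 2)
    _ = 9 * c * Nat.sqrt (Nat.sqrt n) ^ 2 := by ring
    _ ≤ Nat.sqrt n * Nat.sqrt n := Nat.mul_le_mul (by omega) h1
    _ ≤ n := h2

/-- Long walks from a box have few light edges with high probability. -/
lemma light_tendsto {lam₁ lam₂ r₁ r₂ δ₁ δ₂ : ℝ} (C : ℕ)
    (h₁ : G (Set.Iio r₁) ≤ ENNReal.ofReal δ₁)
    (hhit₁ : ∀ B, MeasurableSet B → G B ≤ ENNReal.ofReal δ₁ → ∀ (x : V) (n : ℕ),
      law G {t | ∃ y, ∃ p : grid.Walk x y, p.IsPath ∧ p.length = n ∧ lam₁ * n < hitCount B t p}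
        ≤ ENNReal.ofReal ((1 / 2) ^ n))
    (h₂ : G (Set.Iio r₂) ≤ ENNReal.ofReal δ₂)
    (hhit₂ : ∀ B, MeasurableSet B → G B ≤ ENNReal.ofReal δ₂ → ∀ (x : V) (n : ℕ),
      law G {t | ∃ y, ∃ p : grid.Walk x y, p.IsPath ∧ p.length = n ∧ lam₂ * n < hitCount B t p}
        ≤ ENNReal.ofReal ((1 / 2) ^ n)) :
    Tendsto (fun N : ℕ => law G {t | ∃ (a b : V) (p : grid.Walk a b), InBox (2 * N) a ∧ p.IsPath ∧
      N ≤ 4 * p.length ∧ p.length ≤ C * N ∧
      (lam₁ * p.length < hitCount (Set.Iio r₁) t p ∨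
        lam₂ * p.length < hitCount (Set.Iio r₂) t p)}) atTop (𝓝 0) := by
  classical
  set g : ℕ → ℝ := fun N => 32 * ((C : ℝ) + 1) * (((N : ℝ) + 1) ^ 3 * (1 / 2) ^ (N / 4)) with hg
  have hgs : Tendsto (fun N => ENNReal.ofReal (g N)) atTop (𝓝 0) := by
    have := ((summable_poly_half (show 0 < 4 by norm_num) 3).mul_left
      (32 * ((C : ℝ) + 1))).tendsto_atTop_zero
    rw [← ENNReal.ofReal_zero]
    exact ENNReal.tendsto_ofReal this
  refine tendsto_of_tendsto_of_tendsto_of_le_of_le tendsto_const_nhds hgs (fun N => zero_le)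
    fun N => ?_
  set Bx : Finset V := Finset.Icc (-((2 * N : ℕ) : ℤ)) (2 * N : ℕ) ×ˢ
    Finset.Icc (-((2 * N : ℕ) : ℤ)) (2 * N : ℕ) with hBx
  refine (measure_mono (t := ⋃ a ∈ Bx, ⋃ ℓ ∈ Finset.Icc (N / 4) (C * N),
    {t | ∃ y, ∃ p : grid.Walk a y, p.IsPath ∧ p.length = ℓ ∧
      lam₁ * ℓ < hitCount (Set.Iio r₁) t p} ∪
    {t | ∃ y, ∃ p : grid.Walk a y, p.IsPath ∧ p.length = ℓ ∧
      lam₂ * ℓ < hitCount (Set.Iio r₂) t p}) ?_).trans ?_
  · rintro t ⟨a, b, p, ha, hp, h4, hC, h⟩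
    refine Set.mem_iUnion₂.2 ⟨a, Finset.mem_product.2
      ⟨Finset.mem_Icc.2 (abs_le.1 ha.1), Finset.mem_Icc.2 (abs_le.1 ha.2)⟩,
      Set.mem_iUnion₂.2 ⟨p.length, Finset.mem_Icc.2 ⟨by omega, hC⟩, ?_⟩⟩
    rcases h with h | h
    · exact Or.inl ⟨b, p, hp, rfl, h⟩
    · exact Or.inr ⟨b, p, hp, rfl, h⟩
  refine (measure_biUnion_finset_le _ _).trans ((Finset.sum_le_card_nsmul _ _
    (ENNReal.ofReal (2 * ((C : ℝ) + 1) * ((N : ℝ) + 1) * (1 / 2) ^ (N / 4)))
    fun a _ => ?_).trans ?_)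
  · refine (measure_biUnion_finset_le _ _).trans ((Finset.sum_le_card_nsmul _ _
      (ENNReal.ofReal (2 * (1 / 2) ^ (N / 4))) fun ℓ hℓ => ?_).trans ?_)
    · refine (measure_union_le _ _).trans ?_
      rw [two_mul, ENNReal.ofReal_add (by positivity) (by positivity)]
      have hp := pow_le_pow_of_le_one (show (0 : ℝ) ≤ 1 / 2 by norm_num) (by norm_num)
        (Finset.mem_Icc.1 hℓ).1
      exact add_le_add
        ((hhit₁ _ measurableSet_Iio h₁ a ℓ).trans (ENNReal.ofReal_le_ofReal hp))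
        ((hhit₂ _ measurableSet_Iio h₂ a ℓ).trans (ENNReal.ofReal_le_ofReal hp))
    · rw [nsmul_eq_mul, ← ENNReal.ofReal_natCast, ← ENNReal.ofReal_mul (Nat.cast_nonneg _)]
      refine ENNReal.ofReal_le_ofReal ?_
      have h1 : (Finset.Icc (N / 4) (C * N)).card ≤ C * N + 1 := by
        rw [Nat.card_Icc]; exact Nat.sub_le _ _
      have h2 : ((Finset.Icc (N / 4) (C * N)).card : ℝ) ≤ (C : ℝ) * N + 1 := by exact_mod_cast h1
      have h3 : (C : ℝ) * N + 1 ≤ ((C : ℝ) + 1) * ((N : ℝ) + 1) := by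
        have : (0 : ℝ) ≤ (C : ℝ) + N := by positivity
        linarith
      have := mul_le_mul_of_nonneg_right (h2.trans h3) (pow_nonneg (show (0 : ℝ) ≤ 1 / 2 by
        norm_num) (N / 4))
      linarith
  · rw [nsmul_eq_mul, ← ENNReal.ofReal_natCast, ← ENNReal.ofReal_mul (Nat.cast_nonneg _)]
    refine ENNReal.ofReal_le_ofReal ?_
    have hcard : (Bx.card : ℝ) ≤ 16 * ((N : ℝ) + 1) ^ 2 := by
      rw [hBx, Finset.card_product, Int.card_Icc,
        show ((2 * N : ℕ) : ℤ) + 1 - -((2 * N : ℕ) : ℤ) = ((4 * N + 1 : ℕ) : ℤ) by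
          push_cast; ring, Int.toNat_natCast]
      push_cast
      nlinarith [(Nat.cast_nonneg N : (0 : ℝ) ≤ N)]
    refine (mul_le_mul_of_nonneg_right hcard (by positivity)).trans (le_of_eq ?_)
    simp only [hg]
    ring

/-- Chords are well behaved with high probability, for every atomless law. -/
theorem chordPropG (hG : LawGen G) (hm : 0 < m) (hSF : ShieldFacts m) (hB : BoxProp m G κb Ab)
    (hS : ShapeG m G κ A) (hCut : CutProp m G) (hBl : BlockPropG m G) : ChordProp G := by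
  classical
  obtain ⟨hκb, hAb, hbox⟩ := hB
  have hκ := hS.κ_pos
  have hn2 := norm2_muG hG hS
  obtain ⟨C, hC, hC2⟩ : ∃ C : ℕ, 6 * Ab ≤ κb * ((C : ℝ) - 2) ∧ 2 ≤ C := by
    refine ⟨⌈6 * Ab / κb⌉₊ + 3, ?_, by omega⟩
    have h1 := (div_le_iff₀ hκb).1 (Nat.le_ceil (6 * Ab / κb))
    push_cast; linarith
  have hC0 : (0 : ℝ) < C := by exact_mod_cast (show 0 < C by omega)
  refine ⟨1 / 8, C, by norm_num, by norm_num, hC0, fun ε hε => ?_⟩
  set lam₂ : ℝ := ε / (4 * C) with hlam₂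
  obtain ⟨δ₂, hδ₂, hhit₂⟩ := hitCount_probG hG (show 0 < lam₂ by positivity)
  obtain ⟨r₂, hr₂, -, hr₂G⟩ := exists_small_lowG hG hδ₂
  set ρ : ℝ := min (ε / 8) (ε * r₂ / (3000 * (m + 1))) with hρ
  have hρ0 : 0 < ρ := lt_min (by positivity) (by positivity)
  set lam₁ : ℝ := ρ / (8 * C) with hlam₁
  obtain ⟨δ₁, hδ₁, hhit₁⟩ := hitCount_probG hG (show 0 < lam₁ by positivity)
  obtain ⟨r₁, hr₁, hr₁pos, hr₁G⟩ := exists_small_lowG hG hδ₁
  set θ : ℝ := r₁ / (50 * m) with hθdef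
  have hθ : 0 < θ := by positivity
  have hθr₁ : 50 * m * θ ≤ r₁ := le_of_eq (by rw [hθdef]; field_simp)
  set η : ℝ := min (ρ * r₁ / 16) (ε * r₂ / 16) with hηdef
  have hη : 0 < η := lt_min (by positivity) (by positivity)
  set ε' : ℝ := min (κ / 256) (ρ * κ * θ / 1000) with hε'def
  have hε'0 : 0 < ε' := lt_min (by positivity) (by positivity)
  obtain ⟨r₀, hr₀⟩ := hCut C η hη
  obtain ⟨r, ⟨hblock, hrr₀⟩, hr⟩ :=
    (((hBl C ε' hε'0).and (eventually_ge_atTop r₀)).and (eventually_gt_atTop 0)).exists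
  have hcut := hr₀ r hrr₀
  refine ⟨r₁, r * (⌈8 / θ⌉₊ + 3), hr₁pos, ?_⟩
  have hlightT := light_tendsto C hr₁G hhit₁ hr₂G hhit₂
  have hall := (((hbox 2).add (hS.box 2 ε' hε'0)).add hblock).add (hcut.add hlightT)
  rw [add_zero, add_zero, add_zero] at hall
  obtain ⟨K, hK⟩ := exists_nat_ge (128 / ε)
  refine tendsto_of_tendsto_of_tendsto_of_le_of_le' tendsto_const_nhds hall
    (Eventually.of_forall fun N => zero_le) ?_
  filter_upwards [eventually_Lc_sq (K + 64), eventually_ge_atTop (32 * r + 1),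
    tendsto_natCast_atTop_atTop.eventually_ge_atTop (4 * (r : ℝ) / ρ)] with N hNL hN hNρ
  rw [div_le_iff₀ hρ0] at hNρ
  refine (measure_mono (t := {t | ¬ BoxOK m κb Ab (2 * N) (Lc N) t} ∪
    {t | ∃ x y : V, InBox (2 * N) x ∧ InBox (2 * N) y ∧
      ε' * N < |T (shield m t) x y - muG m G (toR y - toR x)|} ∪
    {t | ¬ BlockGoodG m G C r ε' N t} ∪ ({t | ¬ CutOK m η C r N t} ∪
      {t | ∃ (a b : V) (p : grid.Walk a b), InBox (2 * N) a ∧ p.IsPath ∧ N ≤ 4 * p.length ∧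
        p.length ≤ C * N ∧ (lam₁ * p.length < hitCount (Set.Iio r₁) t p ∨
          lam₂ * p.length < hitCount (Set.Iio r₂) t p)})) ?_).trans ?_
  swap
  · exact (measure_union_le _ _).trans (add_le_add ((measure_union_le _ _).trans
      (add_le_add (measure_union_le _ _) le_rfl)) (measure_union_le _ _))
  intro t ht
  by_contra hcon
  simp only [Set.mem_union, Set.mem_ofPred_eq, not_or, not_exists, not_and, not_not, not_lt] at hcon
  obtain ⟨⟨⟨hbx, hsh⟩, hbl⟩, hct, hlight⟩ := hcon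
  have hN' : (0 : ℝ) ≤ N := Nat.cast_nonneg N
  have hLs : Lc N + 1 ≤ (Lc N + 1) ^ 2 := Nat.le_self_pow two_ne_zero _
  have h64 : 64 * (Lc N + 1) ^ 2 ≤ N := le_trans (Nat.mul_le_mul_right _ (by omega)) hNL
  have hsq : (2 * Lc N + 1) ^ 2 ≤ 4 * (Lc N + 1) ^ 2 := by
    have := Nat.pow_le_pow_left (show 2 * Lc N + 1 ≤ 2 * (Lc N + 1) by omega) 2
    rwa [mul_pow] at this
  have hsqR : 2 * (2 * (Lc N : ℝ) + 1) ^ 2 ≤ ε / 16 * N := by
    have a1 : (K : ℝ) * ((Lc N : ℝ) + 1) ^ 2 ≤ N := by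
      exact_mod_cast le_trans (Nat.mul_le_mul_right _ (by omega)) hNL
    have a2 := (div_le_iff₀ hε).1 hK
    have a3 := mul_le_mul_of_nonneg_right a2 (sq_nonneg ((Lc N : ℝ) + 1))
    have a4 := mul_le_mul_of_nonneg_left a1 hε.le
    have a5 : (2 * (Lc N : ℝ) + 1) ^ 2 ≤ 4 * ((Lc N : ℝ) + 1) ^ 2 := by exact_mod_cast hsq
    linarith
  have e1 : lam₁ * ((C : ℝ) * N) = ρ / 8 * N := by rw [hlam₁]; field_simp
  have e2 : lam₂ * ((C : ℝ) * N) = ε / 4 * N := by rw [hlam₂]; field_simp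
  have hρε := mul_le_mul_of_nonneg_right
    (min_le_left (ε / 8) (ε * r₂ / (3000 * (m + 1)))) hN'
  rw [← hρ] at hρε
  have hρN : 0 ≤ ρ * (N : ℝ) := by positivity
  have hεN : 0 ≤ ε * (N : ℝ) := by positivity
  have hX : 2 * (ρ / 8 * N) + 2 * (η * N) / r₁ + 192 * ε' * N / (κ * θ) + r ≤ ρ * N := by
    have a1 : 2 * (η * N) / r₁ ≤ ρ / 8 * N := by
      rw [div_le_iff₀ hr₁]
      have := mul_le_mul_of_nonneg_right (min_le_left (ρ * r₁ / 16) (ε * r₂ / 16)) hN'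
      rw [← hηdef] at this
      linarith
    have a2 : 192 * ε' * N / (κ * θ) ≤ ρ / 4 * N := by
      rw [div_le_iff₀ (by positivity)]
      have := mul_le_mul_of_nonneg_right (min_le_right (κ / 256) (ρ * κ * θ / 1000)) hN'
      rw [← hε'def] at this
      have : 0 ≤ ρ * κ * θ * (N : ℝ) := by positivity
      linarith
    linarith
  set X := 2 * (ρ / 8 * N) + 2 * (η * N) / r₁ + 192 * ε' * N / (κ * θ) + r with hXdef
  have e3 : (100 * m * (6 * X + ρ / 8 * N) + η * N) / r₂ ≤ 5 / 16 * (ε * N) := by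
    rw [div_le_iff₀ hr₂]
    have a1 := min_le_right (ε / 8) (ε * r₂ / (3000 * (m + 1)))
    rw [← hρ, le_div_iff₀ (by positivity)] at a1
    have a2 := mul_le_mul_of_nonneg_right a1 hN'
    have a3 : 100 * m * (6 * X + ρ / 8 * N) ≤ 100 * m * (7 * (ρ * N)) :=
      mul_le_mul_of_nonneg_left (by linarith) (by positivity)
    have a4 := mul_le_mul_of_nonneg_right (min_le_right (ρ * r₁ / 16) (ε * r₂ / 16)) hN'
    rw [← hηdef] at a4
    have : 0 ≤ ε * r₂ * (N : ℝ) := by positivity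
    linarith
  refine ht (chord_detG (L₁ := ρ / 8 * N) (L₂ := ε / 4 * N) (ε' := ε') (η := η) (r₂ := r₂)
    (θ := θ) (r := r) (L := Lc N) (X := X) hm hSF hn2 hκ hS.lowerR hκb hAb hbx.nonneg hC hC2
    (by omega) (by omega) (le_trans (Nat.mul_le_mul_left 4 hsq) (by omega)) hr hr₁ hr₂ hθ hθr₁
    hε'0.le (min_le_left _ _) (by omega) ?_ hbx hsh hbl hct (fun a b p ha hp h4 hℓ => ?_) le_rfl
    (by linarith) (by linarith))
  · push_cast
    have := Nat.le_ceil (8 / θ)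
    exact mul_le_mul_of_nonneg_left (by linarith) (Nat.cast_nonneg r)
  · have hℓ' : (p.length : ℝ) ≤ (C : ℝ) * N := by exact_mod_cast hℓ
    obtain ⟨b1, b2⟩ := hlight a b p ha hp h4 hℓ
    exact ⟨b1.trans ((mul_le_mul_of_nonneg_left hℓ' (by positivity)).trans e1.le),
      b2.trans ((mul_le_mul_of_nonneg_left hℓ' (by positivity)).trans e2.le)⟩

end Vale.Agent.P158.Gen
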