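import Vale.Agent.P158.Gen.Defs
import Vale.Agent.P158.Spec4
import Vale.Agent.P158.MuShape
import Vale.Agent.P158.StraightShape

/-!
Interfaces of the argument for all atomless laws.
-/

open MeasureTheory Filter Topology
open scoped ENNReal

namespace Vale.Agent.P158.Gen

open Vale.Agent.P158

/-- The deterministic properties of shielding. -/
structure ShieldFacts (m : ℝ) : Prop where
  le : ∀ F t e, shieldOn m F t e ≤ t e
  le_capY : ∀ F t e, e ∈ F → (cl m t e).Finite → shieldOn m F t e ≤ capY m t e + 1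
  cap_low : ∀ F t e, capTo m (t e) ≤ shieldOn m F t e
  mono : ∀ t t' : Conf, (∀ e, t e ≤ t' e) → (∀ e, (cl m t' e).Finite) →
    ∀ e, shield m t e ≤ shield m t' e ∧ capY m t e ≤ capY m t' e
  detour : ∀ t, (∀ e, 0 ≤ t e) → ∀ x y (p : grid.Walk x y) (U : Finset Edge),
    (∀ e ∈ U, m < t e ∧ cl m t e ⊆ ↑U) → OKon m ↑U t x → OKon m ↑U t y →
    ∃ q : grid.Walk x y,
      plen t q ≤ (((edgeList p).filter fun e => e ∉ U).map t).sum + 8 * m * U.card ∧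
      WalkIn {e | e ∉ U ∧ (e ∈ edgeList p ∨
        (t e ≤ m ∧ ∃ v, e ∈ sq v ∧ ∃ f ∈ U, f ∈ sq v))} q
  encl_near : ∀ t e x, (cl m t e).Finite → Encl (cl m t e) x →
    |x.1 - (eFst e).1| ≤ ((cl m t e).ncard : ℤ) ∧ |x.2 - (eFst e).2| ≤ ((cl m t e).ncard : ℤ)
  eq_T : ∀ F t, (∀ e, 0 ≤ t e) → ∀ x y, OKon m F t x → OKon m F t y →
    T (shieldOn m F t) x y = T t x y
  lowered : ∀ F t, (∀ e, 0 ≤ t e) → ∀ x y (p : grid.Walk x y), OKon m F t x → OKon m F t y →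
    (∃ d ∈ p.darts, wt (shieldOn m F t) d.toProd.1 d.toProd.2 < wt t d.toProd.1 d.toProd.2) →
    T t x y + m ≤ plen (shieldOn m F t) p
  seg : ∀ F t, (∀ e, 0 ≤ t e) → ∀ γ i₀ i₁, OKon m F t (γ i₀) → OKon m F t (γ i₁) →
    ((SegGeo (shieldOn m F t) γ i₀ i₁ ↔ SegGeo t γ i₀ i₁) ∧
      (SegGeo t γ i₀ i₁ → ∀ i, i₀ ≤ i → i < i₁ →
        wt (shieldOn m F t) (γ i) (γ (i + 1)) = wt t (γ i) (γ (i + 1))))
  bigeo : ∀ t, Tame m t → (∀ e, 0 ≤ t e) → ∀ γ,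
    (IsBigeodesic (shield m t) γ ↔ IsBigeodesic t γ) ∧
      (IsBigeodesic t γ → ∀ i, wt (shield m t) (γ i) (γ (i + 1)) = wt t (γ i) (γ (i + 1)))
  rigid : ∀ t, Tame m t → (∀ e, 0 ≤ t e) → ∀ δ γ, IsBigeodesic t γ → RigidEdge t δ γ →
    RigidEdge (shield m t) (min δ m) γ
  nice : ∀ κ t, Tame m t → GoodG κ (shield m t) → NiceG κ t → NiceG κ (shield m t)
  escape : ∀ N L t, Loc m N L t → ∀ x y (p : grid.Walk x y), InSq N x →
    (∀ v ∈ p.support, ¬ OKpt m t v) →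
    ∀ v ∈ p.support, |v.1 - x.1| ≤ (L : ℤ) ∧ |v.2 - x.2| ≤ (L : ℤ)
  trim : ∀ N L t, Loc m N L t → ∀ γ i₀ i₁, SegGeo t γ i₀ i₁ → InSq N (γ i₀) → InSq N (γ i₁) →
    2 * (2 * (L : ℤ) + 1) ^ 2 < i₁ - i₀ →
    ∃ a b, i₀ ≤ a ∧ a ≤ i₀ + (2 * (L : ℤ) + 1) ^ 2 ∧ a ≤ b ∧
      i₁ - (2 * (L : ℤ) + 1) ^ 2 ≤ b ∧ b ≤ i₁ ∧ OKpt m t (γ a) ∧ OKpt m t (γ b) ∧
      (∀ i, i₀ ≤ i → i ≤ a →
        |(γ i).1 - (γ i₀).1| ≤ (L : ℤ) + 1 ∧ |(γ i).2 - (γ i₀).2| ≤ (L : ℤ) + 1) ∧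
      (∀ i, b ≤ i → i ≤ i₁ →
        |(γ i).1 - (γ i₁).1| ≤ (L : ℤ) + 1 ∧ |(γ i).2 - (γ i₁).2| ≤ (L : ℤ) + 1)
  agree : ∀ A B t pre (S : Set Edge), Stay m (A + 1) B t → (∀ e, t e ≤ pre e) →
    (∀ e, e ∉ S → t e = pre e) → (∀ e ∈ S, InSq A (eFst e) ∧ InSq A (eSnd e)) →
    ∀ e, ¬ (InSq B (eFst e) ∧ InSq B (eSnd e)) → ¬ (InSq A (eFst e) ∧ InSq A (eSnd e)) →
      capY m pre e = capY m t e ∧ shield m pre e = shield m t e
  act_shift : ∀ v t, shield m (shift v t) = shift v (shield m t)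
  act_swap : ∀ t, shield m (swapSym.act t) = swapSym.act (shield m t)
  act_flip : ∀ t, shield m (flipSym.act t) = flipSym.act (shield m t)

/-- The law of shielding. -/
structure ShieldLaw (m : ℝ) (G : Measure ℝ) (κ AY : ℝ) : Prop where
  κ_pos : 0 < κ
  tame : ∀ᵐ t ∂law G, Tame m t
  good : ∀ᵐ t ∂law G, GoodG κ t ∧ GoodG κ (shield m t)
  meas_capY : ∀ e, Measurable fun t => capY m t e
  meas_shield : Measurable (shield m)
  int_capY : ∀ e, Integrable (fun t => capY m t e) (law G)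
  mean_capY : ∀ e, ∫ t, capY m t e ∂law G ≤ AY
  stay : ∀ A B : ℕ, A + 4 ≤ B → law G {t | ¬ Stay m A B t} ≤
    ENNReal.ofReal (1000 * (A + 1 : ℝ) ^ 2 * (1 / 2) ^ (B - A - 4))

/-- The shielded configuration is under control in a box. -/
structure BoxOK (m κ A : ℝ) (N L : ℕ) (t : Conf) : Prop where
  nonneg : ∀ e, 0 ≤ t e
  loc : Loc m N L t
  cap : ∀ e, InSq N (eFst e) → capY m t e ≤ A * L
  dist : ∀ x y, InSq N x → InSq N y → T (shield m t) x y ≤ A * (dist1 x y + (L : ℝ) ^ 2)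
  long : ∀ x y (p : grid.Walk x y), InSq N x → p.IsPath → L ≤ p.length →
    κ * p.length ≤ plen (shield m t) p

/-- Boxes are under control with high probability. -/
def BoxProp (m : ℝ) (G : Measure ℝ) (κ A : ℝ) : Prop :=
  0 < κ ∧ 0 < A ∧ ∀ C : ℕ,
    Tendsto (fun n : ℕ => law G {t | ¬ BoxOK m κ A (C * n) (Lc n) t}) atTop (𝓝 0)

/-- The mean shielded passage time. -/
noncomputable def muT0 (m : ℝ) (G : Measure ℝ) (z : V) : ℝ := ∫ t, T (shield m t) 0 z ∂law G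

/-- The time constant. -/
noncomputable def muG (m : ℝ) (G : Measure ℝ) (p : ℝ × ℝ) : ℝ := Subadd.norm (muT0 m G) p

/-- The shape theorem: fixed scaled pairs for the passage time, all pairs of a box for the
shielded one. The passage time is above the shielded one everywhere and equal to it between
unenclosed vertices. -/
structure ShapeG (m : ℝ) (G : Measure ℝ) (κ A : ℝ) : Prop where
  κ_pos : 0 < κ
  A_pos : 0 < A
  shape : Straight.Shape G A (muG m G)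
  upperR : ∀ p, muG m G p ≤ A * r1 p
  lowerR : ∀ p, κ * r1 p ≤ muG m G p
  box : ∀ (C : ℕ) (ε : ℝ), 0 < ε → Tendsto (fun n : ℕ => law G {t | ∃ x y : V,
    InBox (C * n) x ∧ InBox (C * n) y ∧
      ε * n < |T (shield m t) x y - muG m G (toR y - toR x)|}) atTop (𝓝 0)

/-- Disjoint pieces of a geodesic between unenclosed vertices cost at most linearly in their
spans, up to `ε n`. -/
def CutOK (m ε : ℝ) (C r n : ℕ) (t : Conf) : Prop :=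
  ∀ γ i₀ i₁, SegGeo t γ i₀ i₁ → OKpt m t (γ i₀) → OKpt m t (γ i₁) → InSq ((C * n : ℕ) : ℤ) (γ i₀) →
    i₁ - i₀ ≤ ((C * n : ℕ) : ℤ) → ∀ (l : ℕ) (p q : Fin l → ℤ), l * r ≤ C * n →
    (∀ j, i₀ ≤ p j ∧ p j ≤ q j ∧ q j ≤ i₁) → (∀ i j, i < j → q i ≤ p j) →
    ∑ j, ∑ i ∈ Finset.Ico (p j) (q j), wt t (γ i) (γ (i + 1)) ≤
      25 * m * ∑ j, dist1 (γ (p j)) (γ (q j)) + ε * n

/-- Cutting works with high probability when there are few pieces. -/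
def CutProp (m : ℝ) (G : Measure ℝ) : Prop :=
  ∀ (C : ℕ) (ε : ℝ), 0 < ε → ∃ r₀ : ℕ, ∀ r, r₀ ≤ r →
    Tendsto (fun n : ℕ => law G {t | ¬ CutOK m ε C r n t}) atTop (𝓝 0)

end Vale.Agent.P158.Gen
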