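import Vale.Agent.P158.ChordCount
import Vale.Agent.P158.Gen.Spec

/-!
The expected number of chords of bigeodesics is linear for every atomless law: the count runs on
the shielded configuration, whose weights on the cycle have bounded mean.
-/

open MeasureTheory Filter Topology
open scoped ENNReal

namespace Vale.Agent.P158.Gen.ChordCount

open Vale.Agent.P158 Vale.Agent.P158.Gen
open Vale.Agent.P158.ChordCount (Obj Rig Key key rigidSite exists_cycle card_obj_le rigid_first
  rigid_last rigidSite_sum_le exists_scale)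

variable {m κ δ : ℝ} {t : Conf}

/-- A positive mass of weights below `r₁` is at distance from `r₁`. -/
theorem exists_below {G : Measure ℝ} (hG : LawGen G) {r₁ : ℝ} (h : 0 < G (Set.Iio r₁)) :
    ∃ r₀, r₀ < r₁ ∧ 0 < G (Set.Icc 0 r₀) := by
  have := hG.prob
  have hneg : G (Set.Iio 0) = 0 := by
    rw [← Set.compl_Ici, prob_compl_eq_zero_iff measurableSet_Ici]
    exact hG.supp
  by_contra hne
  push Not at hne
  refine h.ne' (measure_mono_null (fun x hx => ?_) (measure_union_null hneg
    (measure_iUnion_null fun n : ℕ => nonpos_iff_eq_zero.1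
      (hne (r₁ - 1 / ((n : ℝ) + 1)) (by
        have : (0 : ℝ) < 1 / ((n : ℝ) + 1) := by positivity
        linarith)))))
  rcases lt_or_ge x 0 with hx0 | hx0
  · exact Or.inl hx0
  obtain ⟨n, hn⟩ := exists_nat_one_div_lt (sub_pos.2 (show x < r₁ from hx))
  exact Or.inr (Set.mem_iUnion.2 ⟨n, hx0, by linarith⟩)

/-- Rigidity of the two entrance edges gives the joint rigidity of the object. -/
theorem rig_of_rigid (h0 : ∀ e, 0 ≤ t e) {γ : ℤ → V} (hγ : IsBigeodesic t γ) {n : ℤ} (hn : 0 < n)
    (h₁ : RigidEdge t δ γ) (h₂ : RigidEdge t δ (reLine γ n)) : Rig t δ γ n := by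
  intro i j x z p hi hj hx hz hav
  subst hx hz
  rw [← Rays.bigeo_T hγ h0 (show i ≤ j by omega)]
  rcases hav with hav | hav
  · exact h₁ (-i - 1).toNat j.toNat _ _ p
      (by rw [show -(((-i - 1).toNat : ℤ) + 1) = i by omega])
      (by rw [Int.toNat_of_nonneg (by omega)]) hav
  · refine h₂ (n - i - 1).toNat (j - n).toNat _ _ p ?_ ?_ ?_
    · simp only [reLine]; congr 1; omega
    · simp only [reLine]; congr 1; omega
    · simpa [reLine, show (-1 : ℤ) + n = n - 1 by ring] using hav

/-- A rigid object stays one, with margin `min δ m`, after shielding. -/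
theorem obj_shield (SF : ShieldFacts m) (hT : Tame m t) (h0 : ∀ e, 0 ≤ t e)
    (h0' : ∀ e, 0 ≤ shield m t e) {k B B' cL cR : ℤ} {R : ℕ} {γ : ℤ → V} {n lo hi c₀ : ℤ}
    (h : Obj t k B B' cL cR R γ n lo hi c₀) (hR : Rig t δ γ n) :
    Obj (shield m t) k B B' cL cR R γ n lo hi c₀ ∧ Rig (shield m t) (min δ m) γ n := by
  have hl := (SF.bigeo t hT h0 γ).1.2 h.line
  exact ⟨h.transfer hl, rig_of_rigid h0' hl h.pos
    (SF.rigid t hT h0 δ γ h.line (rigid_first h0 h hR))
    (SF.rigid t hT h0 δ _ (h.line.reindex n) (rigid_last h0 h hR))⟩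

/-- The weight of a shielded walk is at most the sum of the levels of its edges. -/
theorem plen_shield_le (SF : ShieldFacts m) (hT : Tame m t) {u v : V} (p : grid.Walk u v) :
    plen (shield m t) p ≤ ((edgeList p).map fun e => capY m t e + 1).sum := by
  rw [plen_eq_edgeSum]
  exact List.sum_le_sum fun e _ => SF.le_capY _ t e (Set.mem_univ e) (hT.fin e)

/-- The mean of a sum of levels. -/
theorem integral_caps {G : Measure ℝ} {AY : ℝ} (hG : LawGen G) (SL : ShieldLaw m G κ AY)
    (l : List Edge) :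
    Integrable (fun t => (l.map fun e => capY m t e + 1).sum) (law G) ∧
      ∫ t, (l.map fun e => capY m t e + 1).sum ∂law G ≤ l.length * (AY + 1) := by
  have := hG.prob
  have : IsProbabilityMeasure (law G) := by unfold law; infer_instance
  induction l with
  | nil => simp
  | cons e l ih =>
    have he : Integrable (fun t => capY m t e + 1) (law G) :=
      (SL.int_capY e).add (integrable_const 1)
    simp only [List.map_cons, List.sum_cons, List.length_cons]
    refine ⟨he.add ih.1, ?_⟩
    rw [integral_add he ih.1, integral_add (SL.int_capY e) (integrable_const 1), integral_const,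
      probReal_univ, one_smul]
    push_cast
    linarith [SL.mean_capY e, ih.2]

/-- The expected number of rigid objects of two levels is linear in the radius of the box. -/
theorem rigid_count {G : Measure ℝ} {AY : ℝ} (hG : LawGen G) (hm : 0 < m) (SF : ShieldFacts m)
    (SL : ShieldLaw m G κ AY) (hnice : ∀ᵐ t ∂law G, NiceG κ t) (hδ : 0 < δ) :
    ∃ a : ℝ, 0 ≤ a ∧ ∀ (k B cL cR : ℤ) (R B' : ℕ) (O : Finset Key), cL < cR - R →
      ∑ o ∈ O, law G (rigidSite δ k B (B' : ℤ) cL cR R o) ≤
        ENNReal.ofReal (a * ((B' : ℝ) + 1)) := by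
  have := hG.prob
  have : IsProbabilityMeasure (law G) := by unfold law; infer_instance
  have hcap : ∀ᵐ t ∂law G, ∀ e, 0 ≤ capY m t e := by
    filter_upwards [SL.tame] with t ht e
    rw [capY, if_pos (ht.fin e)]
    positivity
  have hAY : 0 ≤ AY := le_trans
    (integral_nonneg_of_ae (hcap.mono fun t ht => ht ((0, 0), false))) (SL.mean_capY _)
  obtain ⟨d, hd⟩ : ∃ d : ℝ, d = min δ m := ⟨_, rfl⟩
  have hd0 : 0 < d := hd ▸ lt_min hδ hm
  refine ⟨2 + 192 * (AY + 1) / d, by positivity, fun k B cL cR R B' O hlev => ?_⟩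
  obtain ⟨u, v, Γ, hΓ, hlen, hcov⟩ := exists_cycle (B := (B' : ℤ)) (Int.natCast_nonneg _)
  set f : Conf → ℝ := fun t => 2 + 24 / d * ((edgeList Γ).map fun e => capY m t e + 1).sum
  obtain ⟨hint, hmean⟩ := integral_caps hG SL (edgeList Γ)
  refine (rigidSite_sum_le (f := fun t => ENNReal.ofReal (f t)) O ?_).trans ?_
  · filter_upwards [SL.good, SL.tame, hnice] with t hg hT hn O' hO'
    have h0 := hg.1.nonneg
    have hc := card_obj_le (SF.nice κ t hT hg.2 hn) SL.κ_pos hd0 hlev Γ hΓ hcov O' fun o ho => by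
      obtain ⟨-, γ, n, lo, hi, c₀, hobj, hR, hk⟩ := hO' o ho
      obtain ⟨h1, h2⟩ := obj_shield SF hT h0 hg.2.nonneg hobj hR
      exact ⟨γ, n, lo, hi, c₀, h1, hd ▸ h2, hk⟩
    rw [← ENNReal.ofReal_natCast]
    refine ENNReal.ofReal_le_ofReal ?_
    have hp := plen_shield_le SF hT Γ
    have e : f t = (2 * d + 24 * ((edgeList Γ).map fun e => capY m t e + 1).sum) / d := by
      simp only [f]; field_simp
    rw [e, le_div_iff₀ hd0]
    linarith
  have hfint : Integrable f (law G) := (integrable_const 2).add (hint.const_mul _)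
  rw [← ofReal_integral_eq_lintegral_ofReal hfint (by
    filter_upwards [hcap] with t ht
    have : 0 ≤ ((edgeList Γ).map fun e => capY m t e + 1).sum :=
      List.sum_nonneg fun z hz => by
        obtain ⟨e, -, rfl⟩ := List.mem_map.1 hz
        linarith [ht e]
    simp only [f, Pi.zero_apply]
    positivity)]
  refine ENNReal.ofReal_le_ofReal ?_
  have hl : ((edgeList Γ).length : ℝ) ≤ 8 * ((B' : ℝ) + 1) := by
    rw [length_edgeList]; exact_mod_cast hlen
  calc ∫ t, f t ∂law G
      = 2 + 24 / d * ∫ t, ((edgeList Γ).map fun e => capY m t e + 1).sum ∂law G := by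
        simp only [f]
        rw [integral_add (integrable_const 2) (hint.const_mul _), integral_const, probReal_univ,
          one_smul, integral_const_mul]
    _ ≤ 2 + 24 / d * (8 * ((B' : ℝ) + 1) * (AY + 1)) := by
        gcongr
        exact hmean.trans (mul_le_mul_of_nonneg_right hl (by linarith))
    _ ≤ (2 + 192 * (AY + 1) / d) * ((B' : ℝ) + 1) := by
        have : 0 ≤ (B' : ℝ) := Nat.cast_nonneg _
        ring_nf
        nlinarith

/-- The count of chords, from almost sure niceness. -/
theorem chordCount_of_nice {G : Measure ℝ} {AY : ℝ} (hG : LawGen G) (hm : 0 < m)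
    (SF : ShieldFacts m) (SL : ShieldLaw m G κ AY) (hnice : ∀ᵐ t ∂law G, NiceG κ t) :
    ChordCount G := by
  intro γ₀ C r₁ hγ₀ hγ₁ _ hr₁
  obtain ⟨r₀, hr, hg⟩ := exists_below hG hr₁
  obtain ⟨a, ha, hcount⟩ := rigid_count hG hm SF SL hnice (sub_pos.2 hr)
  obtain ⟨K, hK₈, hK⟩ := exists_scale (C := C) hG (SL.good.mono fun _ h => h.1) hr hg hγ₀ hγ₁ ha
    hcount
  exact ⟨K, hK₈, fun ε _ hε R => hK ε hε R⟩

/-- The count of chords for every atomless law, from the forks and the matchings. -/
theorem chordCountG {G : Measure ℝ} {AY : ℝ} (hG : LawGen G) (hm : 0 < m) (SF : ShieldFacts m)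
    (SL : ShieldLaw m G κ AY) (hF : ForkNullAll G) (hM : MatchAll G) : ChordCount G :=
  chordCount_of_nice hG hm SF SL (by
    filter_upwards [SL.good, hF, hM] with t h2 h3 h4
    exact ⟨h2.1, h3, h4⟩)

end Vale.Agent.P158.Gen.ChordCount
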