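import Vale.Agent.P158.Gen.ChordNorm
import Vale.Agent.P158.ChordDet

/-!
The cuts of a chord, without an upper bound on the weights: the pieces of a geodesic between
unenclosed vertices cost at most linearly in their displacements, up to a small error.
-/

open MeasureTheory Filter Topology

namespace Vale.Agent.P158.Gen

open Vale.Agent.P158

/-- The displacement of the `j`th piece of `r` steps. -/
noncomputable def pieceLen (r : ℕ) {a b : V} (p : grid.Walk a b) (j : ℕ) : ℝ :=
  r1 (toR (p.getVert ((j + 1) * r)) - toR (p.getVert (j * r)))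

/-- The weight of the `j`th piece of `r` steps. -/
noncomputable def pieceWt (t : Conf) (r : ℕ) {a b : V} (p : grid.Walk a b) (j : ℕ) : ℝ :=
  rlen t p.getVert ((j + 1) * r) - rlen t p.getVert (j * r)

lemma dist1_eq (x y : V) : dist1 x y = r1 (toR y - toR x) := by
  rw [← r1_neg, neg_sub]
  simp [dist1, r1, toR]

open scoped Classical in
/-- Any pieces of a geodesic between unenclosed vertices are cheap in total. -/
lemma pieces_cut {m η : ℝ} {C r N : ℕ} {t : Conf} (hcut : CutOK m η C r N t) {γ : ℤ → V}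
    {i₀ i₁ : ℤ} (hseg : SegGeo t γ i₀ i₁) (hok₀ : OKpt m t (γ i₀)) (hok₁ : OKpt m t (γ i₁))
    (hin : InSq ((C * N : ℕ) : ℤ) (γ i₀)) {a b : V} {p : grid.Walk a b}
    (hℓ : (p.length : ℤ) = i₁ - i₀) (hget : ∀ n ≤ p.length, p.getVert n = γ (i₀ + n))
    (hlen : p.length ≤ C * N) {S : Finset ℕ} (hS : ∀ j ∈ S, j < p.length / r) :
    ∑ j ∈ S, pieceWt t r p j ≤ 25 * m * ∑ j ∈ S, pieceLen r p j + η * N := by
  set f := S.orderEmbOfFin rfl with hf
  have hfS : ∀ i, f i < p.length / r := fun i => hS _ (Finset.orderEmbOfFin_mem S rfl i)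
  have hle : ∀ j : ℕ, j ≤ p.length / r → j * r ≤ p.length := fun j hj =>
    (Nat.mul_le_mul_right r hj).trans (Nat.div_mul_le_self _ _)
  have hadd : ∀ j : ℕ, (j + 1) * r = j * r + r := fun j => by rw [Nat.add_mul, one_mul]
  have h := hcut γ i₀ i₁ hseg hok₀ hok₁ hin (by rw [← hℓ]; exact_mod_cast hlen) S.card
    (fun i => i₀ + ((f i * r : ℕ) : ℤ)) (fun i => i₀ + (((f i + 1) * r : ℕ) : ℤ))
    ?_ (fun i => ?_) (fun i i' hii => ?_)
  · have e : ∀ g : ℕ → ℝ, ∑ i, g (f i) = ∑ j ∈ S, g j := fun g => by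
      conv_rhs => rw [← Finset.map_orderEmbOfFin_univ S rfl, Finset.sum_map]
      rfl
    have e1 : ∀ i, ∑ n ∈ Finset.Ico (i₀ + ((f i * r : ℕ) : ℤ)) (i₀ + (((f i + 1) * r : ℕ) : ℤ)),
        wt t (γ n) (γ (n + 1)) = pieceWt t r p (f i) := by
      intro i
      have h1 := hle (f i + 1) (hfS i)
      rw [pieceWt, rlen_sub_eq_Ico (by rw [hadd]; exact Nat.le_add_right _ _),
        Finset.sum_Ico_eq_sum_range, hadd, Nat.add_sub_cancel_left,
        show i₀ + ((f i * r + r : ℕ) : ℤ) = i₀ + ((f i * r : ℕ) : ℤ) + (r : ℕ) by push_cast; ring,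
        sum_Ico_shift (fun n => wt t (γ n) (γ (n + 1)))]
      refine Finset.sum_congr rfl fun n hn => ?_
      rw [Finset.mem_range] at hn
      rw [hadd] at h1
      rw [hget _ (by omega), hget _ (by omega)]
      push_cast
      simp only [add_assoc]
    have e2 : ∀ i, dist1 (γ (i₀ + ((f i * r : ℕ) : ℤ))) (γ (i₀ + (((f i + 1) * r : ℕ) : ℤ))) =
        pieceLen r p (f i) := by
      intro i
      rw [← hget _ (hle _ (hfS i).le), ← hget _ (hle _ (hfS i)), dist1_eq]
      rfl
    simp only [e1, e2] at h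
    rwa [e (fun j => pieceWt t r p j), e (fun j => pieceLen r p j)] at h
  · refine le_trans (Nat.mul_le_mul_right r (le_trans (Finset.card_le_card fun j hj => ?_)
      (Finset.card_range _).le)) ((hle _ le_rfl).trans hlen)
    exact Finset.mem_range.2 (hS j hj)
  · have h1 := hle (f i + 1) (hfS i)
    have h1' : (((f i + 1) * r : ℕ) : ℤ) ≤ p.length := by exact_mod_cast h1
    have h2 : ((f i * r : ℕ) : ℤ) ≤ (((f i + 1) * r : ℕ) : ℤ) := by
      exact_mod_cast Nat.mul_le_mul_right r (Nat.le_add_right _ 1)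
    exact ⟨by omega, by omega, by omega⟩
  · have h2 : (((f i + 1) * r : ℕ) : ℤ) ≤ ((f i' * r : ℕ) : ℤ) := by
      exact_mod_cast Nat.mul_le_mul_right r (Nat.succ_le_of_lt (f.strictMono hii))
    omega

open scoped Classical in
/-- Few cuts are bad; over a good one the frame grows at a positive rate. -/
lemma bad_cuts {μ : ℝ × ℝ → ℝ} {κ m η : ℝ} (hκ : 0 < κ) (hm : 0 ≤ m) {t : Conf}
    (h0 : ∀ e, 0 ≤ t e) {a b : V} {p : grid.Walk a b} {r : ℕ} {r₁ θ E L : ℝ}
    (hr₁ : 0 < r₁) (hθ : 0 < θ) (hθr₁ : 50 * m * θ ≤ r₁)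
    (hcuts : ∀ S : Finset ℕ, (∀ j ∈ S, j < p.length / r) →
      ∑ j ∈ S, pieceWt t r p j ≤ 25 * m * ∑ j ∈ S, pieceLen r p j + η)
    (hL : (hitCount (Set.Iio r₁) t p : ℝ) ≤ L) {pc qc : ℝ} (hφ : ∀ v, linR pc qc v ≤ μ v)
    (hslope : ∑ j ∈ Finset.range (p.length / r + 1),
      (μ (toR (p.getVert ((j + 1) * r)) - toR (p.getVert (j * r))) -
        linR pc qc (toR (p.getVert ((j + 1) * r)) - toR (p.getVert (j * r)))) ≤ E)
    {σ : LatSym} {k : ℤ}
    (hframe : ∀ u w : V, μ (toR w - toR u) - linR pc qc (toR w - toR u) ≤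
          κ / 64 * r1 (toR w - toR u) →
        r1 (toR w - toR u) / 4 ≤ (frameVal σ k w : ℝ) - frameVal σ k u) :
    ∃ bad : Finset ℕ, (bad.card : ℝ) * r ≤ 2 * L + 2 * η / r₁ + 64 * E / (κ * θ) + r ∧
      ∀ j ≤ p.length / r, j ∉ bad → j < p.length / r ∧
        θ * r / 4 ≤ (pieceGain σ k r p j : ℝ) ∧
        pieceLen r p j ≤ 4 * (pieceGain σ k r p j : ℝ) := by
  set NN := p.length / r
  set d : ℕ → ℝ := fun j => r1 (toR (p.getVert ((j + 1) * r)) - toR (p.getVert (j * r))) with hd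
  set e : ℕ → ℝ := fun j => μ (toR (p.getVert ((j + 1) * r)) - toR (p.getVert (j * r))) -
    linR pc qc (toR (p.getVert ((j + 1) * r)) - toR (p.getVert (j * r))) with he
  set Sm := (Finset.range NN).filter fun j => d j < θ * r with hSm
  set Ex := (Finset.range (NN + 1)).filter fun j => θ * r ≤ d j ∧ κ / 64 * d j < e j with hEx
  refine ⟨Sm ∪ Ex ∪ {NN}, ?_, fun j hj hjb => ?_⟩
  · have hcard : (((Sm ∪ Ex ∪ {NN}).card : ℕ) : ℝ) ≤ Sm.card + Ex.card + 1 := by
      have h1 := Finset.card_union_le (Sm ∪ Ex) {NN}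
      have h2 := Finset.card_union_le Sm Ex
      rw [Finset.card_singleton] at h1
      exact_mod_cast (show (Sm ∪ Ex ∪ {NN}).card ≤ Sm.card + Ex.card + 1 by omega)
    have hSm2 : (Sm.card : ℝ) * r ≤ 2 * L + 2 * η / r₁ := by
      have h1 := pieces_weight h0 p (r := r) hr₁.le (S := Sm)
        (fun j hj => Finset.mem_range.1 (Finset.mem_filter.1 hj).1)
      have h2 := hcuts Sm (fun j hj => Finset.mem_range.1 (Finset.mem_filter.1 hj).1)
      simp only [pieceWt, pieceLen] at h2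
      have h2' : ∑ j ∈ Sm, d j ≤ (Sm.card : ℝ) * (θ * r) :=
        (Finset.sum_le_card_nsmul _ _ _ fun j hj => (Finset.mem_filter.1 hj).2.le).trans_eq
          (nsmul_eq_mul _ _)
      have h2'' := mul_le_mul_of_nonneg_left h2' (by positivity : (0 : ℝ) ≤ 25 * m)
      have h3 : (Sm.card : ℝ) * r * (50 * m * θ) ≤ (Sm.card : ℝ) * r * r₁ :=
        mul_le_mul_of_nonneg_left hθr₁ (by positivity)
      have h4 := mul_le_mul_of_nonneg_left hL hr₁.le
      simp only [hd] at h2''
      rw [show 2 * L + 2 * η / r₁ = (2 * L * r₁ + 2 * η) / r₁ by field_simp, le_div_iff₀ hr₁]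
      linarith
    have hEx2 : (Ex.card : ℝ) * r ≤ 64 * E / (κ * θ) := by
      have h1 : (Ex.card : ℝ) * (κ / 64 * (θ * r)) ≤ E := by
        have hsub : Ex ⊆ Finset.range (NN + 1) := Finset.filter_subset _ _
        refine le_trans ?_ ((Finset.sum_le_sum_of_subset_of_nonneg hsub
          fun j _ _ => sub_nonneg.2 (hφ _)).trans hslope)
        rw [← nsmul_eq_mul]
        refine Finset.card_nsmul_le_sum _ _ _ fun j hj => ?_
        obtain ⟨-, hj1, hj2⟩ := Finset.mem_filter.1 hj
        exact (mul_le_mul_of_nonneg_left hj1 (by positivity)).trans hj2.le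
      rw [le_div_iff₀ (by positivity)]
      linarith
    have h5 := mul_le_mul_of_nonneg_right hcard (Nat.cast_nonneg r)
    linarith
  · simp only [Finset.mem_union, Finset.mem_singleton, not_or, hSm, hEx, Finset.mem_filter,
      Finset.mem_range, not_and, not_lt] at hjb
    obtain ⟨⟨hns, hne⟩, hjN⟩ := hjb
    have hlt : j < NN := lt_of_le_of_ne hj hjN
    have hd' := hns hlt
    have hg := hframe _ _ (hne (by omega) hd')
    have hG2 : d j / 4 ≤ (pieceGain σ k r p j : ℝ) := by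
      simp only [pieceGain, cutVal_pathVal]; push_cast; exact hg
    refine ⟨hlt, le_trans (by linarith) hG2, ?_⟩
    simp only [pieceLen]
    linarith

open scoped Classical in
/-- Few indices are far from every unexceptional level. -/
lemma indices_ok {t : Conf} (h0 : ∀ e, 0 ≤ t e) {m η : ℝ} (hm : 0 ≤ m) {a b : V}
    {p : grid.Walk a b} {σ : LatSym} {k : ℤ} (hk : k = 0 ∨ k = 1) {r : ℕ} (hr : 0 < r)
    {r₂ θ L : ℝ} (hr₂ : 0 < r₂) (hθ : 0 < θ) (hL : (hitCount (Set.Iio r₂) t p : ℝ) ≤ L)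
    (hcuts : ∀ S : Finset ℕ, (∀ j ∈ S, j < p.length / r) →
      ∑ j ∈ S, pieceWt t r p j ≤ 25 * m * ∑ j ∈ S, pieceLen r p j + η)
    {bad : Finset ℕ} (hgood : ∀ j ≤ p.length / r, j ∉ bad → j < p.length / r ∧
      θ * r / 4 ≤ (pieceGain σ k r p j : ℝ) ∧
      pieceLen r p j ≤ 4 * (pieceGain σ k r p j : ℝ)) (W : Finset ℤ) :
    ∃ cand : Finset ℕ,
      (cand.card : ℝ) ≤
        (bad.card : ℝ) * r + (100 * m * ((W.card : ℝ) + r * bad.card) + η) / r₂ + L ∧
      ∀ n ≤ p.length, n ∉ cand → ∃ (c : ℤ) (m : ℕ), c ∉ W ∧ m ≤ p.length ∧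
        pathVal σ k p m = c ∧ |(m : ℤ) - n| ≤ r ∧ |c - pathVal σ k p n| ≤ r := by
  set g := pathVal σ k p with hg
  set NN := p.length / r
  have hgl : ∀ m < p.length, |g (m + 1) - g m| ≤ 1 := fun m hm =>
    frameVal_adj σ hk (p.adj_getVert_succ hm)
  have hgood' : ∀ j ≤ p.length / r, j ∉ bad → j < p.length / r ∧ θ * r / 4 ≤
      (ChordSteps.cutVal p.length r g (j + 1) : ℝ) - ChordSteps.cutVal p.length r g j :=
    fun j hj hjb => ⟨(hgood j hj hjb).1, by simpa [pieceGain] using (hgood j hj hjb).2.1⟩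
  set S := (Finset.range NN).filter fun j => j ∉ bad ∧
    ∀ c : ℤ, ChordSteps.cutVal p.length r g j < c → c ≤ ChordSteps.cutVal p.length r g (j + 1) →
      c ∈ W with hSdef
  refine ⟨(bad ∪ S).biUnion fun j => Finset.Ico (j * r) (j * r + r), ?_, fun n hn hnc => ?_⟩
  · have hSc : (S.card : ℝ) * r ≤ (100 * m * ((W.card : ℝ) + r * bad.card) + η) / r₂ + L := by
      have h1 := pieces_weight h0 p (r := r) hr₂.le (S := S)
        (fun j hj => Finset.mem_range.1 (Finset.mem_filter.1 hj).1)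
      have hgs := ChordSteps.gain_le (show 0 ≤ θ * (r : ℝ) / 4 by positivity) hgl hgood' W S
        (fun j hj => by
          obtain ⟨hj1, hj2, hj3⟩ := Finset.mem_filter.1 hj
          exact ⟨(Finset.mem_range.1 hj1).le, hj2, hj3⟩)
      have h3 : (∑ j ∈ S, (pieceGain σ k r p j : ℝ)) ≤ (W.card : ℝ) + r * bad.card := by
        have h := Int.cast_le (R := ℝ) |>.2 hgs
        push_cast at h
        simpa [pieceGain] using h
      have h2 : ∑ j ∈ S, (rlen t p.getVert ((j + 1) * r) - rlen t p.getVert (j * r)) ≤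
          100 * m * ((W.card : ℝ) + r * bad.card) + η := by
        have hc := hcuts S (fun j hj => Finset.mem_range.1 (Finset.mem_filter.1 hj).1)
        simp only [pieceWt] at hc
        have h4 : ∑ j ∈ S, pieceLen r p j ≤ 4 * ((W.card : ℝ) + r * bad.card) := by
          refine le_trans ?_ (mul_le_mul_of_nonneg_left h3 (by norm_num))
          rw [Finset.mul_sum]
          refine Finset.sum_le_sum fun j hj => ?_
          obtain ⟨hj1, hj2, -⟩ := Finset.mem_filter.1 hj
          exact (hgood j (Finset.mem_range.1 hj1).le hj2).2.2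
        have h4' := mul_le_mul_of_nonneg_left h4 (by positivity : (0 : ℝ) ≤ 25 * m)
        linarith
      have h5 := mul_le_mul_of_nonneg_left hL hr₂.le
      rw [← sub_le_iff_le_add, le_div_iff₀ hr₂]
      linarith
    refine le_trans (Nat.cast_le.2 (show _ ≤ (bad.card + S.card) * r from ?_))
      (by push_cast; linarith)
    refine (Finset.card_biUnion_le).trans
      (((Finset.sum_le_card_nsmul _ _ r fun j _ => by simp).trans_eq (smul_eq_mul _ _)).trans
        (Nat.mul_le_mul_right r (Finset.card_union_le _ _)))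
  · have hnj0 : n / r * r ≤ n := Nat.div_mul_le_self n r
    have hnj : n < (n / r + 1) * r := by rw [mul_comm]; exact Nat.lt_mul_div_succ n hr
    have hadd : (n / r + 1) * r = n / r * r + r := by rw [Nat.add_mul, one_mul]
    have hnotin : n / r ∉ bad ∧ n / r ∉ S := by
      rw [← not_or, ← Finset.mem_union]
      exact fun h => hnc (Finset.mem_biUnion.2 ⟨n / r, h, Finset.mem_Ico.2 ⟨hnj0, by omega⟩⟩)
    obtain ⟨hnb, hnS⟩ := hnotin
    have hlt : n / r < NN := (hgood (n / r) (Nat.div_le_div_right hn) hnb).1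
    simp only [hSdef, Finset.mem_filter, Finset.mem_range, not_and, not_forall] at hnS
    obtain ⟨c, hc1, hc2, hcW⟩ := hnS hlt hnb
    have hm1' : (n / r + 1) * r ≤ p.length :=
      (Nat.mul_le_mul_right r hlt).trans (Nat.div_mul_le_self _ r)
    have hm0' : n / r * r ≤ (n / r + 1) * r := by omega
    simp only [ChordSteps.cutVal, min_eq_left hm1', min_eq_left (hm0'.trans hm1')] at hc1 hc2
    obtain ⟨m, hm1, hm2, hmc⟩ := ChordSteps.hits hgl hm0' hm1' hc1 hc2
    refine ⟨c, m, hcW, by omega, hmc, abs_le.2 ⟨by omega, by omega⟩, ?_⟩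
    rw [← hmc]
    rcases le_total n m with h | h
    · exact (ChordSteps.lip hgl h (by omega)).trans (by omega)
    · rw [abs_sub_comm]; exact (ChordSteps.lip hgl h hn).trans (by omega)

end Vale.Agent.P158.Gen
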