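import Vale.Agent.P158.Gen.ChordCuts
import Vale.Agent.P158.Gen.BlockDefs
import Vale.Agent.P158.Wild

/-!
The deterministic part of the chord property for all atomless laws: a chord is trimmed to the
part between unenclosed vertices, and that part is treated with the shielded passage times.
-/

open MeasureTheory Filter Topology

namespace Vale.Agent.P158.Gen

open Vale.Agent.P158

variable {m κ κb A Ab : ℝ} {G : Measure ℝ}

lemma capTo_nonneg {Y x : ℝ} (hY : 0 ≤ Y) (hx : 0 ≤ x) : 0 ≤ capTo Y x := by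
  unfold capTo
  split_ifs with h
  · exact hx
  · rw [not_le] at h
    have : 0 ≤ (x - Y) / (1 + (x - Y)) := div_nonneg (by linarith) (by linarith)
    linarith

lemma shield_nonneg (hm : 0 ≤ m) (hSF : ShieldFacts m) {t : Conf} (h0 : ∀ e, 0 ≤ t e) (e : Edge) :
    0 ≤ shield m t e :=
  le_trans (capTo_nonneg hm (h0 e)) (hSF.cap_low Set.univ t e)

lemma plen_mono {u t : Conf} (h : ∀ e, u e ≤ t e) {a b : V} (p : grid.Walk a b) :
    plen u p ≤ plen t p := by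
  induction p with
  | nil => simp
  | cons h' q ih =>
    simp only [plen_cons, wt]
    exact add_le_add (h _) ih

/-- Vertices close in both coordinates are close in the sum norm. -/
lemma r1_of_near {x y : V} {L : ℕ} (h1 : |x.1 - y.1| ≤ (L : ℤ) + 1)
    (h2 : |x.2 - y.2| ≤ (L : ℤ) + 1) : r1 (toR x - toR y) ≤ 2 * ((L : ℝ) + 1) := by
  have a1 : ((|x.1 - y.1| : ℤ) : ℝ) ≤ (((L : ℤ) + 1 : ℤ) : ℝ) := Int.cast_le.2 h1
  have a2 : ((|x.2 - y.2| : ℤ) : ℝ) ≤ (((L : ℤ) + 1 : ℤ) : ℝ) := Int.cast_le.2 h2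
  push_cast at a1 a2
  simp only [r1, toR, Prod.fst_sub, Prod.snd_sub]
  linarith

lemma r1_sub_le (x y z : ℝ × ℝ) : r1 (x - z) ≤ r1 (x - y) + r1 (y - z) := by
  have := r1_add (x - y) (y - z)
  rwa [sub_add_sub_cancel] at this

/-- The frame of a geodesic between two unenclosed vertices near the boundary of the box. -/
lemma chord_frameG (hn2 : Norm2 (muG m G)) (hκ : 0 < κ)
    (hlow : ∀ v, κ * r1 v ≤ muG m G v) {t u : Conf} (h0 : ∀ e, 0 ≤ u e)
    (hle : ∀ e, u e ≤ t e) {N : ℕ} (hN : 0 < N) {a b : V} {p : grid.Walk a b}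
    (hpT : plen t p = T t a b) (hTeq : T u a b = T t a b) {n₀ : ℕ} (hn₀ : n₀ ≤ p.length)
    (ha : InBox (2 * N) a) (hb : InBox (2 * N) b)
    (hsmall : |((p.getVert n₀).1 : ℝ)| ≤ N / 64 ∧ |((p.getVert n₀).2 : ℝ)| ≤ N / 64)
    (hda : 61 / 64 * (N : ℝ) ≤ r1 (toR (p.getVert n₀) - toR a))
    (hdb : 61 / 64 * (N : ℝ) ≤ r1 (toR b - toR (p.getVert n₀)))
    {ε' : ℝ} (hε' : ε' ≤ κ / 256)
    (hshape : ∀ x y : V, InBox (2 * N) x → InBox (2 * N) y →
      |T u x y - muG m G (toR y - toR x)| ≤ ε' * N) :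
    ∃ (pc qc : ℝ) (σ : LatSym) (k : ℤ), σ ∈ frameSyms ∧ (k = 0 ∨ k = 1) ∧
      (∀ v, linR pc qc v ≤ muG m G v) ∧
      linR pc qc (toR b - toR a) = muG m G (toR b - toR a) ∧
      T t a b ≤ muG m G (toR b - toR a) + ε' * N ∧
      (∀ x y : V, muG m G (toR y - toR x) - linR pc qc (toR y - toR x) ≤
          κ / 64 * r1 (toR y - toR x) →
        r1 (toR y - toR x) / 4 ≤ (frameVal σ k y : ℝ) - frameVal σ k x) ∧
      (∀ v : V, |(frameVal σ k v : ℝ)| ≤ r1 (toR v)) ∧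
      (frameVal σ k a : ℝ) ≤ -(13 / 64) * N ∧ 13 / 64 * (N : ℝ) ≤ frameVal σ k b := by
  have hN' : (0 : ℝ) < N := by exact_mod_cast hN
  set v := p.getVert n₀ with hv
  have hvbox : InBox (2 * N) v := by
    have c : ∀ x : ℤ, |(x : ℝ)| ≤ N / 64 → |x| ≤ ((2 * N : ℕ) : ℤ) := fun x hx => by
      rw [← Int.cast_le (R := ℝ)]; push_cast; linarith
    exact ⟨c _ hsmall.1, c _ hsmall.2⟩
  obtain ⟨q₁, -, h1⟩ := exists_seg t p (Nat.zero_le n₀)
  obtain ⟨q₂, -, h2⟩ := exists_seg t p hn₀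
  have hsplit : T u a v + T u v b ≤ T t a b := by
    have e1 := (T_le h0 q₁).trans (plen_mono hle q₁)
    have e2 := (T_le h0 q₂).trans (plen_mono hle q₂)
    rw [h1 hn₀, rlen_zero, sub_zero] at e1
    rw [h2 le_rfl, ← plen_eq_rlen, hpT] at e2
    simp only [SimpleGraph.Walk.getVert_zero, SimpleGraph.Walk.getVert_length, ← hv] at e1 e2
    linarith
  have s1 := abs_le.1 (hshape _ _ ha hvbox)
  have s2 := abs_le.1 (hshape _ _ hvbox hb)
  have s3 := abs_le.1 (hshape _ _ ha hb)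
  rw [hTeq] at s3
  have hκN : 0 < κ * (N : ℝ) := by positivity
  have hεN := mul_le_mul_of_nonneg_right hε' hN'.le
  have hmua := (mul_le_mul_of_nonneg_left hda hκ.le).trans (hlow _)
  have hmub := (mul_le_mul_of_nonneg_left hdb hκ.le).trans (hlow _)
  have hD0 : toR b - toR a ≠ 0 := fun h => by
    rw [h, hn2.zero] at s3
    linarith [s1.1, s2.1, s3.2]
  obtain ⟨pc, qc, hφ, hφD⟩ := exists_support hn2 hD0
  obtain ⟨σ, hσ, k, hk, hframe, hFbd⟩ := exists_frame hn2 hκ hlow hφ hD0 hφD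
  have hDsum : linR pc qc (toR v - toR a) + linR pc qc (toR b - toR v) =
      linR pc qc (toR b - toR a) := by
    rw [← linR_add]; congr 1; abel
  have h3 : r1 (toR v) ≤ N / 32 := by
    simp only [r1, toR]; linarith [hsmall.1, hsmall.2]
  refine ⟨pc, qc, σ, k, hσ, hk, hφ, hφD, by linarith [s3.2], hframe, hFbd, ?_, ?_⟩
  · have h1 := hframe a v (by
      have := hφ (toR b - toR v)
      have := mul_le_mul_of_nonneg_left hda (show 0 ≤ κ / 64 by positivity)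
      linarith [s1.1, s2.1, s3.2])
    have h2 := (abs_le.1 (hFbd v)).2
    linarith
  · have h1 := hframe v b (by
      have := hφ (toR v - toR a)
      have := mul_le_mul_of_nonneg_left hdb (show 0 ≤ κ / 64 by positivity)
      linarith [s1.1, s2.1, s3.2])
    have h2 := (abs_le.1 (hFbd v)).1
    linarith

/-- The frame changes little between two vertices close to each other. -/
lemma frame_near {σ : LatSym} {k : ℤ}
    (hframe : ∀ x y : V, |((frameVal σ k x : ℝ)) - frameVal σ k y| ≤ r1 (toR x - toR y))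
    {x y : V} {L : ℕ} (h1 : |x.1 - y.1| ≤ (L : ℤ) + 1) (h2 : |x.2 - y.2| ≤ (L : ℤ) + 1) :
    |(frameVal σ k x : ℝ) - frameVal σ k y| ≤ 2 * ((L : ℝ) + 1) :=
  (hframe x y).trans (r1_of_near h1 h2)

/-- The frame is an additive functional. -/
lemma frame_lip {σ : LatSym} (hσ : σ ∈ frameSyms) {k : ℤ}
    (hbd : ∀ v : V, |(frameVal σ k v : ℝ)| ≤ r1 (toR v)) (x y : V) :
    |((frameVal σ k x : ℝ)) - frameVal σ k y| ≤ r1 (toR x - toR y) := by
  have hadd : frameVal σ k x - frameVal σ k y = frameVal σ k (x - y) := by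
    simp only [frameSyms, List.mem_cons, List.not_mem_nil, or_false] at hσ
    rcases hσ with rfl | rfl | rfl | rfl | rfl | rfl <;>
      simp [frameVal, lev, negXSym, negSym, LatSym.comp] <;> ring
  have h := hbd (x - y)
  rw [← hadd] at h
  push_cast at h
  rwa [show toR (x - y) = toR x - toR y by simp [toR]] at h

/-- A crossing of the trimmed segment is a crossing of the whole one. -/
lemma Cross.extend {k : ℤ} {γ : ℤ → V} {i₀ i₁ a b c : ℤ} {R : ℕ} {i j : ℤ}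
    (h : Cross k γ a b c R i j) (ha : i₀ ≤ a) (hb : b ≤ i₁)
    (hlo : ∀ n, i₀ ≤ n → n ≤ a → lev k (γ n) < c)
    (hhi : ∀ n, b ≤ n → n ≤ i₁ → c < lev k (γ n)) : Cross k γ i₀ i₁ c R i j := by
  refine ⟨lt_of_le_of_lt ha h.lo, h.le, lt_of_lt_of_le h.hi hb, h.len, h.first, h.last,
    fun n hn hn' => ?_, fun n hn hn' => ?_⟩
  · rcases le_total n a with h' | h'
    · exact hlo n hn h'
    · exact h.before n h' hn'
  · rcases le_total b n with h' | h'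
    · exact hhi n h' hn'
    · exact h.after n hn h'

/-- The deterministic part of the chord property. -/
theorem chord_detG (hm : 0 < m) (hSF : ShieldFacts m) (hn2 : Norm2 (muG m G)) (hκ : 0 < κ)
    (hlow : ∀ v, κ * r1 v ≤ muG m G v) (hκb : 0 < κb) (hAb : 0 < Ab) {t : Conf}
    (h0 : ∀ e, 0 ≤ t e) {C N L r R : ℕ} {r₁ r₂ θ ε' η ε L₁ L₂ : ℝ}
    (hC : 6 * Ab ≤ κb * ((C : ℝ) - 2)) (hC2 : 2 ≤ C) (hN : 0 < N)
    (hL : 64 * (L + 1) ≤ N) (hL2 : 4 * (2 * L + 1) ^ 2 ≤ N)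
    (hr : 0 < r) (hr₁ : 0 < r₁) (hr₂ : 0 < r₂) (hθ : 0 < θ) (hθr₁ : 50 * m * θ ≤ r₁)
    (hε'0 : 0 ≤ ε') (hε' : ε' ≤ κ / 256) (hrN : 32 * r ≤ N) (hR : (r : ℝ) * (8 / θ + 3) ≤ R)
    (hbox : BoxOK m κb Ab (2 * N) L t)
    (hshape : ∀ x y : V, InBox (2 * N) x → InBox (2 * N) y →
      |T (shield m t) x y - muG m G (toR y - toR x)| ≤ ε' * N)
    (hblock : BlockGoodG m G C r ε' N t) (hcut : CutOK m η C r N t)
    (hlight : ∀ (a b : V) (p : grid.Walk a b), InBox (2 * N) a → p.IsPath → N ≤ 4 * p.length →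
      p.length ≤ C * N → (hitCount (Set.Iio r₁) t p : ℝ) ≤ L₁ ∧
        (hitCount (Set.Iio r₂) t p : ℝ) ≤ L₂)
    {X : ℝ} (hX : 2 * L₁ + 2 * (η * N) / r₁ + 192 * ε' * N / (κ * θ) + r ≤ X)
    (hA : 5 * X + L₁ ≤ ε * N)
    (hB : X + (100 * m * (6 * X + L₁) + η * N) / r₂ + L₂ +
      2 * (2 * (L : ℝ) + 1) ^ 2 ≤ ε * N) :
    ChordOK (1 / 8) C r₁ ε R N t := by
  classical
  intro γ i₀ i₁ hseg hbd₀ hbd₁ hmid
  obtain ⟨mm, hmm₀, hmm₁, hmm⟩ := hmid
  set u := shield m t with hu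
  have hu0 : ∀ e, 0 ≤ u e := shield_nonneg hm.le hSF h0
  have hule : ∀ e, u e ≤ t e := hSF.le Set.univ t
  have hN' : (0 : ℝ) < N := by exact_mod_cast hN
  have hLr : 64 * ((L : ℝ) + 1) ≤ N := by exact_mod_cast hL
  -- the middle vertex
  have hsm : |((γ mm).1 : ℝ)| ≤ N / 64 ∧ |((γ mm).2 : ℝ)| ≤ N / 64 := by
    have hfl := Int.floor_le ((1 / 8 : ℝ) * N / 8)
    obtain ⟨a1, a2, a3, a4⟩ := hmm
    have c1 : ((-⌊(1 / 8 : ℝ) * N / 8⌋ : ℤ) : ℝ) ≤ (γ mm).1 := Int.cast_le.2 a1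
    have c2 : (((γ mm).1 : ℤ) : ℝ) ≤ ⌊(1 / 8 : ℝ) * N / 8⌋ := Int.cast_le.2 a2
    have c3 : ((-⌊(1 / 8 : ℝ) * N / 8⌋ : ℤ) : ℝ) ≤ (γ mm).2 := Int.cast_le.2 a3
    have c4 : (((γ mm).2 : ℤ) : ℝ) ≤ ⌊(1 / 8 : ℝ) * N / 8⌋ := Int.cast_le.2 a4
    push_cast at c1 c3
    exact ⟨abs_le.2 ⟨by linarith, by linarith⟩, abs_le.2 ⟨by linarith, by linarith⟩⟩
  have hd₀ : 63 / 64 * (N : ℝ) ≤ r1 (toR (γ mm) - toR (γ i₀)) := by
    have := r1_ge_of_onBd hbd₀ hsm; linarith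
  have hd₁ : 63 / 64 * (N : ℝ) ≤ r1 (toR (γ i₁) - toR (γ mm)) := by
    have := r1_ge_of_onBd hbd₁ hsm
    rw [← neg_sub (toR (γ i₁)), r1_neg] at this
    linarith
  -- the whole segment is long
  obtain ⟨ℓ₀, hℓ₀⟩ : ∃ ℓ : ℕ, (ℓ : ℤ) = i₁ - i₀ :=
    ⟨(i₁ - i₀).toNat, Int.toNat_of_nonneg (by omega)⟩
  obtain ⟨hadj₀, hinj₀, -⟩ := seg_walk hseg hℓ₀
  obtain ⟨p₀, -, hp₀l, hp₀v, -⟩ := exists_seq_walk t ℓ₀ hadj₀ hinj₀
  have hlong : 2 * (2 * (L : ℤ) + 1) ^ 2 < i₁ - i₀ := by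
    have hn : mm = i₀ + ((mm - i₀).toNat : ℕ) := by omega
    obtain ⟨q, hq, -⟩ := exists_seg t p₀ (Nat.zero_le (mm - i₀).toNat)
    have h := r1_le_length q
    simp only [hp₀v, min_eq_left (Nat.zero_le ℓ₀),
      min_eq_left (show (mm - i₀).toNat ≤ ℓ₀ by omega), ← hn] at h
    simp only [Nat.cast_zero, add_zero] at h
    have h' : (q.length : ℝ) ≤ (ℓ₀ : ℝ) := Nat.cast_le.2 (le_trans hq (by omega))
    have h2 : (4 : ℝ) * (2 * (L : ℝ) + 1) ^ 2 ≤ N := by exact_mod_cast hL2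
    have h3 : ((2 * (2 * L + 1) ^ 2 : ℕ) : ℝ) < (ℓ₀ : ℝ) := by push_cast; linarith
    have h4 : 2 * (2 * L + 1) ^ 2 < ℓ₀ := by exact_mod_cast h3
    rw [← hℓ₀]
    exact_mod_cast h4
  have hsq : ∀ {x : V}, InSq (N : ℤ) x → InSq ((2 * N : ℕ) : ℤ) x := fun {x} hx => by
    obtain ⟨a1, a2, a3, a4⟩ := hx
    refine ⟨?_, ?_, ?_, ?_⟩ <;> push_cast <;> omega
  obtain ⟨a, b, ha₀, haL, hab, hbL, hb₁, hoka, hokb, hneara, hnearb⟩ :=
    hSF.trim _ L t hbox.loc γ i₀ i₁ hseg (hsq hbd₀.1) (hsq hbd₁.1) hlong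
  -- the middle vertex lies on the trimmed segment
  have hfar : ∀ i, (|(γ i).1 - (γ i₀).1| ≤ (L : ℤ) + 1 ∧ |(γ i).2 - (γ i₀).2| ≤ (L : ℤ) + 1) ∨
      (|(γ i).1 - (γ i₁).1| ≤ (L : ℤ) + 1 ∧ |(γ i).2 - (γ i₁).2| ≤ (L : ℤ) + 1) → i ≠ mm := by
    rintro i (⟨h1, h2⟩ | ⟨h1, h2⟩) rfl
    · have := r1_of_near h1 h2
      linarith
    · have h3 := r1_of_near h1 h2
      rw [← neg_sub (toR (γ i₁)), r1_neg] at h3
      linarith
  have hamm : a < mm := by
    by_contra h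
    exact hfar mm (Or.inl (hneara mm hmm₀ (not_lt.1 h))) rfl
  have hmmb : mm < b := by
    by_contra h
    exact hfar mm (Or.inr (hnearb mm (not_lt.1 h) hmm₁)) rfl
  -- the trimmed segment
  have hsegab : SegGeo t γ a b := wild_sub h0 hseg ha₀ hab hb₁
  obtain ⟨ℓ, hℓ⟩ : ∃ ℓ : ℕ, (ℓ : ℤ) = b - a := ⟨(b - a).toNat, Int.toNat_of_nonneg (by omega)⟩
  obtain ⟨hadj, hinj, hgeo⟩ := seg_walk hsegab hℓ
  obtain ⟨p, hp, hpl, hpv, hplen⟩ := exists_seq_walk t ℓ hadj hinj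
  have hℓ' : (p.length : ℤ) = b - a := by rw [hpl]; exact hℓ
  have hget : ∀ n ≤ p.length, p.getVert n = γ (a + n) := fun n hn => by
    rw [hpv, min_eq_left (hpl ▸ hn)]
  have hpT : plen t p = T t (γ (a + (0 : ℕ))) (γ (a + ℓ)) := by
    rw [plen_eq_rlen, hpl, hplen _ le_rfl, hgeo]
  have hv0 : γ (a + (0 : ℕ)) = γ a := by simp
  have hvℓ : γ (a + ℓ) = γ b := by congr 1; omega
  have hTeq : T u (γ (a + (0 : ℕ))) (γ (a + ℓ)) = T t (γ (a + (0 : ℕ))) (γ (a + ℓ)) :=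
    hSF.eq_T Set.univ t h0 _ _ (hv0.symm ▸ hoka) (hvℓ.symm ▸ hokb)
  have hbox2 : ∀ {x y : V}, InSq (N : ℤ) y → |x.1 - y.1| ≤ (L : ℤ) + 1 →
      |x.2 - y.2| ≤ (L : ℤ) + 1 → InBox (2 * N) x := fun {x y} hy h1 h2 => by
    obtain ⟨a1, a2, a3, a4⟩ := hy
    rw [abs_le] at h1 h2
    constructor <;> rw [abs_le] <;> push_cast <;> constructor <;> omega
  obtain ⟨hna1, hna2⟩ := hneara a ha₀ le_rfl
  obtain ⟨hnb1, hnb2⟩ := hnearb b le_rfl hb₁
  have hA0 : InBox (2 * N) (γ (a + (0 : ℕ))) := hv0.symm ▸ hbox2 hbd₀.1 hna1 hna2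
  have hB0 : InBox (2 * N) (γ (a + ℓ)) := hvℓ.symm ▸ hbox2 hbd₁.1 hnb1 hnb2
  have hinSq : ∀ {x : V}, InBox (2 * N) x → InSq ((2 * N : ℕ) : ℤ) x := fun {x} hx => by
    obtain ⟨h1, h2⟩ := hx
    rw [abs_le] at h1 h2
    exact ⟨h1.1, h1.2, h2.1, h2.2⟩
  obtain ⟨n₀, hn₀, hn₀ℓ⟩ : ∃ n₀ : ℕ, mm = a + n₀ ∧ n₀ ≤ p.length :=
    ⟨(mm - a).toNat, by omega, by omega⟩
  have hsmall : |((p.getVert n₀).1 : ℝ)| ≤ N / 64 ∧ |((p.getVert n₀).2 : ℝ)| ≤ N / 64 := by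
    rw [hget n₀ hn₀ℓ, ← hn₀]; exact hsm
  have hnear_a := r1_of_near hna1 hna2
  have hnear_b := r1_of_near hnb1 hnb2
  have hda : 61 / 64 * (N : ℝ) ≤ r1 (toR (p.getVert n₀) - toR (γ (a + (0 : ℕ)))) := by
    rw [hget n₀ hn₀ℓ, ← hn₀, hv0]
    have := r1_sub_le (toR (γ mm)) (toR (γ a)) (toR (γ i₀))
    linarith
  have hdb : 61 / 64 * (N : ℝ) ≤ r1 (toR (γ (a + ℓ)) - toR (p.getVert n₀)) := by
    rw [hget n₀ hn₀ℓ, ← hn₀, hvℓ]
    have := r1_sub_le (toR (γ i₁)) (toR (γ b)) (toR (γ mm))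
    have hn : r1 (toR (γ i₁) - toR (γ b)) ≤ 2 * ((L : ℝ) + 1) := by
      rwa [← r1_neg, neg_sub]
    linarith
  have hNℓ : N ≤ 4 * p.length := by
    obtain ⟨q, hq, -⟩ := exists_seg t p (Nat.zero_le n₀)
    have h := r1_le_length q
    simp only [SimpleGraph.Walk.getVert_zero] at h
    have h' : (q.length : ℝ) ≤ p.length := Nat.cast_le.2 (le_trans hq (by omega))
    have h61 : 61 / 64 * (N : ℝ) ≤ q.length := hda.trans h
    have : (N : ℝ) ≤ 4 * p.length := by linarith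
    exact_mod_cast this
  -- the length
  have hlenab : (p.length : ℝ) ≤ ((C : ℝ) - 2) * N := by
    have hLN : L ≤ p.length := by omega
    have h1 := hbox.long _ _ p (hinSq hA0) hp hLN
    have h2 : plen u p ≤ plen t p := plen_mono hule p
    have h3 := hbox.dist _ _ (hinSq hA0) (hinSq hB0)
    rw [← hTeq] at hpT
    have h4 : dist1 (γ (a + (0 : ℕ))) (γ (a + ℓ)) ≤ 5 * N := by
      rw [dist1_eq, hv0, hvℓ]
      have e1 := r1_sub_le (toR (γ b)) (toR (γ i₁)) (toR (γ a))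
      have e2 := r1_sub_le (toR (γ i₁)) (toR (γ i₀)) (toR (γ a))
      have e3 : r1 (toR (γ i₀) - toR (γ a)) ≤ 2 * ((L : ℝ) + 1) := by rwa [← r1_neg, neg_sub]
      have e4 : r1 (toR (γ i₁) - toR (γ i₀)) ≤ 4 * N := by
        obtain ⟨a1, a2, a3, a4⟩ := hbd₀.1
        obtain ⟨b1, b2, b3, b4⟩ := hbd₁.1
        have : |(γ i₁).1 - (γ i₀).1| + |(γ i₁).2 - (γ i₀).2| ≤ 4 * (N : ℤ) := by
          rcases abs_cases ((γ i₁).1 - (γ i₀).1) with h | h <;>
            rcases abs_cases ((γ i₁).2 - (γ i₀).2) with h' | h' <;> omega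
        have := (Int.cast_le (R := ℝ)).2 this
        push_cast at this
        simpa [r1, toR] using this
      linarith
    have hLsq : (L : ℝ) ^ 2 ≤ N := by
      have h2 : (4 : ℝ) * (2 * (L : ℝ) + 1) ^ 2 ≤ N := by exact_mod_cast hL2
      have : (0 : ℝ) ≤ L := Nat.cast_nonneg L
      linarith [sq_nonneg (L : ℝ)]
    have h5 : Ab * (dist1 (γ (a + (0 : ℕ))) (γ (a + ℓ)) + (L : ℝ) ^ 2) ≤ Ab * (6 * N) :=
      mul_le_mul_of_nonneg_left (by linarith) hAb.le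
    have h6 := mul_le_mul_of_nonneg_right hC hN'.le
    refine le_of_mul_le_mul_left ?_ hκb
    linarith
  have hlen : p.length ≤ C * N := by
    have : (p.length : ℝ) ≤ ((C * N : ℕ) : ℝ) := by push_cast; linarith
    exact_mod_cast this
  obtain ⟨hl₁, hl₂⟩ := hlight _ _ p hA0 hp hNℓ hlen
  obtain ⟨pc, qc, σ, k, hσ, hk, hφ, hφD, hup, hframe, hFbd, hFa, hFb⟩ :=
    chord_frameG hn2 hκ hlow hu0 hule hN hpT hTeq hn₀ℓ hA0 hB0 hsmall hda hdb hε' hshape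
  have hlip := frame_lip hσ hFbd
  -- block and cuts
  have hinC : InBox (C * N) (γ (a + (0 : ℕ))) := by
    have h1 : ((2 * N : ℕ) : ℤ) ≤ ((C * N : ℕ) : ℤ) := by
      exact_mod_cast Nat.mul_le_mul_right N hC2
    exact ⟨hA0.1.trans h1, hA0.2.trans h1⟩
  have hbl := hblock _ _ p hinC hp hlen hpT (hv0.symm ▸ hoka) (hvℓ.symm ▸ hokb)
  have hslope : ∑ i ∈ Finset.range (p.length / r + 1),
      (muG m G (toR (p.getVert ((i + 1) * r)) - toR (p.getVert (i * r))) -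
        linR pc qc (toR (p.getVert ((i + 1) * r)) - toR (p.getVert (i * r)))) ≤ 3 * ε' * N := by
    have h2 : ∑ i ∈ Finset.range (p.length / r + 1),
        linR pc qc (toR (p.getVert ((i + 1) * r)) - toR (p.getVert (i * r))) =
        linR pc qc (toR (γ (a + ℓ)) - toR (γ (a + (0 : ℕ)))) := by
      simp only [linR_sub]
      rw [Finset.sum_range_sub (fun i => linR pc qc (toR (p.getVert (i * r))))]
      simp [p.getVert_of_length_le (show p.length ≤ (p.length / r + 1) * r from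
        (Nat.lt_mul_div_succ p.length hr).le.trans (Nat.mul_comm _ _).le)]
    rw [Finset.sum_sub_distrib, h2, hφD]
    simp only [stepSumG] at hbl
    refine (sub_le_sub_right (hbl.trans (add_le_add hup le_rfl)) _).trans ?_
    linarith [mul_nonneg hε'0 hN'.le]
  have hcuts : ∀ S : Finset ℕ, (∀ j ∈ S, j < p.length / r) →
      ∑ j ∈ S, pieceWt t r p j ≤ 25 * m * ∑ j ∈ S, pieceLen r p j + η * N := by
    intro S hS
    refine pieces_cut hcut hsegab hoka hokb ?_ hℓ' hget hlen hS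
    obtain ⟨h1, h2⟩ := hv0 ▸ hinC
    rw [abs_le] at h1 h2
    exact ⟨h1.1, h1.2, h2.1, h2.2⟩
  obtain ⟨bad, hbadc, hgood⟩ := bad_cuts hκ hm.le h0 hr₁ hθ hθr₁ hcuts hl₁ hφ
    (E := 3 * ε' * N) hslope hframe
  obtain ⟨W, hWc, hlev⟩ := levels_ok (t := t) (r₁ := r₁) hk hr hθ
    (fun j hj hjb => ⟨(hgood j hj hjb).1, (hgood j hj hjb).2.1⟩)
  obtain ⟨cand, hcc, hidx⟩ := indices_ok h0 hm.le hk hr hr₂ hθ hl₂ hcuts hgood W
  have hbX : (bad.card : ℝ) * r ≤ X := by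
    refine hbadc.trans (le_trans (le_of_eq ?_) hX)
    ring
  have hWX : (W.card : ℝ) ≤ 5 * X + L₁ := by
    have h3 : (bad.card : ℝ) * 1 ≤ (bad.card : ℝ) * r :=
      mul_le_mul_of_nonneg_left (by exact_mod_cast hr) (Nat.cast_nonneg _)
    linarith
  have hlev' : ∀ i, lev k ((σ.vmap ∘ γ) i) = frameVal σ k (γ i) := fun i => rfl
  have hend₀ : ∀ i, i₀ ≤ i → i ≤ a → (frameVal σ k (γ i) : ℝ) ≤ -(9 / 64) * N := by
    intro i hi hi'
    obtain ⟨h1, h2⟩ := hneara i hi hi'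
    have e1 := abs_le.1 ((hlip (γ i) (γ i₀)).trans (r1_of_near h1 h2))
    have e2 := abs_le.1 ((hlip (γ a) (γ i₀)).trans hnear_a)
    rw [hv0] at hFa
    linarith
  have hend₁ : ∀ i, b ≤ i → i ≤ i₁ → 9 / 64 * (N : ℝ) ≤ (frameVal σ k (γ i) : ℝ) := by
    intro i hi hi'
    obtain ⟨h1, h2⟩ := hnearb i hi hi'
    have e1 := abs_le.1 ((hlip (γ i) (γ i₁)).trans (r1_of_near h1 h2))
    have e2 := abs_le.1 ((hlip (γ b) (γ i₁)).trans hnear_b)
    rw [hvℓ] at hFb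
    linarith
  have hlevel : ∀ c : ℤ, |(c : ℝ)| ≤ N / 16 → c ∉ W → ∃ i j : ℕ, i ≤ j ∧ j ≤ p.length ∧
      (∀ n < i, pathVal σ k p n < c) ∧
      (∀ n, j < n → n ≤ p.length → c < pathVal σ k p n) ∧
      j - i + r ≤ R ∧ Cross k (σ.vmap ∘ γ) i₀ i₁ c R (a + i) (a + j) ∧
      r₁ ≤ wt t (γ (a + i - 1)) (γ (a + i)) := by
    intro c hc hcW
    obtain ⟨c1, c2⟩ := abs_le.1 hc
    have hc0 : pathVal σ k p 0 < c := by
      have e : pathVal σ k p 0 = frameVal σ k (γ (a + (0 : ℕ))) := by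
        simp only [pathVal]; rw [p.getVert_zero]
      have : (pathVal σ k p 0 : ℝ) < c := by
        rw [e]; exact lt_of_le_of_lt hFa (by linarith)
      exact_mod_cast this
    have hcl : c < pathVal σ k p p.length := by
      have e : pathVal σ k p p.length = frameVal σ k (γ (a + ℓ)) := by
        simp only [pathVal]; rw [p.getVert_length]
      have : (c : ℝ) < pathVal σ k p p.length := by
        rw [e]; exact lt_of_lt_of_le (by linarith) hFb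
      exact_mod_cast this
    obtain ⟨i, j, hi0, hij, hjℓ, hgi, hgj, hbef, haft, hshort, hheavy⟩ := hlev c hc0 hcl hcW
    have hjR : j - i + r ≤ R := by
      have : ((j - i + r : ℕ) : ℝ) ≤ (R : ℝ) := by push_cast; linarith
      exact_mod_cast this
    obtain ⟨hcr, hh⟩ := cross_of_walk hℓ' hget hi0 hij hjℓ hgi hgj hbef haft (show j - i ≤ R by omega)
      hheavy
    refine ⟨i, j, hij, hjℓ.le, hbef, haft, hjR,
      Cross.extend hcr ha₀ hb₁ (fun n h1 h2 => ?_) (fun n h1 h2 => ?_), hh⟩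
    · have := hend₀ n h1 h2
      have h3 : (lev k ((σ.vmap ∘ γ) n) : ℝ) < c := by rw [hlev']; linarith
      exact_mod_cast h3
    · have := hend₁ n h1 h2
      have h3 : (c : ℝ) < (lev k ((σ.vmap ∘ γ) n) : ℝ) := by rw [hlev']; linarith
      exact_mod_cast h3
  refine ⟨?_, σ, hσ, k, hk, ?_, ?_, ?_, ?_⟩
  · have h1 : ((i₁ - i₀ : ℤ) : ℝ) ≤
        (((p.length : ℤ) + 2 * (2 * (L : ℤ) + 1) ^ 2 : ℤ) : ℝ) :=
      Int.cast_le.2 (by omega)
    push_cast at h1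
    have h2 : (4 : ℝ) * (2 * (L : ℝ) + 1) ^ 2 ≤ N := by exact_mod_cast hL2
    push_cast
    linarith
  · have := hend₀ i₀ le_rfl ha₀
    simp only [frameVal] at this
    linarith
  · have := hend₁ i₁ hb₁ le_rfl
    simp only [frameVal] at this
    linarith
  · refine le_trans ?_ (hWX.trans hA)
    rw [Nat.cast_le, ← Set.ncard_coe_finset]
    refine Set.ncard_le_ncard ?_ W.finite_toSet
    rintro c ⟨hc, hno⟩
    by_contra hcW
    obtain ⟨i, j, -, -, -, -, -, hcr, hheavy⟩ := hlevel c (by linarith) hcW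
    exact hno ⟨_, _, hcr, hheavy⟩
  · have hcard : (cand.card : ℝ) ≤ ε * N := by
      have h4 : (100 * m * ((W.card : ℝ) + r * bad.card) + η * N) / r₂ ≤
          (100 * m * (6 * X + L₁) + η * N) / r₂ :=
        div_le_div_of_nonneg_right (add_le_add (mul_le_mul_of_nonneg_left (by linarith)
          (by positivity)) le_rfl) hr₂.le
      linarith [sq_nonneg (2 * (L : ℝ) + 1)]
    refine le_trans ?_ hcard
    refine le_trans ?_ (Nat.cast_le.2 (Finset.card_image_le (f := fun n : ℕ => a + (n : ℤ))))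
    rw [Nat.cast_le, ← Set.ncard_coe_finset]
    refine Set.ncard_le_ncard ?_ (Finset.finite_toSet _)
    rintro i ⟨hi0, hi1, hilev, hno⟩
    have hlevi : |(frameVal σ k (γ i) : ℝ)| ≤ N / 32 := by
      refine le_of_le_of_eq ?_ (show (1 / 8 : ℝ) * N / 4 = N / 32 by ring)
      simpa [frameVal] using hilev
    have hia : a < i := by
      by_contra h
      have := hend₀ i hi0 (not_lt.1 h)
      have := (abs_le.1 hlevi).1
      linarith
    have hib : i < b := by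
      by_contra h
      have := hend₁ i (not_lt.1 h) hi1
      have := (abs_le.1 hlevi).2
      linarith
    obtain ⟨n, hn, rfl⟩ : ∃ n : ℕ, n ≤ p.length ∧ i = a + n :=
      ⟨(i - a).toNat, by omega, by omega⟩
    by_contra hnc
    obtain ⟨c, m', hcW, hm', hmc, hmn, hcn⟩ :=
      hidx n hn fun h => hnc (Finset.mem_coe.2 (Finset.mem_image.2 ⟨n, h, rfl⟩))
    have hcN : |(c : ℝ)| ≤ N / 16 := by
      have h1 : |((c - pathVal σ k p n : ℤ) : ℝ)| ≤ ((r : ℤ) : ℝ) := by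
        rw [← Int.cast_abs]; exact Int.cast_le.2 hcn
      push_cast at h1
      have h2 : |(pathVal σ k p n : ℝ)| ≤ N / 32 := by
        simpa [pathVal, hget n hn] using hlevi
      have h3 : (32 : ℝ) * r ≤ N := by exact_mod_cast hrN
      have := abs_add_le ((c : ℝ) - pathVal σ k p n) (pathVal σ k p n)
      rw [sub_add_cancel] at this
      linarith
    obtain ⟨i', j', hij, hjl, hbef, haft, hjR, hcr, hheavy⟩ := hlevel c hcN hcW
    refine hno ⟨c, _, _, hcr, hheavy, ?_⟩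
    have hmi : i' ≤ m' := by
      by_contra h
      exact (hbef m' (not_le.1 h)).ne hmc
    have hmj : m' ≤ j' := by
      by_contra h
      exact (haft m' (not_le.1 h) hm').ne hmc.symm
    rw [abs_le] at hmn ⊢
    constructor <;> omega

end Vale.Agent.P158.Gen
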