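import Vale.Agent.P158.Gen.Spec
import Vale.Agent.P158.ChordFrame

/-!
The frames of the supporting functionals of the time constant, for all atomless laws.
-/

open MeasureTheory Filter Topology
open scoped ENNReal

namespace Vale.Agent.P158.Gen

open Vale.Agent.P158

/-- The properties of a norm used to choose a frame. -/
structure Norm2 (μ : ℝ × ℝ → ℝ) : Prop where
  smul : ∀ (r : ℝ) v, 0 ≤ r → μ (r • v) = r * μ v
  add_le : ∀ v w, μ (v + w) ≤ μ v + μ w
  neg : ∀ v, μ (-v) = μ v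
  flip : ∀ v : ℝ × ℝ, μ (v.1, -v.2) = μ v
  swap : ∀ v : ℝ × ℝ, μ (v.2, v.1) = μ v
  nonneg : ∀ v, 0 ≤ μ v

lemma Norm2.smul_abs {μ : ℝ × ℝ → ℝ} (h : Norm2 μ) (c : ℝ) (v : ℝ × ℝ) :
    μ (c • v) = |c| * μ v := by
  rcases le_total 0 c with hc | hc
  · rw [abs_of_nonneg hc, h.smul c v hc]
  · rw [abs_of_nonpos hc, ← h.smul (-c) v (neg_nonneg.2 hc), neg_smul, h.neg]

lemma Norm2.zero {μ : ℝ × ℝ → ℝ} (h : Norm2 μ) : μ 0 = 0 := by
  simpa using h.smul 0 0 le_rfl

/-- The time constant is invariant under the symmetries of the square. -/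
theorem norm2_muG {m : ℝ} {G : Measure ℝ} (hG : LawGen G) {κ A : ℝ} (hS : ShapeG m G κ A) :
    Norm2 (muG m G) := by
  have := hG.prob
  have hprob : IsProbabilityMeasure (law G) := by unfold law; infer_instance
  have key : ∀ p : ℝ × ℝ, muG m G (p.1, -p.2) ≤ muG m G p := by
    intro p
    by_contra hcon
    rw [not_le] at hcon
    obtain ⟨ε, hε0, hε⟩ : ∃ ε : ℝ, 0 < ε ∧
        muG m G p + ε < muG m G (p.1, -p.2) - ε :=
      ⟨(muG m G (p.1, -p.2) - muG m G p) / 3, by linarith, by linarith⟩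
    set x : ℕ → V := fun n => (⌊p.1 * n⌋, ⌊p.2 * n⌋) with hx
    set y : ℕ → V := fun n => flipSym.vmap (x n) with hy
    have hxs : Straight.Scaled x p := by
      have h := Straight.scaled_pt 0 (c := fun n => ⌊p.1 * n⌋) (s := fun n => ⌊p.2 * n⌋)
        (Straight.tendsto_floor_div p.1) (Straight.tendsto_floor_div p.2)
      simpa [Straight.frame, pt] using h
    have hys : Straight.Scaled y (p.1, -p.2) := by
      have hc : Continuous fun q : ℝ × ℝ => ((q.1, -q.2) : ℝ × ℝ) := by fun_prop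
      have h := (hc.tendsto p).comp hxs
      refine h.congr fun n => ?_
      simp [hy, toR, Prod.smul_def]
    have h0 : Straight.Scaled (fun _ : ℕ => (0 : V)) 0 := by
      simp [Straight.Scaled, toR]
    have hup := hS.shape.upper _ _ _ _ h0 hxs ε hε0
    have hlo := hS.shape.lower _ _ _ _ h0 hys ε hε0
    simp only [sub_zero] at hup hlo
    have hsum := hup.add hlo
    rw [add_zero] at hsum
    have hone : ∀ n : ℕ, (1 : ℝ) ≤
        (law G {t | (n : ℝ) * (muG m G p + ε) < T t 0 (x n)}).toReal +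
          (law G {t | T t 0 (y n) < n * (muG m G (p.1, -p.2) - ε)}).toReal + 0 ^ n := by
      intro n
      rcases Nat.eq_zero_or_pos n with rfl | hn
      · simp only [pow_zero]
        exact le_add_of_nonneg_left (add_nonneg ENNReal.toReal_nonneg ENNReal.toReal_nonneg)
      rw [← flipSym.law_act_preimage {t | T t 0 (y n) < n * (muG m G (p.1, -p.2) - ε)},
        zero_pow hn.ne', add_zero]
      have e : ∀ t : Conf, T (flipSym.act t) 0 (y n) = T t 0 (x n) := by
        intro t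
        rw [flipSym.T_act]
        simp [hy]
        rfl
      have hn' : (0 : ℝ) < n := by exact_mod_cast hn
      have hcov : (Set.univ : Set Conf) ⊆ {t | (n : ℝ) * (muG m G p + ε) < T t 0 (x n)} ∪
          flipSym.act ⁻¹' {t | T t 0 (y n) < n * (muG m G (p.1, -p.2) - ε)} := by
        intro t _
        rcases lt_or_ge ((n : ℝ) * (muG m G p + ε)) (T t 0 (x n)) with h | h
        · exact Or.inl h
        · refine Or.inr ?_
          simp only [Set.mem_preimage, Set.mem_ofPred_eq, e]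
          exact lt_of_le_of_lt h (mul_lt_mul_of_pos_left hε hn')
      rw [← ENNReal.toReal_add (measure_ne_top _ _) (measure_ne_top _ _), ← ENNReal.toReal_one]
      refine ENNReal.toReal_mono (ENNReal.add_ne_top.2 ⟨measure_ne_top _ _, measure_ne_top _ _⟩) ?_
      rw [← measure_univ (μ := law G)]
      exact (measure_mono hcov).trans (measure_union_le _ _)
    have hlim := hsum.add (tendsto_pow_atTop_nhds_zero_of_lt_one le_rfl zero_lt_one (r := (0 : ℝ)))
    rw [add_zero] at hlim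
    linarith [ge_of_tendsto' hlim hone]
  have hflip : ∀ p : ℝ × ℝ, muG m G (p.1, -p.2) = muG m G p := fun p =>
    le_antisymm (key p) (by simpa using key (p.1, -p.2))
  refine ⟨hS.shape.smul, hS.shape.add_le, hS.shape.neg, hflip, fun v => ?_, fun v => ?_⟩
  · have := hS.shape.rot v.1 (-v.2)
    rw [neg_neg] at this
    rw [this]
    exact hflip v
  · exact le_trans (mul_nonneg hS.κ_pos.le (r1_nonneg v)) (hS.lowerR v)

variable {μ : ℝ × ℝ → ℝ} {κ : ℝ}

/-- The norm has a supporting functional at every nonzero vector. -/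
lemma exists_support (hN : Norm2 μ) {D : ℝ × ℝ} (hD : D ≠ 0) :
    ∃ p q : ℝ, (∀ v, linR p q v ≤ μ v) ∧ linR p q D = μ D := by
  set f : (ℝ × ℝ) →ₗ.[ℝ] ℝ := LinearPMap.mkSpanSingleton D (μ D) hD with hf
  have hmem : D ∈ f.domain := Submodule.mem_span_singleton_self D
  have hfD : f ⟨D, hmem⟩ = μ D := LinearPMap.mkSpanSingleton_apply ℝ ℝ hD (μ D)
  obtain ⟨g, hg1, hg2⟩ := exists_extension_of_le_sublinear f (μ)
    (fun c hc x => hN.smul c x hc.le) hN.add_le (by
      rintro ⟨x, hx⟩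
      have hx' : x ∈ Submodule.span ℝ {D} := hx
      obtain ⟨c, rfl⟩ := Submodule.mem_span_singleton.1 hx'
      have e : f ⟨c • D, hx⟩ = c * μ D := by
        rw [show (⟨c • D, hx⟩ : f.domain) = c • ⟨D, hmem⟩ from rfl, LinearPMap.map_smul, hfD,
          smul_eq_mul]
      rw [e, hN.smul_abs]
      exact mul_le_mul_of_nonneg_right (le_abs_self c) (hN.nonneg D))
  have hlin : ∀ v : ℝ × ℝ, g v = linR (g (1, 0)) (g (0, 1)) v := fun v => by
    have e : v = v.1 • ((1 : ℝ), (0 : ℝ)) + v.2 • ((0 : ℝ), (1 : ℝ)) := by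
      refine Prod.ext ?_ ?_ <;> simp
    conv_lhs => rw [e]
    rw [map_add, map_smul, map_smul, linR, smul_eq_mul, smul_eq_mul]
    ring
  refine ⟨g (1, 0), g (0, 1), fun v => hlin v ▸ hg2 v, ?_⟩
  rw [← hlin]
  rw [hg1 ⟨D, hmem⟩, hfD]

/-- The four sign and exchange symmetries bound the components of a nearly extremal vector. -/
lemma near_contact_bounds (hN : Norm2 μ) {p q η : ℝ} (hφ : ∀ v, linR p q v ≤ μ v)
    {v : ℝ × ℝ} (hv : μ v - linR p q v ≤ η) :
    -η ≤ p * v.1 ∧ -η ≤ q * v.2 ∧ -η ≤ (p - q) * (v.1 - v.2) ∧ -η ≤ (p + q) * (v.1 + v.2) := by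
  have h1 : μ (-v.1, v.2) = μ v := by
    rw [← hN.neg, show -((-v.1, v.2) : ℝ × ℝ) = (v.1, -v.2) by simp]
    exact hN.flip v
  have h2 : μ (v.1, -v.2) = μ v := hN.flip v
  have h3 : μ (v.2, v.1) = μ v := hN.swap v
  have h4 : μ (-v.2, -v.1) = μ v := by
    rw [show ((-v.2, -v.1) : ℝ × ℝ) = -(v.2, v.1) by simp, hN.neg, h3]
  have a1 := hφ (-v.1, v.2)
  have a2 := hφ (v.1, -v.2)
  have a3 := hφ (v.2, v.1)
  have a4 := hφ (-v.2, -v.1)
  rw [h1] at a1
  rw [h2] at a2
  rw [h3] at a3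
  rw [h4] at a4
  have := hφ v
  simp only [linR] at *
  refine ⟨by linarith, by linarith, by linarith, by linarith⟩

/-- The frame of a functional: `sx * x + sy * y` with signs, or one signed coordinate. -/
lemma exists_axis (hN : Norm2 μ) (hκ : 0 < κ) {p q : ℝ} (hφ : ∀ v, linR p q v ≤ μ v)
    (hbig : κ ≤ max |p| |q|) : ∃ α β : ℝ,
      ((α, β) ∈ ([(1, 0), (-1, 0), (0, 1), (0, -1), (1, 1), (1, -1), (-1, 1), (-1, -1)] :
        List (ℝ × ℝ))) ∧
      ∀ v : ℝ × ℝ, μ v - linR p q v ≤ κ / 64 * r1 v → r1 v / 4 ≤ α * v.1 + β * v.2 := by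
  have key : ∀ v : ℝ × ℝ, μ v - linR p q v ≤ κ / 64 * r1 v → 0 ≤ κ / 64 * r1 v ∧
      -(κ / 64 * r1 v) ≤ p * v.1 ∧ -(κ / 64 * r1 v) ≤ q * v.2 ∧
      -(κ / 64 * r1 v) ≤ (p - q) * (v.1 - v.2) ∧ -(κ / 64 * r1 v) ≤ (p + q) * (v.1 + v.2) :=
    fun v hv => ⟨mul_nonneg (by linarith) (r1_nonneg v), near_contact_bounds hN hφ hv⟩
  set sp : ℝ := if 0 ≤ p then 1 else -1 with hsp
  set sq : ℝ := if 0 ≤ q then 1 else -1 with hsq
  have hp : sp = 1 ∨ sp = -1 := by rw [hsp]; split_ifs <;> simp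
  have hq : sq = 1 ∨ sq = -1 := by rw [hsq]; split_ifs <;> simp
  have ep : p = |p| * sp := by
    rw [hsp]; split_ifs with h
    · rw [abs_of_nonneg h, mul_one]
    · rw [abs_of_neg (not_le.1 h)]; ring
  have eq' : q = |q| * sq := by
    rw [hsq]; split_ifs with h
    · rw [abs_of_nonneg h, mul_one]
    · rw [abs_of_neg (not_le.1 h)]; ring
  by_cases hboth : κ / 4 ≤ |p| ∧ κ / 4 ≤ |q|
  · refine ⟨sp, sq, ?_, fun v hv => ?_⟩
    · rcases hp with h | h <;> rcases hq with h' | h' <;> simp [h, h']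
    · obtain ⟨h0, h1, h2, -, -⟩ := key v hv
      rw [ep, mul_assoc] at h1
      rw [eq', mul_assoc] at h2
      have b1 := abs_le_signed (by linarith) hboth.1 hp h0 h1
      have b2 := abs_le_signed (by linarith) hboth.2 hq h0 h2
      rw [show 2 * (κ / 64 * r1 v) / (κ / 4) = r1 v / 8 by field_simp; ring] at b1 b2
      have : r1 v = |v.1| + |v.2| := rfl
      have := r1_nonneg v
      linarith
  · -- one coordinate of the functional dominates
    have aux : ∀ (P Q s x y R : ℝ), κ ≤ |P| → |Q| < κ / 4 → P = |P| * s → (s = 1 ∨ s = -1) →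
        R = |x| + |y| → -(κ / 64 * R) ≤ P * x → -(κ / 64 * R) ≤ (P - Q) * (x - y) →
        -(κ / 64 * R) ≤ (P + Q) * (x + y) → R / 4 ≤ s * x := by
      intro P Q s x y R hP hQ hPs hs hR h1 h3 h4
      have hR0 : 0 ≤ R := hR ▸ add_nonneg (abs_nonneg x) (abs_nonneg y)
      have h0 : 0 ≤ κ / 64 * R := by positivity
      rw [hPs, mul_assoc] at h1
      have b1 := abs_le_signed hκ hP hs h0 h1
      have hQ' := abs_lt.1 hQ
      have e3 : -(κ / 64 * R) ≤ (|P| - Q * s) * (s * (x - y)) := by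
        rcases hs with rfl | rfl <;> rw [hPs] at h3 <;> linarith
      have e4 : -(κ / 64 * R) ≤ (|P| + Q * s) * (s * (x + y)) := by
        rcases hs with rfl | rfl <;> rw [hPs] at h4 <;> linarith
      have d1 : κ / 2 ≤ |P| - Q * s := by rcases hs with rfl | rfl <;> linarith
      have d2 : κ / 2 ≤ |P| + Q * s := by rcases hs with rfl | rfl <;> linarith
      have b3 := abs_le_signed (show 0 < κ / 2 by linarith) d1 hs h0 e3
      have b4 := abs_le_signed (show 0 < κ / 2 by linarith) d2 hs h0 e4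
      rw [show 2 * (κ / 64 * R) / (κ / 2) = R / 16 by field_simp; ring] at b3 b4
      rw [show 2 * (κ / 64 * R) / κ = R / 32 by field_simp; ring] at b1
      have := abs_le.1 (le_refl |x|)
      rcases le_total 0 y with hy | hy
      · rw [abs_of_nonneg hy] at hR
        rcases hs with rfl | rfl <;> linarith [le_abs_self (x - y), neg_abs_le (x - y),
          le_abs_self (x + y), neg_abs_le (x + y)]
      · rw [abs_of_nonpos hy] at hR
        rcases hs with rfl | rfl <;> linarith [le_abs_self (x - y), neg_abs_le (x - y),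
          le_abs_self (x + y), neg_abs_le (x + y)]
    rcases lt_or_ge |q| (κ / 4) with hq4 | hq4
    · refine ⟨sp, 0, by rcases hp with h | h <;> simp [h], fun v hv => ?_⟩
      obtain ⟨-, h1, -, h3, h4⟩ := key v hv
      have hP : κ ≤ |p| := by
        rcases le_max_iff.1 hbig with h | h
        · exact h
        · linarith
      rw [zero_mul, add_zero]
      exact aux p q sp v.1 v.2 (r1 v) hP hq4 ep hp rfl h1 h3 h4
    · have hp4 : |p| < κ / 4 := not_le.1 fun h => hboth ⟨h, hq4⟩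
      refine ⟨0, sq, by rcases hq with h | h <;> simp [h], fun v hv => ?_⟩
      obtain ⟨-, -, h2, h3, h4⟩ := key v hv
      have hP : κ ≤ |q| := by
        rcases le_max_iff.1 hbig with h | h
        · linarith
        · exact h
      rw [zero_mul, zero_add]
      exact aux q p sq v.2 v.1 (r1 v) hP hp4 eq' hq (add_comm _ _) h2 (by linarith) (by linarith)

/-- A functional supporting the norm has a frame that grows at rate at least `1/4` along every
vector on which it nearly realises the norm, and at rate at least `-1` along every vector. -/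
theorem exists_frame (hN : Norm2 μ) (hκ : 0 < κ) (hlow : ∀ v, κ * r1 v ≤ μ v) {p q : ℝ}
    (hφ : ∀ v, linR p q v ≤ μ v) {D : ℝ × ℝ} (hD : D ≠ 0) (hDeq : linR p q D = μ D) :
    ∃ σ ∈ frameSyms, ∃ k : ℤ, (k = 0 ∨ k = 1) ∧
      (∀ u w : V, μ (toR w - toR u) - linR p q (toR w - toR u) ≤
          κ / 64 * r1 (toR w - toR u) →
        r1 (toR w - toR u) / 4 ≤ (frameVal σ k w : ℝ) - frameVal σ k u) ∧
      ∀ v : V, |(frameVal σ k v : ℝ)| ≤ r1 (toR v) := by
  have hr : 0 < r1 D := by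
    rcases eq_or_lt_of_le (r1_nonneg D) with h | h
    · have hh : |D.1| + |D.2| = 0 := h.symm
      exact absurd (Prod.ext (abs_eq_zero.1 (by linarith [abs_nonneg D.1, abs_nonneg D.2]))
        (abs_eq_zero.1 (by linarith [abs_nonneg D.1, abs_nonneg D.2]))) hD
    · exact h
  have hbig : κ ≤ max |p| |q| := by
    have h1 : linR p q D ≤ max |p| |q| * r1 D := by
      simp only [linR, r1, mul_add]
      refine add_le_add ?_ ?_
      · exact (le_abs_self _).trans ((abs_mul _ _).trans_le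
          (mul_le_mul_of_nonneg_right (le_max_left _ _) (abs_nonneg _)))
      · exact (le_abs_self _).trans ((abs_mul _ _).trans_le
          (mul_le_mul_of_nonneg_right (le_max_right _ _) (abs_nonneg _)))
    have h2 := hlow D
    exact le_of_mul_le_mul_right (by linarith) hr
  obtain ⟨α, β, hmem, hα⟩ := exists_axis hN hκ hφ hbig
  obtain ⟨σ, hσ, k, hk, he⟩ := exists_frame_of_axis hmem
  refine ⟨σ, hσ, k, hk, fun u w h => ?_, fun v => ?_⟩
  · rw [he, he]
    have := hα _ h
    simp only [toR, Prod.fst_sub, Prod.snd_sub] at this ⊢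
    linarith
  · have hb : |α| ≤ 1 ∧ |β| ≤ 1 := by
      simp only [List.mem_cons, List.not_mem_nil, or_false, Prod.mk.injEq] at hmem
      rcases hmem with ⟨rfl, rfl⟩ | ⟨rfl, rfl⟩ | ⟨rfl, rfl⟩ | ⟨rfl, rfl⟩ | ⟨rfl, rfl⟩ |
        ⟨rfl, rfl⟩ | ⟨rfl, rfl⟩ | ⟨rfl, rfl⟩ <;> norm_num
    rw [he, r1, toR]
    refine (abs_add_le _ _).trans (add_le_add ?_ ?_) <;> rw [abs_mul]
    · exact mul_le_of_le_one_left (abs_nonneg _) hb.1
    · exact mul_le_of_le_one_left (abs_nonneg _) hb.2

end Vale.Agent.P158.Gen
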