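import Vale.Agent.P158.Gen.ClusterTail

/-!
The law of clusters: they are finite, enclose finitely, stay near their start, and the cap of the
shield has a uniformly bounded mean.
-/

open MeasureTheory Filter Topology
open scoped ENNReal

namespace Vale.Agent.P158.Gen

open Vale.Agent.P158

variable {G : Measure ℝ} {m : ℝ}

lemma sqAdj_near {e f : Edge} (h : SqAdj e f) :
    |e.1.1 - f.1.1| ≤ 1 ∧ |e.1.2 - f.1.2| ≤ 1 := by
  obtain ⟨⟨c, d⟩, he, hf⟩ := h
  obtain ⟨⟨a, b⟩, v⟩ := e
  obtain ⟨⟨a', b'⟩, v'⟩ := f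
  simp only [sq, Finset.mem_insert, Finset.mem_singleton, Prod.mk.injEq] at he hf
  rw [abs_le, abs_le]
  constructor <;> simp only <;> omega

/-- A cluster meets every level between two of its levels. -/
lemma cl_span {t : Conf} {π : Edge → ℤ} (hπ : ∀ a b, SqAdj a b → |π a - π b| ≤ 1) {e f : Edge}
    (hf : f ∈ cl m t e) : (((π f - π e).natAbs + 1 : ℕ) : ℕ∞) ≤ (cl m t e).encard := by
  have hlev : ∀ k, min (π e) (π f) ≤ k → k ≤ max (π e) (π f) → ∃ b ∈ cl m t e, π b = k := by
    obtain ⟨he, hr⟩ := hf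
    induction hr with
    | refl =>
      intro k h1 h2
      exact ⟨e, ⟨he, Relation.ReflTransGen.refl⟩, by simp at h1 h2; omega⟩
    | @tail x y hex hxy ih =>
      intro k h1 h2
      by_cases hk : min (π e) (π x) ≤ k ∧ k ≤ max (π e) (π x)
      · exact ih k hk.1 hk.2
      · refine ⟨y, ⟨he, hex.tail hxy⟩, ?_⟩
        have := abs_le.1 (hπ x y hxy.1)
        omega
  choose b hb1 hb2 using hlev
  set I := Finset.Icc (min (π e) (π f)) (max (π e) (π f)) with hI
  let g : I → Edge := fun k => b k.1 (Finset.mem_Icc.1 k.2).1 (Finset.mem_Icc.1 k.2).2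
  have hinj : Function.Injective g := fun k l hkl => Subtype.ext <| by
    have := congrArg π hkl
    simpa [g, hb2] using this
  have hcard : I.card = (π f - π e).natAbs + 1 := by
    rw [hI, Int.card_Icc]
    omega
  calc (((π f - π e).natAbs + 1 : ℕ) : ℕ∞) = (Set.range g).encard := by
        rw [← Set.image_univ, hinj.injOn.encard_image, Set.encard_univ, ENat.card_eq_coe_fintype_card,
          Fintype.card_coe, hcard]
    _ ≤ _ := Set.encard_le_encard (Set.range_subset_iff.2 fun k => hb1 _ _ _)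

lemma mem_cl_iff_witness {t : Conf} {e f : Edge} : f ∈ cl m t e ↔
    ∃ A : Finset Edge, (f ∈ A ∧ Reach {e} A) ∧ ∀ a ∈ A, m < t a := by
  refine ⟨fun h => ?_, ?_⟩
  · obtain ⟨A, h1, h2, h3⟩ := cl_finite_witness h
    exact ⟨A, ⟨h1, h3⟩, h2⟩
  · rintro ⟨A, ⟨hf, hA⟩, hbad⟩
    obtain ⟨u, hu, huA, huf⟩ := hA f hf
    rw [Finset.mem_singleton] at hu
    subst hu
    exact ⟨hbad _ huA, Relation.ReflTransGen.mono (fun p q hpq => ⟨hpq.1, hbad _ hpq.2⟩) _ _ huf⟩

lemma measurableSet_mem_cl (m : ℝ) (e f : Edge) : MeasurableSet {t : Conf | f ∈ cl m t e} := by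
  have : {t : Conf | f ∈ cl m t e} = ⋃ A : Finset Edge, ⋃ (_ : f ∈ A ∧ Reach {e} A),
      ⋂ a ∈ A, (fun t : Conf => t a) ⁻¹' Set.Ioi m := by
    ext t
    simp only [Set.mem_ofPred_eq, mem_cl_iff_witness, Set.mem_iUnion, Set.mem_iInter,
      Set.mem_preimage, Set.mem_Ioi, exists_prop]
  rw [this]
  exact MeasurableSet.iUnion fun A => MeasurableSet.iUnion fun _ =>
    Finset.measurableSet_biInter A fun a _ => measurable_pi_apply a measurableSet_Ioi

lemma measurableSet_le_encard (m : ℝ) (e : Edge) (S : ℕ) :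
    MeasurableSet {t : Conf | (S : ℕ∞) ≤ (cl m t e).encard} := by
  have : {t : Conf | (S : ℕ∞) ≤ (cl m t e).encard} =
      ⋃ F : Finset Edge, ⋃ (_ : F.card = S), ⋂ f ∈ F, {t | f ∈ cl m t e} := by
    ext t
    simp only [Set.mem_ofPred_eq, Set.mem_iUnion, Set.mem_iInter, exists_prop]
    constructor
    · intro h
      obtain ⟨P, hP, hPS⟩ := Set.exists_subset_encard_eq h
      have hfin := Set.finite_of_encard_eq_coe hPS
      refine ⟨hfin.toFinset, ?_, fun f hf => hP (hfin.mem_toFinset.1 hf)⟩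
      have := hfin.encard_eq_coe_toFinset_card.symm.trans hPS
      exact_mod_cast this
    · rintro ⟨F, rfl, hF⟩
      rw [← Set.encard_coe_eq_coe_finsetCard]
      exact Set.encard_le_encard fun f hf => hF f hf
  rw [this]
  exact MeasurableSet.iUnion fun F => MeasurableSet.iUnion fun _ =>
    Finset.measurableSet_biInter F fun f _ => measurableSet_mem_cl m e f

lemma measurableSet_cl_finite (m : ℝ) (e : Edge) :
    MeasurableSet {t : Conf | (cl m t e).Finite} := by
  have : {t : Conf | (cl m t e).Finite} = (⋂ S : ℕ, {t | (S : ℕ∞) ≤ (cl m t e).encard})ᶜ := by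
    ext t
    simp only [Set.mem_compl_iff, Set.mem_iInter, Set.mem_ofPred_eq, ← Set.encard_ne_top_iff,
      ne_eq, ENat.eq_top_iff_forall_ge]
  rw [this]
  exact (MeasurableSet.iInter fun S => measurableSet_le_encard m e S).compl

/-- The size of a cluster as a series of indicators. -/
noncomputable def clSize (m : ℝ) (e : Edge) (t : Conf) : ℝ≥0∞ :=
  ∑' n : ℕ, {t : Conf | ((n + 1 : ℕ) : ℕ∞) ≤ (cl m t e).encard}.indicator 1 t

lemma measurable_clSize (m : ℝ) (e : Edge) : Measurable (clSize m e) :=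
  Measurable.tsum fun _ => measurable_one.indicator (measurableSet_le_encard m e _)

lemma clSize_eq {t : Conf} {e : Edge} (h : (cl m t e).Finite) :
    clSize m e t = ((cl m t e).ncard : ℝ≥0∞) := by
  rw [clSize, tsum_eq_sum (s := Finset.range (cl m t e).ncard)]
  · rw [Finset.sum_congr rfl fun n hn => Set.indicator_of_mem ?_ _]
    · simp
    · have := Finset.mem_range.1 hn
      simp only [Set.mem_ofPred_eq, ← h.cast_ncard_eq, Nat.cast_le]
      omega
  · intro n hn
    refine Set.indicator_of_notMem ?_ _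
    rw [Finset.mem_range] at hn
    simp only [Set.mem_ofPred_eq, ← h.cast_ncard_eq, Nat.cast_le]
    omega

theorem measurable_capY (m : ℝ) (e : Edge) : Measurable fun t => capY m t e := by
  classical
  have : (fun t => capY m t e) = {t | (cl m t e).Finite}.piecewise
      (fun t => 10 * m * ((clSize m e t).toReal + 1)) (fun t => t e) := by
    funext t
    by_cases h : (cl m t e).Finite
    · simp [capY, Set.piecewise, h, clSize_eq h]
    · simp [capY, Set.piecewise, h]
  rw [this]
  exact Measurable.piecewise (measurableSet_cl_finite m e)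
    (((measurable_clSize m e).ennreal_toReal.add_const 1).const_mul _) (measurable_pi_apply e)

lemma cl_tail_half (hG : LawGen G) (hm : SmallTail m G) (e : Edge) (S : ℕ) :
    law G {t | ((S + 1 : ℕ) : ℕ∞) ≤ (cl m t e).encard} ≤
      ENNReal.ofReal ((1 / 2) ^ (S + 1)) := by
  refine (cl_tail_one hG hm e (S + 1)).trans ?_
  rw [← ENNReal.ofReal_pow (by norm_num), ← ENNReal.ofReal_ofNat,
    ← ENNReal.ofReal_mul (by norm_num), ← pow_mul]
  refine ENNReal.ofReal_le_ofReal ?_
  calc (2 : ℝ) * (1 / 2) ^ (14 * (S + 1)) ≤ 2 * (1 / 2) ^ (S + 1 + 1) :=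
        mul_le_mul_of_nonneg_left
          (pow_le_pow_of_le_one (by norm_num) (by norm_num) (by omega)) (by norm_num)
    _ = (1 / 2) ^ (S + 1) := by rw [pow_succ]; ring

theorem cl_finite_ae (hG : LawGen G) (hm : SmallTail m G) :
    ∀ᵐ t ∂law G, ∀ e, (cl m t e).Finite := by
  refine ae_all_iff.2 fun e => ?_
  rw [ae_iff]
  refine le_antisymm ?_ zero_le
  have hlim : Tendsto (fun S : ℕ => ENNReal.ofReal ((1 / 2) ^ (S + 1))) atTop (𝓝 0) := by
    have := ENNReal.tendsto_ofReal ((tendsto_pow_atTop_nhds_zero_of_lt_one (r := (1 / 2 : ℝ))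
      (by norm_num) (by norm_num)).comp (tendsto_add_atTop_nat 1))
    simpa using this
  refine ge_of_tendsto' hlim fun S => (measure_mono ?_).trans (cl_tail_half hG hm e S)
  intro t ht
  simp only [Set.mem_ofPred_eq, ← Set.encard_ne_top_iff, ne_eq, not_not] at ht
  simp [ht]

lemma lintegral_clSize (hG : LawGen G) (hm : SmallTail m G) (e : Edge) :
    ∫⁻ t, clSize m e t ∂law G ≤ 1 := by
  unfold clSize
  rw [lintegral_tsum fun _ =>
    (measurable_one.indicator (measurableSet_le_encard m e _)).aemeasurable]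
  refine (ENNReal.tsum_le_tsum fun n =>
    (lintegral_indicator_one (measurableSet_le_encard m e _)).trans_le (cl_tail_half hG hm e n)).trans ?_
  have hs : Summable fun n : ℕ => (1 / 2 : ℝ) ^ (n + 1) := by
    simp_rw [pow_succ]
    exact summable_geometric_two.mul_right _
  rw [← ENNReal.ofReal_tsum_of_nonneg (fun n => by positivity) hs, ENNReal.ofReal_le_one]
  refine le_of_eq ?_
  simp_rw [pow_succ]
  rw [tsum_mul_right, tsum_geometric_two]
  norm_num

theorem capY_integrable_mean (hG : LawGen G) (hm : SmallTail m G) (e : Edge) :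
    Integrable (fun t => capY m t e) (law G) ∧ ∫ t, capY m t e ∂law G ≤ 20 * m := by
  have := hG.prob
  have : IsProbabilityMeasure (law G) := by unfold law; infer_instance
  have hne : ∫⁻ t, clSize m e t ∂law G ≠ ∞ :=
    ne_top_of_le_ne_top ENNReal.one_ne_top (lintegral_clSize hG hm e)
  have hint : Integrable (fun t => (clSize m e t).toReal) (law G) :=
    integrable_toReal_of_lintegral_ne_top (measurable_clSize m e).aemeasurable hne
  have hae : (fun t => 10 * m * ((clSize m e t).toReal + 1)) =ᵐ[law G] fun t => capY m t e := by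
    filter_upwards [cl_finite_ae hG hm] with t ht
    simp [capY, ht e, clSize_eq (ht e)]
  refine ⟨((hint.add (integrable_const 1)).const_mul _).congr hae, ?_⟩
  rw [← integral_congr_ae hae, integral_const_mul, integral_add hint (integrable_const 1),
    integral_toReal (measurable_clSize m e).aemeasurable
      (ae_lt_top (measurable_clSize m e) hne)]
  have h1 := ENNReal.toReal_le_of_le_ofReal zero_le_one
    ((lintegral_clSize hG hm e).trans_eq ENNReal.ofReal_one.symm)
  have := hm.1
  simp only [integral_const, probReal_univ, smul_eq_mul, mul_one]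
  nlinarith

theorem int_capY (hG : LawGen G) (hm : SmallTail m G) (e : Edge) :
    Integrable (fun t => capY m t e) (law G) := (capY_integrable_mean hG hm e).1

theorem mean_capY (hG : LawGen G) (hm : SmallTail m G) :
    ∀ e, ∫ t, capY m t e ∂law G ≤ 20 * m := fun e => (capY_integrable_mean hG hm e).2

/-- The edges whose first end lies in the square of radius `d` around `x`. -/
noncomputable def edgesNear (x : V) (d : ℕ) : Finset Edge :=
  (Finset.Icc (x.1 - d) (x.1 + d) ×ˢ Finset.Icc (x.2 - d) (x.2 + d)) ×ˢ (Finset.univ : Finset Bool)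

lemma edgesNear_card (x : V) (d : ℕ) : (edgesNear x d).card = 2 * (2 * d + 1) ^ 2 := by
  simp only [edgesNear, Finset.card_product, Int.card_Icc, Finset.card_univ, Fintype.card_bool]
  rw [show (x.1 + d + 1 - (x.1 - d)).toNat = 2 * d + 1 by omega,
    show (x.2 + d + 1 - (x.2 - d)).toNat = 2 * d + 1 by omega]
  ring

lemma mem_edgesNear {x : V} {d : ℕ} {e : Edge} :
    e ∈ edgesNear x d ↔ |x.1 - e.1.1| ≤ (d : ℤ) ∧ |x.2 - e.1.2| ≤ (d : ℤ) := by
  simp only [edgesNear, Finset.mem_product, Finset.mem_Icc, Finset.mem_univ, and_true, abs_le]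
  omega

lemma near_large_prob (hG : LawGen G) (hm : SmallTail m G) (x : V) (d S : ℕ) :
    law G (⋃ e ∈ edgesNear x d, {t | (S : ℕ∞) ≤ (cl m t e).encard}) ≤
      ENNReal.ofReal (4 * (2 * (d : ℝ) + 1) ^ 2 * ((1 / 2) ^ 14) ^ S) := by
  refine (measure_biUnion_finset_le _ _).trans
    ((Finset.sum_le_card_nsmul _ _ _ fun e _ => cl_tail_one hG hm e S).trans (le_of_eq ?_))
  rw [nsmul_eq_mul, edgesNear_card, ← ENNReal.ofReal_natCast, ← ENNReal.ofReal_ofNat,
    ← ENNReal.ofReal_pow (by norm_num), ← ENNReal.ofReal_mul (by norm_num),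
    ← ENNReal.ofReal_mul (by positivity)]
  congr 1
  push_cast
  ring

/-- **Clusters are tame.** -/
theorem tame_ae (hG : LawGen G) (hm : SmallTail m G)
    (hnear : ∀ t e x, (cl m t e).Finite → Encl (cl m t e) x →
      |x.1 - (eFst e).1| ≤ ((cl m t e).ncard : ℤ) ∧ |x.2 - (eFst e).2| ≤ ((cl m t e).ncard : ℤ)) :
    ∀ᵐ t ∂law G, Tame m t := by
  have hx : ∀ x : V, ∀ᵐ t ∂law G, ∀ᶠ d : ℕ in atTop,
      t ∉ ⋃ e ∈ edgesNear x d, {t | (d : ℕ∞) ≤ (cl m t e).encard} := by
    intro x
    refine ae_eventually_notMem (ne_top_of_le_ne_top ?_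
      (ENNReal.tsum_le_tsum fun d => near_large_prob hG hm x d d))
    refine Summable.tsum_ofReal_ne_top ?_
    have h1 := summable_pow_mul_geometric_of_norm_lt_one 2 (r := ((1 / 2 : ℝ) ^ 14))
      (by rw [Real.norm_eq_abs, abs_of_nonneg (by positivity)]; norm_num)
    have h2 := summable_geometric_of_lt_one (r := ((1 / 2 : ℝ) ^ 14)) (by positivity) (by norm_num)
    refine Summable.of_nonneg_of_le (fun d => by positivity) (fun d => ?_)
      ((h1.add h2).mul_left 36)
    have hr : (0 : ℝ) ≤ ((1 / 2) ^ 14) ^ d := by positivity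
    have : (2 * (d : ℝ) + 1) ^ 2 ≤ 9 * ((d : ℝ) ^ 2 + 1) := by nlinarith [sq_nonneg ((d : ℝ) - 1)]
    have := mul_le_mul_of_nonneg_right this hr
    linarith
  filter_upwards [cl_finite_ae hG hm, ae_all_iff.2 hx] with t hfin ht
  refine ⟨hfin, fun x => ?_⟩
  obtain ⟨D, hD⟩ := eventually_atTop.1 (ht x)
  refine (edgesNear x D).finite_toSet.subset fun e he => ?_
  obtain ⟨n1, n2⟩ := hnear t e x (hfin e) he
  simp only [eFst] at n1 n2
  set d := max (x.1 - e.1.1).natAbs (x.2 - e.1.2).natAbs with hd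
  have hmem : e ∈ edgesNear x d := mem_edgesNear.2 ⟨by rw [abs_le]; omega, by rw [abs_le]; omega⟩
  rcases lt_or_ge d D with hdD | hdD
  · exact mem_edgesNear.2 ⟨by rw [abs_le]; omega, by rw [abs_le]; omega⟩
  · refine absurd (Set.mem_iUnion₂.2 ⟨e, hmem, ?_⟩) (hD d hdD)
    rw [abs_le] at n1 n2
    simp only [Set.mem_ofPred_eq, ← (hfin e).cast_ncard_eq, Nat.cast_le]
    omega

/-- **Clusters starting in a box stay in a larger one.** -/
theorem stay_prob (hG : LawGen G) (hm : SmallTail m G) (A B : ℕ) (hAB : A + 4 ≤ B) :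
    law G {t | ¬ Stay m A B t} ≤
      ENNReal.ofReal (1000 * (A + 1 : ℝ) ^ 2 * (1 / 2) ^ (B - A - 4)) := by
  refine (measure_mono (t := ⋃ e ∈ edgesNear (0, 0) (A + 1),
    {t | ((B - A : ℕ) : ℕ∞) ≤ (cl m t e).encard}) fun t ht => ?_).trans
      ((near_large_prob hG hm _ _ _).trans (ENNReal.ofReal_le_ofReal ?_))
  · simp only [Set.mem_ofPred_eq, Stay, not_forall, exists_prop] at ht
    obtain ⟨e, he, f, hf, hout⟩ := ht
    obtain ⟨⟨a, b⟩, v⟩ := e
    obtain ⟨⟨c, d⟩, w⟩ := f
    have h1 := cl_span (π := fun g : Edge => g.1.1) (fun p q h => (sqAdj_near h).1) hf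
    have h2 := cl_span (π := fun g : Edge => g.1.2) (fun p q h => (sqAdj_near h).2) hf
    have hin : |a| ≤ (A : ℤ) + 1 ∧ |b| ≤ (A : ℤ) + 1 := by
      rw [abs_le, abs_le]
      cases v <;> simp [InSq, eFst, eSnd] at he <;> omega
    have hfar : B - A ≤ (c - a).natAbs + 1 ∨ B - A ≤ (d - b).natAbs + 1 := by
      rw [abs_le, abs_le] at hin
      cases w <;> simp [InSq, eFst, eSnd] at hout <;> omega
    refine Set.mem_iUnion₂.2 ⟨((a, b), v), mem_edgesNear.2 ?_, ?_⟩
    · simp only [zero_sub, abs_neg]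
      exact_mod_cast hin
    · simp only at h1 h2
      rcases hfar with h | h
      · exact le_trans (by exact_mod_cast h) h1
      · exact le_trans (by exact_mod_cast h) h2
  · push_cast
    rw [← pow_mul]
    calc 4 * (2 * ((A : ℝ) + 1) + 1) ^ 2 * (1 / 2 : ℝ) ^ (14 * (B - A))
        ≤ 1000 * ((A : ℝ) + 1) ^ 2 * (1 / 2) ^ (14 * (B - A)) := by
          refine mul_le_mul_of_nonneg_right ?_ (by positivity)
          nlinarith [(Nat.cast_nonneg A : (0 : ℝ) ≤ A)]
      _ ≤ _ := mul_le_mul_of_nonneg_left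
          (pow_le_pow_of_le_one (by norm_num) (by norm_num) (by omega)) (by positivity)

end Vale.Agent.P158.Gen
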