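import Vale.Agent.P158.Gen.Spec2
import Vale.Agent.P158.Count2

/-!
P158, all atomless laws: the deterministic count.  The count of `Count2Pair` is applied to the
shielded configurations, in which the cycle around the box costs at most the caps of its edges.
-/

open Filter Topology

namespace Vale.Agent.P158.Gen

open Vale.Agent.P158

namespace Count2

/-- The successor on the cycle of the box. -/
theorem bdPt_succ {R : ℤ} (hR : 0 < R) {i : ℕ} (hi : (i : ℤ) < 8 * R) :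
    ∃ i' : ℕ, (i' : ℤ) < 8 * R ∧ bdPt R (i + 1) = bdPt R i' ∧
      ((i' = i + 1) ∨ ((i : ℤ) + 1 = 8 * R ∧ i' = 0)) := by
  by_cases h : (i : ℤ) + 1 < 8 * R
  · exact ⟨i + 1, by push_cast; omega, rfl, .inl rfl⟩
  · refine ⟨0, by push_cast; omega, ?_, .inr ⟨by omega, rfl⟩⟩
    unfold bdPt
    push_cast
    split_ifs <;> simp only [Prod.mk.injEq] <;> omega

theorem bdPt_inj {R : ℤ} {i j : ℕ} (hi : (i : ℤ) < 8 * R) (hj : (j : ℤ) < 8 * R)
    (h : bdPt R i = bdPt R j) : i = j := by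
  unfold bdPt at h
  split_ifs at h <;> simp only [Prod.mk.injEq] at h <;> omega

/-- The cycle of the box visits each of its edges once. -/
theorem cycle_le {R : ℕ} (hR : 0 < R) (t : Conf) (f : Edge → ℝ) (hle : ∀ e, t e ≤ f e)
    (h0 : ∀ e, 0 ≤ f e) :
    ∑ l ∈ Finset.Ico 0 (8 * (R : ℤ)).toNat, wt t (bdPt R l) (bdPt R (l + 1)) ≤
      ∑ e ∈ cycE R, f e := by
  classical
  have hR' : (0 : ℤ) < R := by exact_mod_cast hR
  refine (Finset.sum_le_sum fun l _ => hle _).trans ?_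
  rw [← Finset.sum_image (g := fun l => edgeOf (bdPt (R : ℤ) l) (bdPt (R : ℤ) (l + 1))) (f := f)]
  · refine Finset.sum_le_sum_of_subset_of_nonneg (fun e he => ?_) fun e _ _ => h0 e
    obtain ⟨l, hl, rfl⟩ := Finset.mem_image.1 he
    have hl' : (l : ℤ) < 8 * (R : ℤ) := by have := (Finset.mem_Ico.1 hl).2; omega
    have a := bdPt_onBd hR'.le hl'.le
    have b := bdPt_onBd hR'.le (i := l + 1) (by push_cast; omega)
    have hb : OnBd (R : ℤ) (eFst (edgeOf (bdPt (R : ℤ) l) (bdPt (R : ℤ) (l + 1)))) ∧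
        OnBd (R : ℤ) (eSnd (edgeOf (bdPt (R : ℤ) l) (bdPt (R : ℤ) (l + 1)))) := by
      rcases ends_edgeOf (bdPt_adj hl') with ⟨e1, e2⟩ | ⟨e1, e2⟩ <;> rw [e1, e2]
      exacts [⟨a, b⟩, ⟨b, a⟩]
    simp only [cycE, Finset.mem_filter, Finset.mem_product, Finset.mem_Icc, Finset.mem_univ,
      and_true]
    obtain ⟨⟨x1, x2, x3, x4⟩, -⟩ := hb.1
    exact ⟨⟨⟨x1, x2⟩, x3, x4⟩, hb⟩
  · intro i hi j hj he
    simp only [Finset.coe_Ico, Set.mem_Ico] at hi hj
    have hi' : (i : ℤ) < 8 * (R : ℤ) := by omega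
    have hj' : (j : ℤ) < 8 * (R : ℤ) := by omega
    obtain ⟨i', h1, h2, h3⟩ := bdPt_succ hR' hi'
    obtain ⟨j', h4, h5, h6⟩ := bdPt_succ hR' hj'
    simp only at he
    rcases Rays.edgeOf_inj (bdPt_adj hi') (bdPt_adj hj') he with ⟨e1, -⟩ | ⟨e1, e2⟩
    · exact bdPt_inj hi' hj' e1
    · rw [h5] at e1
      rw [h2] at e2
      have := bdPt_inj hi' h4 e1
      have := bdPt_inj h1 hj' e2
      omega

/-- Shielding lowers the Busemann functions of the ends of a bigeodesic. -/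
theorem bus_shield_le {m : ℝ} (hS : ShieldFacts m) {t : Conf} (hT : Tame m t)
    (h0 : ∀ e, 0 ≤ t e) (h0' : ∀ e, 0 ≤ shield m t e) {γ : ℤ → V} (hγ : IsBigeodesic t γ)
    (z : V) : bus (shield m t) Set.univ (bwd γ 0) z ≤ bus t Set.univ (bwd γ 0) z := by
  obtain ⟨h1, h2⟩ := hS.bigeo t hT h0 γ
  refine Rays.le_bus fun n => ?_
  refine (Rays.bus_le h0' (Rays.isRayIn_bwd (h1.2 hγ) h0' 0) (connIn_univ _ z) n).trans ?_
  have e : rlen (shield m t) (bwd γ 0) n = rlen t (bwd γ 0) n := by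
    rw [Rays.rlen_bwd, Rays.rlen_bwd]
    exact Finset.sum_congr rfl fun i _ => h2 hγ i
  rw [e]
  linarith [Rays.TS_anti h0' (hS.le Set.univ t) (connIn_univ (bwd γ 0 n) z)]

end Count2

open Count2

/-- The deterministic count for all atomless laws. -/
theorem countProp2G {m κ : ℝ} (hS : ShieldFacts m) (hκ : 0 < κ) : CountProp2G m κ := by
  classical
  intro GS hGS P B k hk hδ hg C hε hε1 hC hεL hG₀ U s c hU hsep D hD J H hH hN t ht hstay n hblock
  have h0 : ∀ u ∈ GS, ∀ e, 0 ≤ u e := fun u hu => (hGS u hu).2.1.good.nonneg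
  have h0' : ∀ u ∈ GS, ∀ e, 0 ≤ shield m u e := fun u hu => (hGS u hu).2.2.good.nonneg
  -- the objects
  obtain ⟨Bl, hBl⟩ : ∃ Bl : Finset (ℕ × ℤ),
      Bl = (U ×ˢ J).filter fun w => 0 < n w.1 w.2 := ⟨_, rfl⟩
  have hBm : ∀ w : Bl, w.1.1 ∈ U ∧ w.1.2 ∈ J ∧ 0 < n w.1.1 w.1.2 := fun w => by
    have := (Finset.ext_iff.1 hBl w.1).1 w.2
    rw [Finset.mem_filter, Finset.mem_product] at this
    exact ⟨this.1.1, this.1.2, this.2⟩
  have hex : ∀ w : Bl, ∃ pre, Cert2G P B GS k (c w.1.1) (s w.1.1) (w.1.2 * D)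
      (n w.1.1 w.1.2) pre t := fun w => hblock _ (hBm w).1 _ (hBm w).2.1 (hBm w).2.2
  choose pre hpre using hex
  have hcert : ∀ w : Bl, ∃ (ys : Fin (n w.1.1 w.1.2) → ℤ) (γ : Fin (n w.1.1 w.1.2) → ℤ → V)
      (iL jR : Fin (n w.1.1 w.1.2) → ℤ), Function.Injective ys ∧
      (∀ i, w.1.2 * D ≤ ys i ∧ ys i < w.1.2 * D + B.d ∧
        LineSite P k (s w.1.1) (pt k (c w.1.1) (ys i)) (pre w) (γ i) (iL i) (jR i) ∧
        B.g ≤ ∑ m ∈ Finset.Ico (iL i) (jR i),
          (wt (pre w) (γ i m) (γ i (m + 1)) - wt t (γ i m) (γ i (m + 1)))) ∧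
      ∀ i i', i ≠ i' → Wit4 (pre w) B.W (B.G₀ + T (pre w) (γ i 0) (γ i' 0)) (γ i) (γ i') :=
    fun w => (hpre w).2.2.2.2
  choose ys γ iL jR hinj hline hwit using hcert
  let ι := Σ w : Bl, Fin (n w.1.1 w.1.2)
  let X : ι → Conf := fun p => shield m (pre p.1)
  let G : ι → ℤ → V := fun p => γ p.1 p.2
  have hl : ∀ p : ι, LineSite P k (s p.1.1.1) (pt k (c p.1.1.1) (ys p.1 p.2)) (pre p.1) (G p)
      (iL p.1 p.2) (jR p.1 p.2) := fun p => (hline p.1 p.2).2.2.1
  have hpre0 : ∀ p : ι, ∀ e, 0 ≤ pre p.1 e := fun p => h0 _ (hpre p.1).1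
  have hX0 : ∀ p : ι, ∀ e, 0 ≤ X p e := fun p => h0' _ (hpre p.1).1
  have hbig : ∀ p : ι, IsBigeodesic (X p) (G p) ∧
      ∀ i, wt (X p) (G p i) (G p (i + 1)) = wt (pre p.1) (G p i) (G p (i + 1)) := fun p =>
    ⟨((hS.bigeo _ (hGS _ (hpre p.1).1).1 (hpre0 p) _).1).2 (hl p).line,
      (hS.bigeo _ (hGS _ (hpre p.1).1).1 (hpre0 p) _).2 (hl p).line⟩
  have hcard : (∑ u ∈ U, ∑ j ∈ J, (n u j : ℝ)) = (Fintype.card ι : ℝ) := by
    rw [Fintype.card_sigma, Nat.cast_sum]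
    simp only [Fintype.card_fin]
    rw [Finset.sum_coe_sort Bl (fun w => (n w.1 w.2 : ℝ)), hBl,
      ← Finset.sum_product' U J (fun u j => (n u j : ℝ))]
    exact (Finset.sum_filter_of_ne fun w _ hne =>
      Nat.pos_of_ne_zero fun h => hne (by rw [h, Nat.cast_zero])).symm
  rw [hcard]
  obtain ⟨R, hR⟩ : ∃ R : ℤ, R = ((countRad P B H : ℕ) : ℤ) := ⟨_, rfl⟩
  have hR' : R = 2 * (H : ℤ) + P.Lam + B.W + 2 := by rw [hR, countRad]; push_cast; rfl
  have hfam := siteFam_mk hk hε hε1 hC hεL hU hsep hD hH hN (uu := fun p : ι => p.1.1.1)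
    (jj := fun p => p.1.1.2) (fun p => (hBm p.1).1) (fun p => (hBm p.1).2.1) hl
    (fun p => ⟨(hline p.1 p.2).1, (hline p.1 p.2).2.1⟩)
  have hout : ∀ (p : ι), ∀ e ∈ Out R, X p e = shield m t e := fun p e he => by
    refine (hS.agree (H + P.Lam) (countRad P B H - 2) t (pre p.1) _ hstay (hpre p.1).2.2.1
      (hpre p.1).2.2.2.1 (fun e' he' => ?_) e ?_ ?_).2
    · push_cast
      exact ⟨(hfam.box p he'.1).1, (hfam.box p he'.2).1⟩
    · exact fun hb => he.1 (inBox_mono (by rw [countRad] at *; omega) hb.1)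
    · exact fun hb => he.1 (inBox_mono (by push_cast; omega) hb.1)
  -- deep tails
  have hdeep : ∀ p : ι, ∃ d : ℕ, (∀ b, IsRayIn (shield m t) Set.univ (eray d (G p) b) ∧
      IsRayIn (shield m t) (Out R) (eray d (G p) b)) ∧
      (∀ q b, IsRayIn (X q) Set.univ (eray d (G p) b)) ∧
      -(d : ℤ) ≤ iL p.1 p.2 ∧ jR p.1 p.2 ≤ d := by
    intro p
    have hl' := (hGS _ (hpre p.1).1).2.2.good.lenBound
    have hr : ∀ b, IsRayIn (X p) Set.univ (bwd (ori b (G p)) 0) := fun b =>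
      Rays.isRayIn_bwd ((hbig p).1.ori b) (hX0 p) 0
    have h1 : ∀ᶠ d : ℕ in atTop, ∀ b, IsRayIn (shield m t) Set.univ (eray d (G p) b) ∧
        IsRayIn (shield m t) (Out R) (eray d (G p) b) :=
      eventually_all.2 fun b => eventually_deep_lenBound (hX0 p) hl' hκ (h0' t ht)
        (fun e he => (hout p e he).symm) (hr b)
    have h2 : ∀ᶠ d : ℕ in atTop, ∀ q b, IsRayIn (X q) Set.univ (eray d (G p) b) :=
      eventually_all.2 fun q => eventually_all.2 fun b =>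
        (eventually_deep_lenBound (hX0 p) hl' hκ (hX0 q)
          (fun e he => (hout q e he).trans (hout p e he).symm) (hr b)).mono fun _ h => h.1
    have h3 : ∀ᶠ d : ℕ in atTop, -(d : ℤ) ≤ iL p.1 p.2 ∧ jR p.1 p.2 ≤ d :=
      eventually_atTop.2 ⟨(-iL p.1 p.2).toNat + (jR p.1 p.2).toNat, fun d hd => by omega⟩
    exact (h1.and (h2.and h3)).exists
  choose md hm using hdeep
  have S : Sys2 κ R (shield m t) X G md :=
    ⟨h0' t ht, fun q => (hGS _ (hpre q.1).1).2.2, hout, fun p => (hbig p).1,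
      fun p => inBox_mono (by omega) (hfam.org p),
      fun p b => ((hm p).1 b).2, fun p b => ((hm p).1 b).1, fun q p b => (hm p).2.1 q b⟩
  have hgain : ∀ p : ι, B.g ≤ Rays.seg (pre p.1) (G p) (-(md p : ℤ)) (md p) -
      Rays.seg t (G p) (-(md p : ℤ)) (md p) := fun p => by
    refine (hline p.1 p.2).2.2.2.trans ?_
    rw [Rays.seg, Rays.seg, ← Finset.sum_sub_distrib]
    exact Finset.sum_le_sum_of_subset_of_nonneg
      (Finset.Ico_subset_Ico (hm p).2.2.1 (hm p).2.2.2)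
      fun i _ _ => sub_nonneg.2 ((hpre p.1).2.2.1 _)
  have hfour : ∀ S : Finset ι, 4 ≤ S.card →
      ∃ p ∈ S, ∃ q ∈ S, p ≠ q ∧ Free2 B.g R X G md p q := by
    refine hfam.four_free _ (fun p q hpq hu hj => ?_) (fun p q _ hp hq => ?_)
    · have he : p.1 = q.1 := Subtype.ext (Prod.ext hu hj)
      obtain ⟨w, i⟩ := p
      obtain ⟨w', i'⟩ := q
      subst he
      refine .inr ⟨rfl, B.G₀ + T (pre w) (γ w i 0) (γ w i' 0), ?_, fun a b => ?_⟩
      · have hT : T (shield m (pre w)) (γ w i 0) (γ w i' 0) ≤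
            T (pre w) (γ w i 0) (γ w i' 0) := by
          rw [T_eq_TS, T_eq_TS]
          exact Rays.TS_anti (hX0 ⟨w, i⟩) (hS.le Set.univ (pre w)) (connIn_univ _ _)
        show T (shield m (pre w)) (γ w i 0) (γ w i' 0) + 2 * B.g < _
        linarith
      · have hne : i ≠ i' := fun h => hpq (by rw [h])
        obtain ⟨w1, w2, w3, w4⟩ := wit4_mono (W' := R) (by omega) (hwit w i i' hne)
        have hwt : Wit (pre w) R (B.G₀ + T (pre w) (γ w i 0) (γ w i' 0))
            (bwd (ori a (γ w i)) 0) (fwd (ori b (γ w i')) 0) := by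
          cases a <;> cases b
          · simpa [ori, fwd_revLine, bwd_revLine] using w2
          · simpa [ori, fwd_revLine, bwd_revLine] using w4
          · simpa [ori, fwd_revLine, bwd_revLine] using w3
          · simpa [ori, fwd_revLine, bwd_revLine] using w1
        obtain ⟨z, hz, hlt⟩ := hwt
        have hT := (hGS _ (hpre w).1).1
        have b1 := bus_shield_le hS hT (hpre0 ⟨w, i⟩) (hX0 ⟨w, i⟩)
          ((hl ⟨w, i⟩).line.ori a) z
        have b2 := bus_shield_le hS hT (hpre0 ⟨w, i'⟩) (hX0 ⟨w, i'⟩)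
          ((hl ⟨w, i'⟩).line.ori (!b)) z
        refine ⟨z, hz, ?_⟩
        rw [fwd_ori] at hlt ⊢
        show bus (shield m (pre w)) Set.univ (bwd (ori a (γ w i)) 0) z +
          bus (shield m (pre w)) Set.univ (bwd (ori (!b) (γ w i')) 0) z < _
        linarith
    · have hav : ∀ p q : ι, (∀ i, edgeOf (G q i) (G q (i + 1)) ∉
          regSet2 P k (c p.1.1.1) (s p.1.1.1) (p.1.1.2 * D) B.d) →
          Rays.seg (X p) (G q) (-(md q : ℤ)) (md q) + B.g ≤
            Rays.seg (X q) (G q) (-(md q : ℤ)) (md q) := fun p q hP => by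
        have e : Rays.seg (pre p.1) (G q) (-(md q : ℤ)) (md q) =
            Rays.seg t (G q) (-(md q : ℤ)) (md q) :=
          Finset.sum_congr rfl fun i _ => ((hpre p.1).2.2.2.1 _ (hP i)).symm
        have e1 : Rays.seg (X p) (G q) (-(md q : ℤ)) (md q) ≤
            Rays.seg (pre p.1) (G q) (-(md q : ℤ)) (md q) :=
          Finset.sum_le_sum fun i _ => hS.le Set.univ (pre p.1) _
        have e2 : Rays.seg (X q) (G q) (-(md q : ℤ)) (md q) =
            Rays.seg (pre q.1) (G q) (-(md q : ℤ)) (md q) :=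
          Finset.sum_congr rfl fun i _ => (hbig q).2 i
        linarith [hgain q]
      exact .inl ⟨hav p q hq, hav q p hp⟩
  -- the cycle
  have hcap : ∀ e, shield m t e ≤ capY m t e + 1 := fun e =>
    hS.le_capY Set.univ t e (Set.mem_univ e) ((hGS t ht).1.fin e)
  have hcap0 : ∀ e, 0 ≤ capY m t e + 1 := fun e => (h0' t ht e).trans (hcap e)
  have hcyc : ∑ l ∈ Finset.Ico 0 (8 * R).toNat, wt (shield m t) (bdPt R l) (bdPt R (l + 1)) ≤
      ∑ e ∈ cycE (countRad P B H), (capY m t e + 1) := by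
    rw [hR]
    exact cycle_le (by rw [countRad]; omega) _ _ hcap hcap0
  refine (S.count hκ hg (by omega) hcyc hfour).trans ?_
  have := Finset.sum_nonneg (s := cycE (countRad P B H)) fun e _ => hcap0 e
  linarith

end Vale.Agent.P158.Gen
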