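import Vale.Agent.P158.Gen.Cut.Count
import Vale.Agent.P158.Gen.ClusterTail

/-!
Cutting: with high probability disjoint pieces of a geodesic between unenclosed vertices cost at
most `25 m` times their spans, up to `ε n`, when there are at most `C n / r` pieces.
-/

open MeasureTheory Filter Topology
open scoped ENNReal

namespace Vale.Agent.P158.Gen.Cut

open Vale.Agent.P158 Vale.Agent.P158.Gen

variable {G : Measure ℝ} {m : ℝ}

theorem ae_nonneg_edges (hG : LawGen G) : ∀ᵐ t ∂law G, ∀ e, 0 ≤ t e := by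
  have := hG.prob
  rw [ae_all_iff]
  intro e
  have h : ∀ᵐ x ∂G, x ∈ Set.Ici (0 : ℝ) :=
    (mem_ae_iff_prob_eq_one measurableSet_Ici).2 hG.supp
  have he : (law G).map (fun t => t e) = G := Measure.infinitePi_map_eval (fun _ : Edge => G) e
  exact ae_of_ae_map (measurable_pi_apply e).aemeasurable (he.symm ▸ h)

theorem ae_finite_cl (hG : LawGen G) (hm : SmallTail m G) :
    ∀ᵐ t ∂law G, ∀ e, (cl m t e).Finite := by
  rw [ae_all_iff]
  intro e
  rw [ae_iff, ← nonpos_iff_eq_zero]
  have hlim : Tendsto (fun S : ℕ => 2 * ENNReal.ofReal ((1 / 2) ^ 14) ^ S) atTop (𝓝 0) := by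
    have h := ENNReal.Tendsto.const_mul (ENNReal.tendsto_pow_atTop_nhds_zero_of_lt_one
      (r := ENNReal.ofReal ((1 / 2) ^ 14)) (ENNReal.ofReal_lt_one.2 (by norm_num)))
      (Or.inr (by simp : (2 : ℝ≥0∞) ≠ ⊤))
    rwa [mul_zero] at h
  refine ge_of_tendsto' hlim fun S => ?_
  refine le_trans (measure_mono fun t ht => ?_) (cl_tail_one hG hm e S)
  show (S : ℕ∞) ≤ (cl m t e).encard
  rw [Set.Infinite.encard_eq (show (cl m t e).Infinite from ht)]
  exact le_top

/-- One chain is bad with exponentially small probability. -/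
theorem law_chain (hG : LawGen G) (hm : SmallTail m G) (z : V) (L : List (V × V)) (k : ℕ) :
    law G {t | ((3 * spanSum L + k : ℕ) : ℕ∞) ≤ (clus m t (segs z L)).encard} ≤
      ENNReal.ofReal ((1 / 2) ^ k) := by
  refine (cl_tail_small hG hm (segs z L) (3 * spanSum L + k)).trans ?_
  calc (2 : ℝ≥0∞) ^ (segs z L).card * ENNReal.ofReal ((1 / 2) ^ 14) ^ (3 * spanSum L + k)
      ≤ ENNReal.ofReal 2 ^ spanSum L * ENNReal.ofReal ((1 / 2) ^ 14) ^ (3 * spanSum L + k) := by
        rw [ENNReal.ofReal_ofNat]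
        exact mul_le_mul_left (pow_le_pow_right₀ one_le_two (card_segs_le z L)) _
    _ = ENNReal.ofReal (2 ^ spanSum L * ((1 / 2) ^ 14) ^ (3 * spanSum L + k)) := by
        rw [ENNReal.ofReal_mul (by positivity), ENNReal.ofReal_pow (by norm_num) (spanSum L),
          ENNReal.ofReal_pow (by positivity) (3 * spanSum L + k)]
    _ ≤ ENNReal.ofReal ((1 / 2) ^ k) := by
        refine ENNReal.ofReal_le_ofReal ?_
        rw [pow_add, pow_mul, ← mul_assoc, ← mul_pow]
        calc _ ≤ (1 : ℝ) ^ spanSum L * ((1 / 2) ^ k) :=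
              mul_le_mul (pow_le_pow_left₀ (by norm_num) (by norm_num) _)
                (pow_le_pow_left₀ (by norm_num) (by norm_num) _) (by positivity) (by positivity)
          _ = _ := by rw [one_pow, one_mul]

/-- The chains counted at scale `N`: a start in the box and at most `N / r` pieces. -/
noncomputable def index (N r : ℕ) : Finset (V × List (V × V)) :=
  (span1 N ×ˢ span1 N) ×ˢ (((Finset.range (N + 1)).filter fun l => l * r ≤ N).biUnion (chains N))

theorem card_index {N r : ℕ} (hr : 2 ≤ r) :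
    ((index N r).card : ℝ) ≤
      (2 * N + 1) ^ 2 * (N + 1) * Real.exp (N * (2 + 4 * Real.log (2 * r)) / r) := by
  have hs : (span1 N).card = 2 * N + 1 := by
    simp only [span1, Int.card_Icc]
    omega
  rw [index, Finset.card_product, Finset.card_product, hs]
  push_cast
  rw [mul_assoc ((2 * (N : ℝ) + 1) ^ 2), pow_two]
  refine mul_le_mul_of_nonneg_left ?_ (by positivity)
  refine (Nat.cast_le.2 Finset.card_biUnion_le).trans ?_
  rw [Nat.cast_sum]
  refine (Finset.sum_le_card_nsmul _ _ _ fun l hl =>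
    card_chains hr (Finset.mem_filter.1 hl).2).trans ?_
  rw [nsmul_eq_mul]
  refine mul_le_mul_of_nonneg_right ?_ (Real.exp_pos _).le
  have h := Finset.card_filter_le (Finset.range (N + 1)) fun l => l * r ≤ N
  rw [Finset.card_range] at h
  exact_mod_cast h

theorem half_pow_le {x : ℝ} {k : ℕ} (h : x < k + 1) :
    (1 / 2 : ℝ) ^ k ≤ Real.exp (1 / 2 - x / 2) := by
  have h1 : (1 / 2 : ℝ) ≤ Real.exp (-(1 / 2)) := by
    have := Real.add_one_le_exp (-(1 / 2) : ℝ)
    linarith
  calc (1 / 2 : ℝ) ^ k ≤ Real.exp (-(1 / 2)) ^ k := pow_le_pow_left₀ (by norm_num) h1 k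
    _ = Real.exp ((k : ℝ) * -(1 / 2)) := (Real.exp_nat_mul _ _).symm
    _ ≤ _ := Real.exp_le_exp.2 (by linarith)

/-- The bound on the failure of cutting at one scale. -/
theorem law_not_cutOK (hG : LawGen G) (hm : SmallTail m G) (hS : ShieldFacts m) {ε : ℝ}
    (hε : 0 < ε) (C : ℕ) {r : ℕ} (hr : 2 ≤ r)
    (hrate : (C : ℝ) * ((2 + 4 * Real.log (2 * r)) / r) ≤ ε / (32 * m)) (n : ℕ) :
    law G {t | ¬ CutOK m ε C r n t} ≤ ENNReal.ofReal
      ((2 * (C * n : ℕ) + 1) ^ 2 * ((C * n : ℕ) + 1) * Real.exp (1 / 2 - ε / (32 * m) * n)) := by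
  have hm0 : 0 < m := hm.1
  set k := ⌊ε * n / (8 * m)⌋₊ with hk
  set N := C * n with hN
  set A : Set Conf := {t | ¬ ((∀ e, 0 ≤ t e) ∧ ∀ e, (cl m t e).Finite)} with hA
  set B : Set Conf := ⋃ x ∈ index N r,
    {t | ((3 * spanSum x.2 + k : ℕ) : ℕ∞) ≤ (clus m t (segs x.1 x.2)).encard} with hB
  have hsub : {t | ¬ CutOK m ε C r n t} ⊆ A ∪ B := by
    intro t ht
    by_contra hc
    obtain ⟨hcA, hcB⟩ := not_or.1 hc
    obtain ⟨h0, hfin⟩ : (∀ e, 0 ≤ t e) ∧ ∀ e, (cl m t e).Finite := not_not.1 hcA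
    refine ht fun γ i₀ i₁ hγ h₀ h₁ hbox hlen l p q hl hpq hord => ?_
    obtain ⟨L, hLl, htot, hspan, hle⟩ := pieces_le hm0 hS h0 hfin hγ h₀ h₁ hpq hord
    rw [← hN] at hbox hlen hl
    have htotN : totSum L ≤ N := by omega
    have hmem : (γ i₀, L) ∈ index N r := by
      obtain ⟨b1, b2, b3, b4⟩ := hbox
      refine Finset.mem_product.2 ⟨by simp [span1, b1, b2, b3, b4],
        Finset.mem_biUnion.2 ⟨L.length, Finset.mem_filter.2 ⟨?_, hLl ▸ hl⟩, mem_chains htotN⟩⟩
      rw [Finset.mem_range]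
      have : L.length * 1 ≤ L.length * r := Nat.mul_le_mul_left _ (by omega)
      rw [hLl] at this ⊢
      omega
    have hsmall : (clus m t (segs (γ i₀) L)).ncard ≤ 3 * spanSum L + k := by
      by_contra hlt
      refine hcB (Set.mem_iUnion₂.2 ⟨_, hmem, ?_⟩)
      show ((3 * spanSum L + k : ℕ) : ℕ∞) ≤ (clus m t (segs (γ i₀) L)).encard
      rw [← (clus_finite _ hfin).cast_ncard_eq]
      exact_mod_cast (not_le.1 hlt).le
    have hsmall' : ((clus m t (segs (γ i₀) L)).ncard : ℝ) ≤ 3 * spanSum L + k := by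
      exact_mod_cast hsmall
    have hkle : (k : ℝ) * (8 * m) ≤ ε * n := by
      rw [← le_div_iff₀ (by positivity)]
      exact Nat.floor_le (by positivity)
    have h8 := mul_le_mul_of_nonneg_left hsmall' (show (0 : ℝ) ≤ 8 * m by linarith)
    rw [← hspan]
    have : 0 ≤ m * (spanSum L : ℝ) := by positivity
    linarith
  have hA0 : law G A = 0 := ae_iff.1 ((ae_nonneg_edges hG).and (ae_finite_cl hG hm))
  have hkx : ε * n / (8 * m) < k + 1 := Nat.lt_floor_add_one _
  calc law G {t | ¬ CutOK m ε C r n t} ≤ law G A + law G B :=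
        (measure_mono hsub).trans (measure_union_le A B)
    _ ≤ 0 + ∑ x ∈ index N r, ENNReal.ofReal ((1 / 2) ^ k) :=
        add_le_add hA0.le ((measure_biUnion_finset_le _ _).trans
          (Finset.sum_le_sum fun x _ => law_chain hG hm x.1 x.2 k))
    _ = ENNReal.ofReal ((index N r).card * (1 / 2) ^ k) := by
        rw [zero_add, ← ENNReal.ofReal_sum_of_nonneg fun _ _ => by positivity, Finset.sum_const,
          nsmul_eq_mul]
    _ ≤ _ := by
        refine ENNReal.ofReal_le_ofReal ?_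
        refine (mul_le_mul (card_index hr) (half_pow_le hkx) (by positivity) (by positivity)).trans ?_
        rw [mul_assoc, ← Real.exp_add]
        refine mul_le_mul_of_nonneg_left (Real.exp_le_exp.2 ?_) (by positivity)
        have h1 := mul_le_mul_of_nonneg_right hrate (Nat.cast_nonneg (α := ℝ) n)
        have h2 : (N : ℝ) * (2 + 4 * Real.log (2 * r)) / r
            = (C : ℝ) * ((2 + 4 * Real.log (2 * r)) / r) * n := by
          rw [hN]; push_cast; ring
        have h3 : ε * n / (8 * m) / 2 = 2 * (ε / (32 * m) * n) := by field_simp; ring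
        linarith

theorem bound_tendsto (C : ℕ) {a : ℝ} (ha : 0 < a) :
    Tendsto (fun n : ℕ => (2 * ((C * n : ℕ) : ℝ) + 1) ^ 2 * (((C * n : ℕ) : ℝ) + 1) *
      Real.exp (1 / 2 - a * n)) atTop (𝓝 0) := by
  have hlim := (tendsto_pow_const_mul_const_pow_of_lt_one 3 (Real.exp_pos (-a)).le
    (Real.exp_lt_one_iff.2 (neg_lt_zero.2 ha))).const_mul
      ((2 * (C : ℝ) + 1) ^ 3 * Real.exp (1 / 2))
  rw [mul_zero] at hlim
  refine tendsto_of_tendsto_of_tendsto_of_le_of_le' tendsto_const_nhds hlim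
    (Eventually.of_forall fun n => by positivity) ?_
  filter_upwards [eventually_ge_atTop 1] with n hn
  have hn' : (1 : ℝ) ≤ n := by exact_mod_cast hn
  have he : Real.exp (1 / 2 - a * n) = Real.exp (1 / 2) * Real.exp (-a) ^ n := by
    rw [← Real.exp_nat_mul, ← Real.exp_add]
    congr 1
    ring
  rw [he]
  push_cast
  have hC : (0 : ℝ) ≤ C := Nat.cast_nonneg C
  have h1 : 2 * ((C : ℝ) * n) + 1 ≤ (2 * C + 1) * n := by linarith
  have h2 : (C : ℝ) * n + 1 ≤ (2 * C + 1) * n := by
    have : 0 ≤ (C : ℝ) * n := by positivity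
    linarith
  calc (2 * ((C : ℝ) * n) + 1) ^ 2 * ((C : ℝ) * n + 1) * (Real.exp (1 / 2) * Real.exp (-a) ^ n)
      ≤ ((2 * C + 1) * n) ^ 2 * ((2 * C + 1) * n) * (Real.exp (1 / 2) * Real.exp (-a) ^ n) := by
        gcongr
    _ = _ := by ring

end Vale.Agent.P158.Gen.Cut

namespace Vale.Agent.P158.Gen

open Cut in
/-- **Cutting works with high probability.** -/
theorem cutProp {G : Measure ℝ} {m : ℝ} (hG : LawGen G) (hm : SmallTail m G)
    (hS : ShieldFacts m) : CutProp m G := by
  intro C ε hε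
  have hm0 : 0 < m := hm.1
  have ha : 0 < ε / (32 * m) := by positivity
  have hlim := rate_tendsto.const_mul (C : ℝ)
  rw [mul_zero] at hlim
  obtain ⟨r₀, hr₀⟩ := eventually_atTop.1 (hlim.eventually (eventually_le_nhds ha))
  refine ⟨max r₀ 2, fun r hr => ?_⟩
  have hlim2 := ENNReal.tendsto_ofReal (bound_tendsto C ha)
  rw [ENNReal.ofReal_zero] at hlim2
  exact tendsto_of_tendsto_of_tendsto_of_le_of_le tendsto_const_nhds hlim2 (fun n => zero_le)
    fun n => law_not_cutOK hG hm hS hε C ((le_max_right _ _).trans hr)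
      (hr₀ r ((le_max_left _ _).trans hr)) n

end Vale.Agent.P158.Gen
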