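import Vale.Agent.P158.Gen.Law
import Vale.Agent.P158.PlanarBox

/-!
Shielding: weights far above the size of their cluster of bad edges are lowered, which changes
neither the passage times between unenclosed vertices nor the bigeodesics.
-/

open MeasureTheory Filter Topology

namespace Vale.Agent.P158.Gen

open Vale.Agent.P158

/-- `x` for `x ≤ Y`, squeezed below `Y + 1` above `Y`; strictly increasing in `x`. -/
noncomputable def capTo (Y x : ℝ) : ℝ := if x ≤ Y then x else Y + (x - Y) / (1 + (x - Y))

/-- The edges of the unit square with lower left corner `v`. -/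
def sq (v : V) : Finset Edge :=
  {(v, false), ((v.1, v.2 + 1), false), (v, true), ((v.1 + 1, v.2), true)}

/-- Two edges of one unit square. -/
def SqAdj (e f : Edge) : Prop := ∃ v, e ∈ sq v ∧ f ∈ sq v

/-- The cluster of an edge among the edges of weight above `m`. -/
def cl (m : ℝ) (t : Conf) (e : Edge) : Set Edge :=
  {f | m < t e ∧ Relation.ReflTransGen (fun a b => SqAdj a b ∧ m < t b) e f}

/-- The level above which the weight of an edge is lowered. -/
noncomputable def capY (m : ℝ) (t : Conf) (e : Edge) : ℝ :=
  open Classical in if (cl m t e).Finite then 10 * m * ((cl m t e).ncard + 1) else t e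

/-- The configuration lowered on the edges of `F`. -/
noncomputable def shieldOn (m : ℝ) (F : Set Edge) (t : Conf) : Conf :=
  fun e => open Classical in if e ∈ F then capTo (capY m t e) (t e) else t e

/-- The lowered configuration. -/
noncomputable def shield (m : ℝ) (t : Conf) : Conf := shieldOn m Set.univ t

/-- Every square contains an even number of edges of `P`. -/
def EvenSq (P : Finset Edge) : Prop := ∀ v, Even (P ∩ sq v).card

/-- The potential of an even edge set: the parity of its horizontal edges to the left. -/
def pot (P : Finset Edge) (x : V) : ZMod 2 :=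
  ((P.filter fun e => e.2 = false ∧ e.1.2 = x.2 ∧ e.1.1 < x.1).card : ZMod 2)

/-- The edge set `C` encloses the vertex `x`. -/
def Encl (C : Set Edge) (x : V) : Prop :=
  ∃ P : Finset Edge, ↑P ⊆ C ∧ EvenSq P ∧ pot P x = 1

/-- No cluster of an edge of `F` encloses `x`. -/
def OKon (m : ℝ) (F : Set Edge) (t : Conf) (x : V) : Prop :=
  ∀ e ∈ F, ¬ Encl (cl m t e) x

/-- No cluster encloses `x`. -/
def OKpt (m : ℝ) (t : Conf) (x : V) : Prop := OKon m Set.univ t x

/-- All clusters are finite and only finitely many of their edges enclose a given vertex. -/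
structure Tame (m : ℝ) (t : Conf) : Prop where
  fin : ∀ e, (cl m t e).Finite
  encl : ∀ x, {e | Encl (cl m t e) x}.Finite

/-- Clusters at the box of radius `N` have fewer than `L` edges. -/
structure Loc (m : ℝ) (N L : ℕ) (t : Conf) : Prop where
  tame : Tame m t
  small : ∀ e, (InSq N (eFst e) ∨ InSq N (eSnd e) ∨ ∃ x, InSq N x ∧ Encl (cl m t e) x) →
    (cl m t e).ncard < L

/-- Clusters starting in the box of radius `A` stay in the box of radius `B`. -/
def Stay (m : ℝ) (A B : ℕ) (t : Conf) : Prop :=
  ∀ e, (InSq A (eFst e) ∨ InSq A (eSnd e)) →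
    ∀ f ∈ cl m t e, InSq B (eFst f) ∧ InSq B (eSnd f)

/-- The local scale of the scale `n`: its square is of smaller order than `n`. -/
def Lc (n : ℕ) : ℕ := Nat.sqrt (Nat.sqrt n) + 1

/-- The distance of two vertices in the sum norm. -/
def dist1 (x y : V) : ℝ := |(x.1 : ℝ) - y.1| + |(x.2 : ℝ) - y.2|

end Vale.Agent.P158.Gen
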