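import Vale.Agent.P158.Gen.MainMeas

/-!
The expectation of the bound of the count and the configurations with long clusters.
-/

open MeasureTheory Filter Topology
open scoped ENNReal

namespace Vale.Agent.P158.Gen

open Vale.Agent.P158

/-- The cycle around the box has linearly many edges. -/
theorem card_cycE (R : ℕ) : (cycE R).card ≤ 16 * (R + 1) := by
  classical
  set S : Finset V := ({-(R : ℤ), (R : ℤ)} ×ˢ Finset.Icc (-(R : ℤ)) R) ∪
    (Finset.Icc (-(R : ℤ)) R ×ˢ {-(R : ℤ), (R : ℤ)}) with hS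
  have hsub : cycE R ⊆ S ×ˢ (Finset.univ : Finset Bool) := by
    intro e he
    simp only [cycE, Finset.mem_filter, Finset.mem_product] at he
    obtain ⟨-, ⟨⟨h1, h2, h3, h4⟩, h5⟩, -⟩ := he
    change -(R : ℤ) ≤ e.1.1 at h1
    change e.1.1 ≤ (R : ℤ) at h2
    change -(R : ℤ) ≤ e.1.2 at h3
    change e.1.2 ≤ (R : ℤ) at h4
    change e.1.2 = -(R : ℤ) ∨ e.1.1 = R ∨ e.1.2 = R ∨ e.1.1 = -(R : ℤ) at h5
    simp only [hS, Finset.mem_product, Finset.mem_univ, and_true, Finset.mem_union,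
      Finset.mem_insert, Finset.mem_singleton, Finset.mem_Icc]
    rcases h5 with h | h | h | h
    exacts [Or.inr ⟨⟨h1, h2⟩, Or.inl h⟩, Or.inl ⟨Or.inr h, h3, h4⟩, Or.inr ⟨⟨h1, h2⟩, Or.inr h⟩,
      Or.inl ⟨Or.inl h, h3, h4⟩]
  have hI : (Finset.Icc (-(R : ℤ)) R).card = 2 * R + 1 := by rw [Int.card_Icc]; omega
  have hp : ({-(R : ℤ), (R : ℤ)} : Finset ℤ).card ≤ 2 := Finset.card_le_two
  have hS' : S.card ≤ 2 * (2 * R + 1) + (2 * R + 1) * 2 := by
    refine (Finset.card_union_le _ _).trans (add_le_add ?_ ?_) <;> rw [Finset.card_product, hI]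
    · exact Nat.mul_le_mul_right _ hp
    · exact Nat.mul_le_mul_left _ hp
  refine (Finset.card_le_card hsub).trans ?_
  rw [Finset.card_product, Finset.card_univ, Fintype.card_bool]
  omega

/-- The level of lowering is nonnegative on tame configurations. -/
theorem capY_nonneg {m : ℝ} (hm : 0 ≤ m) {t : Conf} (ht : Tame m t) (e : Edge) :
    0 ≤ capY m t e := by
  rw [capY, if_pos (ht.fin e)]
  positivity

/-- The bound of the count has linear expectation in the radius. -/
theorem integral_cycE_le {G : Measure ℝ} [IsProbabilityMeasure G] {m κ AY : ℝ}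
    (hSL : ShieldLaw m G κ AY) (R : ℕ) (a : ℝ) :
    Integrable (fun t => 100000 * ∑ e ∈ cycE R, (capY m t e + 1) + a) (law G) ∧
      ∫ t, (100000 * ∑ e ∈ cycE R, (capY m t e + 1) + a) ∂law G ≤
        1600000 * (|AY| + 1) * ((R : ℝ) + 1) + a := by
  haveI : IsProbabilityMeasure (law G) := by unfold law; infer_instance
  have hi : ∀ e ∈ cycE R, Integrable (fun t => capY m t e + 1) (law G) := fun e _ =>
    (hSL.int_capY e).add (integrable_const 1)
  have hs := (integrable_finset_sum (cycE R) hi).const_mul (100000 : ℝ)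
  refine ⟨hs.add (integrable_const a), ?_⟩
  rw [integral_add hs (integrable_const a), integral_const, probReal_univ, one_smul,
    integral_const_mul, integral_finset_sum _ hi]
  have h1 : ∑ e ∈ cycE R, ∫ t, (capY m t e + 1) ∂law G ≤
      (cycE R).card • (|AY| + 1) := by
    refine Finset.sum_le_card_nsmul _ _ _ fun e _ => ?_
    rw [integral_add (hSL.int_capY e) (integrable_const 1), integral_const, probReal_univ, one_smul]
    linarith [hSL.mean_capY e, le_abs_self AY]
  rw [nsmul_eq_mul] at h1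
  have h2 : ((cycE R).card : ℝ) ≤ 16 * ((R : ℝ) + 1) := by exact_mod_cast card_cycE R
  have h3 := mul_le_mul_of_nonneg_right h2 (show 0 ≤ |AY| + 1 by positivity)
  linarith

/-- A cubic polynomial grows slower than powers of four. -/
theorem cube_le_four_pow (H : ℕ) : ((H : ℝ) + 1) ^ 3 ≤ 8 * 4 ^ H := by
  induction H with
  | zero => norm_num
  | succ n ih =>
    rcases Nat.eq_zero_or_pos n with rfl | hn
    · norm_num
    have h1 : (1 : ℝ) ≤ n := by exact_mod_cast hn
    have h2 : ((n : ℝ) + 1 + 1) ^ 3 ≤ 4 * ((n : ℝ) + 1) ^ 3 := by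
      have := pow_le_pow_left₀ (by positivity) (show (n : ℝ) + 1 + 1 ≤ 3 / 2 * ((n : ℝ) + 1) by
        linarith) 3
      nlinarith [pow_pos (show (0 : ℝ) < (n : ℝ) + 1 by positivity) 3]
    push_cast
    rw [pow_succ (4 : ℝ)]
    linarith [mul_le_mul_of_nonneg_left ih (show (0 : ℝ) ≤ 4 by norm_num)]

/-- Long clusters around linearly many blocks are negligible. -/
theorem blocks_not_stay {G : Measure ℝ} {m κ AY : ℝ} (hSL : ShieldLaw m G κ AY)
    (Lam W H : ℕ) (hH : 3 ≤ H) {c : ℝ} (hc : c ≤ 3 * H) :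
    c * (law G).real {t | ¬ Stay m (H + Lam + 1) (3 * H + Lam + W) t} ≤
      768000 * ((Lam : ℝ) + 2) ^ 2 := by
  have h1 := hSL.stay (H + Lam + 1) (3 * H + Lam + W) (by omega)
  have h2 : (law G).real {t | ¬ Stay m (H + Lam + 1) (3 * H + Lam + W) t} ≤
      1000 * ((H : ℝ) + Lam + 2) ^ 2 * (1 / 2) ^ (2 * H + W - 5) := by
    refine ENNReal.toReal_le_of_le_ofReal (by positivity) (h1.trans (le_of_eq ?_))
    rw [show 3 * H + Lam + W - (H + Lam + 1) - 4 = 2 * H + W - 5 by omega]
    push_cast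
    ring_nf
  refine (mul_le_mul_of_nonneg_right hc measureReal_nonneg).trans ?_
  refine (mul_le_mul_of_nonneg_left h2 (by positivity)).trans ?_
  have h3 : ((1 : ℝ) / 2) ^ (2 * H + W - 5) ≤ 32 * (1 / 4) ^ H := by
    calc ((1 : ℝ) / 2) ^ (2 * H + W - 5) ≤ (1 / 2) ^ (2 * H - 5) :=
          pow_le_pow_of_le_one (by norm_num) (by norm_num) (by omega)
      _ = 32 * ((1 / 2) ^ (2 * H - 5) * (1 / 2) ^ 5) := by ring
      _ = 32 * (1 / 2) ^ (2 * H) := by rw [← pow_add, Nat.sub_add_cancel (by omega)]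
      _ = _ := by rw [pow_mul]; norm_num
  have h4 : (H : ℝ) + Lam + 2 ≤ ((H : ℝ) + 1) * ((Lam : ℝ) + 2) := by
    nlinarith [Nat.cast_nonneg (α := ℝ) H, Nat.cast_nonneg (α := ℝ) Lam]
  calc 3 * (H : ℝ) * (1000 * ((H : ℝ) + Lam + 2) ^ 2 * (1 / 2) ^ (2 * H + W - 5))
      ≤ 3 * ((H : ℝ) + 1) * (1000 * (((H : ℝ) + 1) * ((Lam : ℝ) + 2)) ^ 2 *
          (32 * (1 / 4) ^ H)) := by gcongr; linarith
    _ = 96000 * ((Lam : ℝ) + 2) ^ 2 * (((H : ℝ) + 1) ^ 3 * (1 / 4) ^ H) := by ring
    _ ≤ 96000 * ((Lam : ℝ) + 2) ^ 2 * 8 := by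
        refine mul_le_mul_of_nonneg_left ?_ (by positivity)
        rw [one_div_pow, mul_one_div, div_le_iff₀ (by positivity)]
        exact cube_le_four_pow H
    _ = _ := by ring

/-- Each level of a certificate count is controlled by the largest certificate; outside a
negligible event the largest certificates obey a random bound, and there are at most `d` of them
in each block. -/
theorem sum_cert_leG {Ω : Type*} [MeasurableSpace Ω] {μ : Measure Ω} [IsProbabilityMeasure μ]
    (Z : ℕ → ℤ → ℕ → Set Ω) (hZ : ∀ u j n, NullMeasurableSet (Z u j n) μ) {GS : Set Ω}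
    (hGS : ∀ᵐ t ∂μ, t ∈ GS) (U : Finset ℕ) (J : Finset ℤ) (d : ℕ) {g : ℝ} (hg : 0 < g)
    {rhs : Ω → ℝ} (hint : Integrable rhs μ) (h0 : ∀ t ∈ GS, 0 ≤ rhs t) (E : Set Ω)
    (hdet : ∀ t ∈ GS, t ∉ E → ∀ n : ℕ → ℤ → ℕ,
      (∀ u ∈ U, ∀ j ∈ J, 0 < n u j → t ∈ Z u j (n u j)) →
      g * ∑ u ∈ U, ∑ j ∈ J, (n u j : ℝ) ≤ rhs t) :
    ∑ u ∈ U, ∑ j ∈ J, ∑ n ∈ Finset.Icc 1 d, μ.real (Z u j ((n + 1) / 2)) ≤
      2 * ((∫ t, rhs t ∂μ) / g + (U.card : ℝ) * J.card * d * μ.real E) := by
  classical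
  set nb : ℕ → ℤ → Ω → ℕ := fun u j t =>
    ((Finset.Icc 1 d).filter fun n => t ∈ Z u j n).sup id with hnb
  have hnbd : ∀ u j t, nb u j t ≤ d := fun u j t => Finset.sup_le fun n hn =>
    (Finset.mem_Icc.1 (Finset.mem_filter.1 hn).1).2
  have hnb_mem : ∀ u j t, 0 < nb u j t → t ∈ Z u j (nb u j t) := fun u j t hpos => by
    obtain ⟨n, hn, hn'⟩ := Finset.exists_mem_eq_sup ((Finset.Icc 1 d).filter fun n => t ∈ Z u j n)
      (by
        by_contra hne
        rw [Finset.not_nonempty_iff_eq_empty] at hne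
        simp [hnb, hne] at hpos) id
    have : nb u j t = n := hn'
    rw [this]
    exact (Finset.mem_filter.1 hn).2
  set E' := toMeasurable μ E with hE'
  set K : ℝ := (U.card : ℝ) * J.card * d with hK
  have hpt : ∀ t ∈ GS, ∑ u ∈ U, ∑ j ∈ J, ∑ n ∈ Finset.Icc 1 d,
      (Z u j ((n + 1) / 2)).indicator (fun _ => (1 : ℝ)) t ≤
        2 * (rhs t / g + K * E'.indicator (fun _ => (1 : ℝ)) t) := by
    intro t ht
    have hle : ∑ u ∈ U, ∑ j ∈ J, ∑ n ∈ Finset.Icc 1 d,
        (Z u j ((n + 1) / 2)).indicator (fun _ => (1 : ℝ)) t ≤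
          2 * ∑ u ∈ U, ∑ j ∈ J, (nb u j t : ℝ) := by
      rw [Finset.mul_sum]
      refine Finset.sum_le_sum fun u _ => ?_
      rw [Finset.mul_sum]
      refine Finset.sum_le_sum fun j _ => le_trans (Finset.sum_le_sum fun n hn => ?_)
        (sum_Icc_half_le (nb u j t) d)
      by_cases hz : t ∈ Z u j ((n + 1) / 2)
      · rw [Set.indicator_of_mem hz, if_pos]
        rw [Finset.mem_Icc] at hn
        exact Finset.le_sup (f := id)
          (Finset.mem_filter.2 ⟨Finset.mem_Icc.2 ⟨by omega, by omega⟩, hz⟩)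
      · rw [Set.indicator_of_notMem hz]; split_ifs <;> simp
    refine hle.trans (mul_le_mul_of_nonneg_left ?_ zero_le_two)
    by_cases hE : t ∈ E
    · rw [Set.indicator_of_mem (subset_toMeasurable μ E hE), mul_one]
      refine le_trans ?_ (le_add_of_nonneg_left (div_nonneg (h0 t ht) hg.le))
      calc ∑ u ∈ U, ∑ j ∈ J, (nb u j t : ℝ) ≤ ∑ u ∈ U, ∑ j ∈ J, (d : ℝ) :=
            Finset.sum_le_sum fun u _ => Finset.sum_le_sum fun j _ => by exact_mod_cast hnbd u j t
        _ = K := by simp [hK, mul_assoc]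
    · refine le_trans ?_ (le_add_of_nonneg_right (mul_nonneg (by positivity)
        (Set.indicator_nonneg (fun _ _ => zero_le_one) t)))
      rw [le_div_iff₀ hg, mul_comm]
      exact hdet t ht hE (fun u j => nb u j t) fun u _ j _ hpos => hnb_mem u j t hpos
  have hi : ∀ u j n, Integrable ((Z u j n).indicator fun _ => (1 : ℝ)) μ := fun u j n =>
    (integrable_const 1).indicator₀ (hZ u j n)
  have hiE : Integrable (E'.indicator fun _ => (1 : ℝ)) μ :=
    (integrable_const 1).indicator (measurableSet_toMeasurable μ E)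
  have hmono := integral_mono_ae
    (integrable_finset_sum U fun u _ => integrable_finset_sum J fun j _ =>
      integrable_finset_sum (Finset.Icc 1 d) fun n _ => hi u j ((n + 1) / 2))
    (((hint.div_const g).add (hiE.const_mul K)).const_mul 2) (hGS.mono fun t ht => hpt t ht)
  simp only [Pi.add_apply] at hmono
  rw [integral_const_mul, integral_add (hint.div_const g) (hiE.const_mul K), integral_div,
    integral_const_mul, integral_indicator (measurableSet_toMeasurable μ E), setIntegral_const,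
    smul_eq_mul, mul_one, measureReal_def, measure_toMeasurable, ← measureReal_def] at hmono
  refine le_trans (le_of_eq ?_) hmono
  rw [integral_finset_sum U fun u _ => integrable_finset_sum J fun j _ =>
    integrable_finset_sum _ fun n _ => hi u j ((n + 1) / 2)]
  refine Finset.sum_congr rfl fun u _ => ?_
  rw [integral_finset_sum J fun j _ => integrable_finset_sum _ fun n _ => hi u j ((n + 1) / 2)]
  refine Finset.sum_congr rfl fun j _ => ?_
  rw [integral_finset_sum _ fun n _ => hi u j ((n + 1) / 2)]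
  refine Finset.sum_congr rfl fun n _ => ?_
  rw [integral_indicator₀ (hZ _ _ _), setIntegral_const, smul_eq_mul, mul_one]

end Vale.Agent.P158.Gen
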