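import Vale.Agent.P158.Gen.MainBlock
import Vale.Agent.P158.Gen.MainCount

/-!
Assembly of the statement for all bigeodesics and all atomless laws from the supply of sites, the
probability of a block and the deterministic count.
-/

open MeasureTheory Filter Topology
open scoped ENNReal

namespace Vale.Agent.P158.Gen

open Vale.Agent.P158

/-- Finitely many eventual properties hold at one radius. -/
theorem exists_radius {ι κ μ : Type*} (K : Finset ι) (U : Finset κ) (N : Finset μ)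
    {p : ι → κ → μ → ℕ → ℕ → Prop}
    (h : ∀ k ∈ K, ∀ u ∈ U, ∀ n ∈ N, ∀ᶠ W in atTop, ∀ᶠ M in atTop, p k u n W M) :
    ∃ W, ∀ k ∈ K, ∀ᶠ M in atTop, ∀ u ∈ U, ∀ n ∈ N, p k u n W M :=
  (((eventually_all_finset K).2 fun k hk =>
    ((eventually_all_finset U).2 fun u hu =>
      (eventually_all_finset N).2 fun n hn => h k hk u hu n hn).mono fun _ hW =>
      (eventually_all_finset U).2 fun u hu => (eventually_all_finset N).2 (hW u hu))).exists

/-- The bound from one range of blocks. -/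
theorem range_boundG {G : Measure ℝ} {m κ AY : ℝ} [IsProbabilityMeasure G]
    [IsProbabilityMeasure (law G)] (hm : 0 ≤ m) (hSL : ShieldLaw m G κ AY) {GS : Set Conf}
    (hGSm : MeasurableSet GS) (hGS : ∀ᵐ t ∂law G, t ∈ GS) (hUse : Usable m κ GS)
    (hinv : ∀ (v : V) (t : Conf), t ∈ GS → shift v t ∈ GS) (hcount : CountProp2G m κ)
    (P : SiteP) (B : BlockP) {k : ℤ} (hk : k = 0 ∨ k = 1) {C : ℝ} (U : Finset ℕ) (s : ℕ → ℝ)
    (c : ℕ → ℤ) (hδ : 0 < P.δ) (hg : 0 < B.g) (hε : 0 < P.ε) (hε1 : P.ε ≤ 1) (hC : 1 ≤ C)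
    (hw : P.ε * P.L ≤ P.w)
    (hU : ∀ u ∈ U, |s u| ≤ C ∧ |c u| + P.L < (P.Lam : ℤ))
    (hsep : ∀ u ∈ U, ∀ v ∈ U, u < v → 6 * P.ε ≤ s v - s u ∧
      (10 * C + 20) * P.L + 20 * P.w + 10 * B.d ≤ P.ε * ((c v : ℝ) - c u))
    {D : ℕ} (hD : (B.d : ℝ) + 6 * P.w + 3 < D) {h₀ : ℕ}
    (hh₀ : (B.d : ℝ) + 6 * P.w + 8 * (C + 2) * P.Lam + P.R' + 2 ≤ h₀)
    (hh₀3 : 3 ≤ h₀) (hG₀ : 2 * B.g < B.G₀)
    {nU : ℕ} (hUm : U.card ≤ nU) {lam e c₁ : ℝ} (hlam : 0 < lam) (he : 0 ≤ e)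
    (hme : (nU : ℝ) * e ≤ c₁ / 4)
    (J₀ N : ℕ) (hNev : ∀ u ∈ U, ∀ n ∈ Finset.Icc 1 B.d,
      (law G).real {t | n ≤ {y : ℤ | 0 ≤ y ∧ y < (B.d : ℤ) ∧
          t ∈ siteEvent2 { P with N := N } k (c u) (s u) y}.ncard} / 2 ≤
        lam * (law G).real (blockEvent2G { P with N := N } B GS k (c u) (s u) 0 ((n + 1) / 2)) + e)
    (hmass : ∀ y ∈ Finset.Ico (0 : ℤ) B.d,
      c₁ ≤ ∑ u ∈ U, (law G).real (siteEvent2 { P with N := N } k (c u) (s u) y))
    (hN : ⌈8 * (C + 2) * ((P.Lam : ℝ) + P.R' + 2) + 2 * B.d + 2 * P.w + 5⌉₊ +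
      6 * (J₀ * D + h₀) ≤ N) :
    B.g * B.d * c₁ / (8 * lam) * (2 * J₀ + 1) ≤
      1600000 * (|AY| + 1) * ((3 * (J₀ * D + h₀) + P.Lam + B.W + 2 : ℕ) + 1) + 100 * B.g +
        B.g * nU * B.d * (768000 * ((P.Lam : ℝ) + 2) ^ 2) := by
  classical
  have hk1 : |k| ≤ 1 := by rcases hk with rfl | rfl <;> simp
  set H : ℕ := J₀ * D + h₀ with hH
  set N₁ : ℕ := ⌈8 * (C + 2) * ((P.Lam : ℝ) + P.R' + 2) + 2 * B.d + 2 * P.w + 5⌉₊ + 5 * H with hN₁
  set J := Finset.Icc (-(J₀ : ℤ)) J₀ with hJ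
  set B' : BlockP := { B with W := B.W + H } with hB'
  set Z : ℕ → ℤ → ℕ → Set Conf := fun u j n =>
    blockEvent2G { P with N := N₁ } B' GS k (c u) (s u) (j * D) n with hZ
  have hjH : ∀ j ∈ J, |j * (D : ℤ)| + h₀ ≤ (H : ℤ) := fun j hj => by
    rw [hJ, Finset.mem_Icc] at hj
    rw [abs_mul, Nat.abs_cast, hH]
    have := mul_le_mul_of_nonneg_right (abs_le.2 hj) (Int.natCast_nonneg D)
    push_cast; linarith
  have e4 := Nat.le_ceil (8 * (C + 2) * ((P.Lam : ℝ) + P.R' + 2) + 2 * B.d + 2 * P.w + 5)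
  have hd0 : (0 : ℝ) ≤ B.d := Nat.cast_nonneg _
  have hw0 : 0 ≤ P.w := le_trans (by positivity) hw
  set R := countRad { P with N := N₁ } B' H with hR
  set Err : Set Conf := {t | ¬ Stay m (H + P.Lam + 1) (R - 2) t} with hErr
  obtain ⟨hrint, hrmean⟩ := integral_cycE_le hSL R (100 * B.g)
  have hint : ∑ u ∈ U, ∑ j ∈ J, ∑ n ∈ Finset.Icc 1 B.d, (law G).real (Z u j ((n + 1) / 2)) ≤
      2 * ((∫ t, (100000 * ∑ e ∈ cycE R, (capY m t e + 1) + 100 * B.g) ∂law G) / B.g +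
        (U.card : ℝ) * J.card * B.d * (law G).real Err) := by
    refine sum_cert_leG Z (fun u j n => nullMeasurableSet_blockEvent2G _ _ hGSm _ _ _ _ _ _) hGS
      U J B.d hg hrint (fun t ht => ?_) Err fun t ht hE nn hnn => ?_
    · refine add_nonneg (mul_nonneg (by norm_num) (Finset.sum_nonneg fun e _ => ?_)) (by positivity)
      linarith [capY_nonneg hm (hUse t ht).1 e]
    refine hcount GS hUse { P with N := N₁ } B' k hk hδ hg C hε hε1 hC hw hG₀ U s c hU hsep D hD J H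
      (fun j hj => ?_) ?_ ht (not_not.1 hE) nn hnn
    · show (|j * (D : ℤ)| : ℝ) + B.d + 6 * P.w + 8 * (C + 2) * P.Lam + P.R' + 2 ≤ H
      have h1 : ((|j * (D : ℤ)| + h₀ : ℤ) : ℝ) ≤ ((H : ℤ) : ℝ) := by exact_mod_cast hjH j hj
      push_cast at h1 ⊢
      linarith
    · show 8 * (C + 2) * (P.Lam : ℝ) + 4 * H ≤ (N₁ : ℝ)
      rw [hN₁]; push_cast
      have h2 : 0 ≤ 8 * (C + 2) * ((P.R' : ℝ) + 2) := by positivity
      linarith [Nat.cast_nonneg (α := ℝ) H]
  have hone : ∀ j ∈ J, c₁ * B.d / (4 * lam) ≤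
      ∑ u ∈ U, ∑ n ∈ Finset.Icc 1 B.d, (law G).real (Z u j ((n + 1) / 2)) := by
    intro j hj
    refine block_mass_ge U B.d hUm
      (fun u y => (law G).real (siteEvent2 { P with N := N } k (c u) (s u) y)) _ hlam he hme
      (fun u hu => ?_) hmass
    have h1 := sum_real_ge (μ := law G) (Finset.Ico (0 : ℤ) B.d)
      (fun y => siteEvent2 { P with N := N } k (c u) (s u) y) fun y => nullMeasurableSet_siteEvent2 _ _ _ _ _ _
    simp only [Int.card_Ico, sub_zero, Int.toNat_natCast] at h1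
    refine (div_le_div_of_nonneg_right h1 zero_le_two).trans ?_
    rw [Finset.sum_div, Finset.mul_sum, show (B.d : ℝ) * e = ∑ n ∈ Finset.Icc 1 B.d, e by simp,
      ← Finset.sum_add_distrib]
    refine Finset.sum_le_sum fun n hn => ?_
    have h2 := hNev u hu n hn
    simp only [Finset.mem_Ico, and_assoc]
    have h3 : (law G).real (blockEvent2G { P with N := N } B GS k (c u) (s u) 0 ((n + 1) / 2)) ≤
        (law G).real (Z u j ((n + 1) / 2)) := by
      rw [Measure.real, Measure.real]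
      refine ENNReal.toReal_mono (measure_ne_top _ _) ?_
      rw [← law_shift_preimage (G := G) (pt k 0 (j * D))]
      have := hjH j hj
      refine measure_mono (blockEvent2G_translate (P := { P with N := N }) hinv hk1
        (N' := N₁) (W' := B.W + H) ?_ ?_ ?_)
      · show (N₁ : ℤ) + |j * (D : ℤ)| ≤ (N : ℤ)
        omega
      · push_cast; omega
      · show 2 * (|s u| + P.ε + 1) * ((P.Lam : ℝ) + P.R' + |(c u : ℝ)| + 2) + 2 * (B.d : ℝ) +
          2 * P.w + 4 + |((j * D : ℤ) : ℝ)| + 1 ≤ (N₁ : ℝ)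
        have e1 : |((j * D : ℤ) : ℝ)| ≤ (H : ℝ) := by
          rw [← Int.cast_abs]
          exact_mod_cast (show |j * (D : ℤ)| ≤ (H : ℤ) by omega)
        obtain ⟨e3, e2'⟩ := hU u hu
        have e2 : |(c u : ℝ)| ≤ (P.Lam : ℝ) := by
          rw [← Int.cast_abs]
          exact_mod_cast (show |c u| ≤ (P.Lam : ℤ) by omega)
        rw [hN₁]; push_cast at e1 ⊢
        have e5 : 2 * (|s u| + P.ε + 1) * ((P.Lam : ℝ) + P.R' + |(c u : ℝ)| + 2) ≤
            2 * (C + 2) * (2 * ((P.Lam : ℝ) + P.R' + 2)) := by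
          refine mul_le_mul (by linarith) ?_ (by positivity) (by positivity)
          linarith [Nat.cast_nonneg (α := ℝ) P.R']
        have e6 : 0 ≤ (C + 2) * ((P.Lam : ℝ) + P.R' + 2) := by positivity
        linarith [Nat.cast_nonneg (α := ℝ) H]
    linarith [mul_le_mul_of_nonneg_left h3 hlam.le]
  have hJc : (J.card : ℝ) = 2 * J₀ + 1 := by
    rw [hJ, Int.card_Icc, show ((J₀ : ℤ) + 1 - -(J₀ : ℤ)).toNat = 2 * J₀ + 1 by omega]
    push_cast; rfl
  have hDpos : 1 ≤ D := by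
    have : (0 : ℝ) < D := by linarith
    exact_mod_cast this
  have hJH : (J.card : ℝ) ≤ 3 * H := by
    rw [hJc]
    exact_mod_cast (show 2 * J₀ + 1 ≤ 3 * H by
      have := Nat.le_mul_of_pos_right J₀ hDpos
      omega)
  have hRH : R = 3 * H + P.Lam + B.W + 2 := by
    rw [hR, countRad, hB']; ring
  have herr : (J.card : ℝ) * (law G).real Err ≤ 768000 * ((P.Lam : ℝ) + 2) ^ 2 := by
    rw [hErr, hRH, Nat.add_sub_cancel]
    exact blocks_not_stay hSL _ _ _ (by omega) hJH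
  have htot : (2 * (J₀ : ℝ) + 1) * (c₁ * B.d / (4 * lam)) ≤
      2 * ((∫ t, (100000 * ∑ e ∈ cycE R, (capY m t e + 1) + 100 * B.g) ∂law G) / B.g +
        (U.card : ℝ) * J.card * B.d * (law G).real Err) := by
    refine le_trans ?_ hint
    rw [Finset.sum_comm, ← hJc, ← nsmul_eq_mul, ← Finset.sum_const]
    exact Finset.sum_le_sum hone
  have h1 := mul_le_mul_of_nonneg_left htot (show 0 ≤ B.g / 2 by positivity)
  have e' : ∀ I E : ℝ, B.g / 2 * (2 * (I / B.g + E)) = I + B.g * E := fun I E => by field_simp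
  rw [e'] at h1
  have h2 : (U.card : ℝ) * J.card * B.d * (law G).real Err ≤
      (nU : ℝ) * B.d * (768000 * ((P.Lam : ℝ) + 2) ^ 2) := by
    calc (U.card : ℝ) * J.card * B.d * (law G).real Err
        = ((U.card : ℝ) * B.d) * ((J.card : ℝ) * (law G).real Err) := by ring
      _ ≤ _ := mul_le_mul (mul_le_mul_of_nonneg_right (by exact_mod_cast hUm) hd0) herr
          (by positivity) (by positivity)
  rw [hRH] at hrmean h1
  have h3 : B.g * B.d * c₁ / (8 * lam) * (2 * J₀ + 1) =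
      B.g / 2 * ((2 * (J₀ : ℝ) + 1) * (c₁ * B.d / (4 * lam))) := by ring
  have h4 := mul_le_mul_of_nonneg_left h2 hg.le
  linarith


/-- No bigeodesic from the parts of the main argument. -/
theorem noBigeodesic_of_partsG {G : Measure ℝ} (hG : LawGen G) {m κ AY : ℝ} (hm : 0 < m)
    (hSL : ShieldLaw m G κ AY) {GS : Set Conf} (hGSm : MeasurableSet GS)
    (hGS : ∀ᵐ t ∂law G, t ∈ GS) (hUse : Usable m κ GS) (hsep : SepSites GS)
    (hinv : ∀ (v : V) (t : Conf), t ∈ GS → shift v t ∈ GS) (hmass : MassProp G)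
    (hcount : CountProp2G m κ) : NoBigeodesic G := by
  classical
  haveI := hG.prob
  haveI : IsProbabilityMeasure (law G) := by unfold law; infer_instance
  set M : ℝ := |AY| + 1 with hMdef
  have hM : 0 ≤ M := by positivity
  by_contra hno
  obtain ⟨C, r₀, r, δ, c₁, R, R', hC, hrr, hp0, hδ, hc₁, hmain⟩ := hmass hno
  set p := G.real (Set.Iio r₀) with hpdef
  have hp : 0 < p := ENNReal.toReal_pos hp0.ne' (measure_ne_top _ _)
  have hden : 0 < (r - r₀) * p * c₁ := by have := sub_pos.2 hrr; positivity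
  set lam := Real.exp 4 with hlam
  have hlam0 : 0 < lam := Real.exp_pos _
  obtain ⟨ε, q, A, hε, hε1, hq2, hA0, hA84, hAp, hAT, hmle, hEm⟩ :=
    exists_tolerance (T := 700000000 * M * lam / ((r - r₀) * p * c₁)) hC hc₁ hp (by positivity)
  set nU : ℕ := ⌈C / ε⌉₊ + 1 with hnU
  set C' := C + 5 with hC'
  have hn0 : (0 : ℝ) < nU := by rw [hnU]; positivity
  set K₀ : ℕ := ⌈(10 * C' + 70) / ε⌉₊ + 2 with hK₀
  have hK : 10 * C' + 70 ≤ ε * (K₀ : ℝ) := by
    have : (10 * C' + 70) / ε ≤ (K₀ : ℝ) := by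
      rw [hK₀]; push_cast
      linarith [Nat.le_ceil ((10 * C' + 70) / ε)]
    rw [div_le_iff₀ hε] at this; linarith
  obtain ⟨L, hev, hL1, hL2⟩ := ((hmain ε hε hε1 K₀ (by omega)).and
    ((eventually_ge_atTop (⌈(q : ℝ) * A⌉₊ + 2)).and (eventually_ge_atTop (⌈10 / ε⌉₊ + 1)))).exists
  have hLpos : 0 < (L : ℝ) := by exact_mod_cast (show 0 < L by omega)
  have hεL : 10 ≤ ε * L := by
    have : 10 / ε ≤ (L : ℝ) := (Nat.le_ceil _).trans (by exact_mod_cast (show ⌈10 / ε⌉₊ ≤ L by omega))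
    rw [div_le_iff₀ hε] at this; linarith
  have hη1 : A / L ≤ 1 ∧ (q : ℝ) * (A / L) ≤ 1 := by
    have hqA : (q : ℝ) * A ≤ L :=
      (Nat.le_ceil _).trans (by exact_mod_cast (show ⌈(q : ℝ) * A⌉₊ ≤ L by omega))
    have h2 : (q : ℝ) * (A / L) ≤ 1 := by
      rw [← mul_div_assoc, div_le_one hLpos]; exact hqA
    refine ⟨le_trans (le_mul_of_one_le_left (by positivity) ?_) h2, h2⟩
    exact_mod_cast (show 1 ≤ q by omega)
  set d : ℕ := ⌈ε * L⌉₊ with hd
  have hd1 : ε * L ≤ (d : ℝ) := Nat.le_ceil _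
  have hd2 : (d : ℝ) ≤ ε * L + 1 := (Nat.ceil_lt_add_one (by positivity)).le
  set g : ℝ := (r - r₀) * p * A / 4 with hg
  have hg0 : 0 < g := by have := sub_pos.2 hrr; positivity
  set G₀ : ℝ := 2 * g + 1 with hG₀
  set P : ℕ → SiteP := fun N => runP R R' δ r ε K₀ nU L N with hP
  have hE0 : 0 ≤ Real.exp (q : ℝ) / lam ^ (q - 1) := by positivity
  set e : ℝ := Real.exp (q : ℝ) / lam ^ (q - 1) + c₁ / (8 * nU) with he
  have hgrowth : (1 + (q : ℝ) ^ 2 * (A / L) ^ 2) ^ regCard L d (ε * L) / lam ^ (q - 1) ≤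
      Real.exp (q : ℝ) / lam ^ (q - 1) := by
    gcongr
    exact tilt_growth_le hε (by exact_mod_cast (show 2 ≤ L by omega)) hεL hd2 hA84
  -- one witness radius for the finitely many blocks
  obtain ⟨W, hW⟩ := exists_radius ({0, 1} : Finset ℤ) (Finset.range nU) (Finset.Icc 1 d)
    (p := fun k u n W N => (law G).real {t | n ≤ {y : ℤ | 0 ≤ y ∧ y < (d : ℤ) ∧
        t ∈ siteEvent2 { P 0 with N := N } k (stripLev K₀ L u) (slopeGrid C ε u) y}.ncard} / 2 ≤
      lam * (law G).real (blockEvent2G { P 0 with N := N } ⟨d, W, G₀, g⟩ GS k (stripLev K₀ L u)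
        (slopeGrid C ε u) 0 ((n + 1) / 2)) + e) fun k hk u _ n _ => by
    have hk' : k = 0 ∨ k = 1 := by simpa using hk
    refine (blockG_real hG.noAtoms hGS (fun t ht => (hUse t ht).2.1.good.nonneg) hsep (P 0) k
      (stripLev K₀ L u) (slopeGrid C ε u) d r₀ (A / L) q hk' hδ ?_ le_rfl hrr (by positivity)
      hη1.1 hq2 hη1.2 ?_ g G₀ ?_ hlam0 n (β := c₁ / (8 * nU)) (by positivity)).mono fun W hW => hW.mono fun N hN => hN.trans ?_
    · show 0 ≤ ε * (L : ℝ)
      positivity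
    · show 1000 ≤ A / L * p * (L : ℝ)
      rw [show A / L * p * (L : ℝ) = A * p by field_simp]
      rw [div_lt_iff₀ hp] at hAp; linarith
    · show g ≤ (r - r₀) * (A / L) * p * (L : ℝ) / 4
      rw [show (r - r₀) * (A / L) * p * (L : ℝ) / 4 = g by rw [hg]; field_simp]
    · show _ + (1 + (q : ℝ) ^ 2 * (A / L) ^ 2) ^ regCard L d (ε * L) / lam ^ (q - 1) + _ ≤ _
      rw [he]
      linarith
  set D : ℕ := d + ⌈6 * (ε * L)⌉₊ + 4 with hD
  have hD1 : (d : ℝ) + 6 * (ε * L) + 3 < D := by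
    rw [hD]; push_cast; linarith [Nat.le_ceil (6 * (ε * L))]
  have hD2 : (D : ℝ) ≤ 9 * (ε * L) := by
    rw [hD]; push_cast
    linarith [(Nat.ceil_lt_add_one (show 0 ≤ 6 * (ε * L) by positivity)).le]
  set h₀ : ℕ := ⌈(d : ℝ) + 6 * (ε * L) + 8 * (C' + 2) * (P 0).Lam + R' + 2⌉₊ with hh₀
  have hh₀3 : 3 ≤ h₀ := by
    have h1 : (10 : ℝ) ≤ d := hεL.trans hd1
    have h1' : 0 ≤ ε * L := by positivity
    have h2 : 0 ≤ 8 * (C' + 2) * ((P 0).Lam : ℝ) := by
      rw [hC']; positivity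
    have h3 : (3 : ℝ) ≤ h₀ := le_trans (by linarith [Nat.cast_nonneg (α := ℝ) R']) (Nat.le_ceil _)
    exact_mod_cast h3
  have hlin : ∀ J₀ : ℕ, g * d * c₁ / (8 * lam) * (2 * J₀ + 1) ≤ 4800000 * M * D * J₀ +
      (1600000 * M * (3 * h₀ + (P 0).Lam + W + 3) + 100 * g +
        g * nU * d * (768000 * (((P 0).Lam : ℝ) + 2) ^ 2)) := by
    intro J₀
    have hW' : ∀ᶠ N : ℕ in atTop, ∀ k ∈ ({0, 1} : Finset ℤ), ∀ u ∈ Finset.range nU,
        ∀ n ∈ Finset.Icc 1 d,
        (law G).real {t | n ≤ {y : ℤ | 0 ≤ y ∧ y < (d : ℤ) ∧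
            t ∈ siteEvent2 { P 0 with N := N } k (stripLev K₀ L u) (slopeGrid C ε u) y}.ncard} / 2 ≤
          lam * (law G).real (blockEvent2G { P 0 with N := N } ⟨d, W, G₀, g⟩ GS k (stripLev K₀ L u)
            (slopeGrid C ε u) 0 ((n + 1) / 2)) + e := by
      rw [eventually_all_finset]; exact hW
    obtain ⟨N, ⟨k, hk, a, -, hsum⟩, hNb, hNge⟩ := (hev.and (hW'.and (eventually_ge_atTop
      (⌈8 * (C' + 2) * (((P 0).Lam : ℝ) + R' + 2) + 2 * d + 2 * (ε * L) + 5⌉₊ +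
        6 * (J₀ * D + h₀) + 4 * d)))).exists
    have hkmem : k ∈ ({0, 1} : Finset ℤ) := by simpa using hk
    set U := (Finset.range nU).filter fun u => u % 3 = a with hU
    have hUm : ∀ u ∈ U, u < nU := fun u hu => Finset.mem_range.1 (Finset.mem_filter.1 hu).1
    have hr := range_boundG (C := C') hm.le hSL hGSm hGS hUse hinv hcount (P 0) ⟨d, W, G₀, g⟩ hk U
      (slopeGrid C ε) (stripLev K₀ L) hδ hg0 hε hε1 (by rw [hC']; linarith) le_rfl
      (fun u hu => ⟨?_, ?_⟩) (fun u hu v hv huv => ⟨?_, ?_⟩) hD1 (h₀ := h₀) (Nat.le_ceil _) hh₀3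
      (show 2 * g < G₀ by rw [hG₀]; linarith) (nU := nU)
      ((Finset.card_filter_le _ _).trans (Finset.card_range nU).le) hlam0 (e := e) (c₁ := c₁)
      (by rw [he]; positivity) ?_ J₀ N
      (fun u hu => hNb k hkmem u (Finset.mem_range.2 (hUm u hu))) (fun y hy => hsum y ?_)
      (show ⌈8 * (C' + 2) * (((P 0).Lam : ℝ) + R' + 2) + 2 * d + 2 * (ε * L) + 5⌉₊ +
        6 * (J₀ * D + h₀) ≤ N by omega)
    · refine hr.trans (le_of_eq ?_)
      push_cast
      ring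
    · -- slopes
      have h1 : (u : ℝ) + 1 ≤ nU := by exact_mod_cast hUm u hu
      have h2 := mul_le_mul_of_nonneg_left h1 hε.le
      have h3 := mul_le_mul_of_nonneg_left hmle hε.le
      rw [mul_div_cancel₀ _ hε.ne'] at h3
      have h4 : 0 ≤ ε * (u : ℝ) := by positivity
      rw [slopeGrid, abs_le]
      constructor <;> (rw [hC']; linarith)
    · -- strips
      have h1 := hUm u hu
      have h2 : (u + 1) * K₀ * L + L < (nU + 1) * K₀ * L := by
        have h3 : (u + 1) * K₀ * L + K₀ * L ≤ (nU + 1) * K₀ * L := by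
          calc (u + 1) * K₀ * L + K₀ * L = (u + 2) * K₀ * L := by ring
            _ ≤ (nU + 1) * K₀ * L :=
              Nat.mul_le_mul_right L (Nat.mul_le_mul_right K₀ (show u + 2 ≤ nU + 1 by omega))
        have h4 : 2 * L ≤ K₀ * L := Nat.mul_le_mul_right L (Nat.le_add_left 2 _)
        have h5 : 0 < L := by exact_mod_cast hLpos
        omega
      rw [stripLev, Nat.abs_cast]
      exact_mod_cast h2
    · show 6 * ε ≤ slopeGrid C ε v - slopeGrid C ε u
      have := (Finset.mem_filter.1 hu).2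
      have := (Finset.mem_filter.1 hv).2
      have h3 : (u : ℝ) + 3 ≤ v := by exact_mod_cast (show u + 3 ≤ v by omega)
      simp only [slopeGrid]
      linarith [mul_le_mul_of_nonneg_left h3 hε.le]
    · show (10 * C' + 20) * (L : ℝ) + 20 * (ε * L) + 10 * d ≤
        ε * ((stripLev K₀ L v : ℝ) - stripLev K₀ L u)
      have := (Finset.mem_filter.1 hu).2
      have := (Finset.mem_filter.1 hv).2
      have h3 : (u : ℝ) + 3 ≤ v := by exact_mod_cast (show u + 3 ≤ v by omega)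
      simp only [stripLev]; push_cast
      have h6 : (10 * C' + 70) * L ≤ ε * K₀ * L := mul_le_mul_of_nonneg_right hK hLpos.le
      have h7 : ε * L ≤ L := mul_le_of_le_one_left hLpos.le hε1
      have h8 : 0 ≤ ε * K₀ * L := by positivity
      have h5 : ε * K₀ * L * 3 ≤ ε * K₀ * L * ((v : ℝ) - u) :=
        mul_le_mul_of_nonneg_left (by linarith) h8
      linarith
    · rw [he, mul_add, show (nU : ℝ) * (c₁ / (8 * nU)) = c₁ / 8 by field_simp]
      linarith
    · have hy' : 0 ≤ y ∧ y < (d : ℤ) := Finset.mem_Ico.1 hy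
      rw [abs_of_nonneg hy'.1]; omega
  have hAB := le_of_forall_linear hlin
  have hdpos : (0 : ℝ) < d := by linarith
  have h1 : 2 * (g * (d : ℝ) * c₁ / (8 * lam)) ≤ 4800000 * M * (9 * (d : ℝ)) :=
    hAB.trans (mul_le_mul_of_nonneg_left (by linarith) (by positivity))
  have h3 := mul_le_mul_of_nonneg_right h1 (show 0 ≤ 16 * lam / (d : ℝ) by positivity)
  have e1 : 2 * (g * (d : ℝ) * c₁ / (8 * lam)) * (16 * lam / d) = (r - r₀) * p * c₁ * A := by
    rw [hg]; field_simp; ring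
  have e2 : 4800000 * M * (9 * (d : ℝ)) * (16 * lam / d) = 691200000 * M * lam := by
    field_simp; ring
  rw [e1, e2] at h3
  rw [div_lt_iff₀ hden] at hAT
  linarith [mul_nonneg hM hlam0.le]

/-- No bigeodesic from the modules for all atomless laws. -/
theorem noBigeodesic_of_modulesG {G : Measure ℝ} (hG : LawGen G) {m κ AY : ℝ}
    (hST : SmallTail m G) (hSF : ShieldFacts m) (hSL : ShieldLaw m G κ AY) (hF : ForkNullAll G)
    (hM : MatchAll G) (hmass : MassProp G) (hcount : CountProp2G m κ) : NoBigeodesic G := by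
  haveI := hG.prob
  obtain ⟨GS, hGSm, hGS, hUse, hinv⟩ := exists_goodSet hG hSF hSL hF hM
  exact noBigeodesic_of_partsG hG hST.1 hSL hGSm hGS hUse (sepSites hSL.κ_pos hUse)
    (fun v t => (hinv v t).2) hmass hcount

end Vale.Agent.P158.Gen
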