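import Vale.Agent.P158.Gen.ShieldBasic
import Vale.Agent.P158.Rays

/-!
The lowered configuration of a nice configuration is nice: rays of the lowered configuration are,
beyond an unenclosed vertex, rays of the configuration, and the two Busemann functions agree at
unenclosed vertices.
-/

open MeasureTheory Filter Topology

namespace Vale.Agent.P158.Gen

variable {m κ : ℝ} {t : Conf} {r : ℕ → V}

lemma exists_piece (hadj : ∀ i, Adj (r i) (r (i + 1))) {i j : ℕ} (hij : i ≤ j) :
    ∃ p : grid.Walk (r i) (r j), (∀ t' : Conf, plen t' p = rlen t' r j - rlen t' r i) ∧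
      (∀ l, i ≤ l → l < j → ∃ d ∈ p.darts, d.toProd = (r l, r (l + 1))) ∧
      ∀ v ∈ p.support, ∃ l, i ≤ l ∧ l ≤ j ∧ r l = v := by
  induction j, hij using Nat.le_induction with
  | base =>
    exact ⟨.nil, fun t' => by simp, fun l h h' => absurd h (not_le.2 h'),
      fun v hv => ⟨i, le_rfl, le_rfl, (by simpa using hv : v = r i).symm⟩⟩
  | succ j hij ih =>
    obtain ⟨p, hp, hd, hs⟩ := ih
    have ha : grid.Adj (r j) (r (j + 1)) := hadj j
    refine ⟨p.concat ha, fun t' => ?_, fun l h h' => ?_, fun v hv => ?_⟩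
    · rw [plen_concat, hp, Rays.rlen_succ]
      ring
    · rcases (Nat.lt_succ_iff.1 h').eq_or_lt with rfl | h''
      · exact ⟨⟨(r l, r (l + 1)), ha⟩, by simp [SimpleGraph.Walk.darts_concat], rfl⟩
      · obtain ⟨d, hd1, hd2⟩ := hd l h h''
        exact ⟨d, by simp [SimpleGraph.Walk.darts_concat, hd1], hd2⟩
    · rw [SimpleGraph.Walk.support_concat] at hv
      simp only [List.mem_append, List.mem_singleton] at hv
      rcases hv with hv | hv
      · obtain ⟨l, h1, h2, h3⟩ := hs v hv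
        exact ⟨l, h1, by omega, h3⟩
      · exact ⟨j + 1, by omega, le_rfl, hv.symm⟩

lemma T_anti {t t' : Conf} (h0 : ∀ e, 0 ≤ t' e) (hle : ∀ e, t' e ≤ t e) (x y : V) :
    T t' x y ≤ T t x y := by
  rw [← LatSym.TS_univ, ← LatSym.TS_univ]
  exact Rays.TS_anti h0 hle (connIn_univ x y)

lemma loc_exists (ht : Tame m t) (N : ℕ) : ∃ L, Loc m N L t := by
  have hbox : {x : V | InSq N x}.Finite := by
    refine (Finset.Icc (-(N : ℤ)) N ×ˢ Finset.Icc (-(N : ℤ)) N).finite_toSet.subset fun x hx => ?_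
    simp only [Finset.mem_coe, Finset.mem_product, Finset.mem_Icc]
    exact ⟨⟨hx.1, hx.2.1⟩, hx.2.2.1, hx.2.2.2⟩
  have hends : ∀ (g : Edge → V), (∀ v, {e | g e = v}.Finite) → {e | InSq N (g e)}.Finite := by
    intro g hg
    exact (hbox.biUnion fun v _ => hg v).subset fun e he => Set.mem_biUnion he rfl
  have h1 : {e : Edge | InSq N (eFst e)}.Finite := hends eFst fun v =>
    ({(v, true), (v, false)} : Set Edge).toFinite.subset fun e he => by
      rcases e with ⟨w, _ | _⟩ <;> simp only [eFst, Set.mem_ofPred_eq] at he <;> subst he <;> simp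
  have h2 : {e : Edge | InSq N (eSnd e)}.Finite := hends eSnd fun v =>
    ({((v.1, v.2 - 1), true), ((v.1 - 1, v.2), false)} : Set Edge).toFinite.subset fun e he => by
      rcases e with ⟨w, _ | _⟩ <;> simp [eSnd, Prod.ext_iff] at he ⊢ <;> omega
  have h3 : (⋃ x ∈ {x : V | InSq N x}, {e | Encl (cl m t e) x}).Finite :=
    hbox.biUnion fun x _ => ht.encl x
  obtain ⟨L, hL⟩ := (((h1.union h2).union h3).image fun e => (cl m t e).ncard).bddAbove
  refine ⟨L + 1, ht, fun e he => Nat.lt_succ_of_le (hL ⟨e, ?_, rfl⟩)⟩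
  rcases he with he | he | ⟨x, hx, he⟩
  · exact Or.inl (Or.inl he)
  · exact Or.inl (Or.inr he)
  · exact Or.inr (Set.mem_biUnion (x := x) hx he)

/-- The hypotheses on shielding used here. -/
structure Core (m : ℝ) : Prop where
  eq_T : ∀ F t, (∀ e, 0 ≤ t e) → ∀ x y, OKon m F t x → OKon m F t y →
    T (shieldOn m F t) x y = T t x y
  lowered : ∀ F t, (∀ e, 0 ≤ t e) → ∀ x y (p : grid.Walk x y), OKon m F t x → OKon m F t y →
    (∃ d ∈ p.darts, wt (shieldOn m F t) d.toProd.1 d.toProd.2 < wt t d.toProd.1 d.toProd.2) →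
    T t x y + m ≤ plen (shieldOn m F t) p
  bigeo : ∀ t, Tame m t → (∀ e, 0 ≤ t e) → ∀ γ,
    (IsBigeodesic (shield m t) γ ↔ IsBigeodesic t γ) ∧
      (IsBigeodesic t γ → ∀ i, wt (shield m t) (γ i) (γ (i + 1)) = wt t (γ i) (γ (i + 1)))
  escape : ∀ N L t, Loc m N L t → ∀ x y (p : grid.Walk x y), InSq N x →
    (∀ v ∈ p.support, ¬ OKpt m t v) →
    ∀ v ∈ p.support, |v.1 - x.1| ≤ (L : ℤ) ∧ |v.2 - x.2| ≤ (L : ℤ)

/-- An infinite injective path meets unenclosed vertices arbitrarily far out. -/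
lemma Core.exists_ok (H : Core m) (ht : Tame m t) (hinj : Function.Injective r)
    (hadj : ∀ i, Adj (r i) (r (i + 1))) (a : ℕ) : ∃ b, a ≤ b ∧ OKpt m t (r b) := by
  by_contra! hno
  obtain ⟨L, hL⟩ := loc_exists ht ((r a).1.natAbs + (r a).2.natAbs)
  have hin : InSq (((r a).1.natAbs + (r a).2.natAbs : ℕ) : ℤ) (r a) := by
    simp only [InSq]
    push_cast
    rcases abs_cases (r a).1 with h | h <;> rcases abs_cases (r a).2 with h' | h' <;> omega
  have hfin : {b : ℕ | a ≤ b}.Finite := by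
    refine (((Finset.Icc ((r a).1 - L) ((r a).1 + L) ×ˢ
      Finset.Icc ((r a).2 - L) ((r a).2 + L)).finite_toSet).preimage hinj.injOn).subset
      fun b (hb : a ≤ b) => ?_
    obtain ⟨p, -, -, hs⟩ := exists_piece hadj hb
    have h := H.escape _ L t hL _ _ p hin (fun v hv => by
      obtain ⟨l, h1, -, rfl⟩ := hs v hv
      exact hno l h1) (r b) p.end_mem_support
    simp only [abs_le] at h
    simp only [Set.mem_preimage, Finset.mem_coe, Finset.mem_product, Finset.mem_Icc]
    omega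
  exact Set.infinite_of_forall_exists_gt (fun k => ⟨a + k + 1, show a ≤ a + k + 1 by omega,
    by omega⟩) hfin

/-- Beyond an unenclosed vertex, a ray of the lowered configuration is a ray with the same
weights. -/
lemma Core.ray_transfer (H : Core m) (hm : 0 < m) (ht : Tame m t) (h0 : ∀ e, 0 ≤ t e)
    (h0' : ∀ e, 0 ≤ shield m t e) (hr : IsRayIn (shield m t) Set.univ r) (hok : OKpt m t (r 0)) :
    IsRayIn t Set.univ r ∧ ∀ n, rlen t r n = rlen (shield m t) r n := by
  have hstep : ∀ l, wt (shield m t) (r l) (r (l + 1)) = wt t (r l) (r (l + 1)) := by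
    intro l
    refine le_antisymm (shieldOn_le m _ t _) (not_lt.1 fun hlt => ?_)
    obtain ⟨b, hb, hbok⟩ := H.exists_ok ht hr.inj hr.adj (l + 1)
    obtain ⟨p, hp, hd, -⟩ := exists_piece hr.adj (Nat.zero_le b)
    obtain ⟨d, hd1, hd2⟩ := hd l (Nat.zero_le l) (by omega)
    have h1 := H.lowered Set.univ t h0 _ _ p hok hbok ⟨d, hd1, by rw [hd2]; exact hlt⟩
    have h2 := H.eq_T Set.univ t h0 _ _ hok hbok
    have h3 := hr.geo 0 b (Nat.zero_le b)
    rw [LatSym.TS_univ] at h3
    have h4 := hp (shield m t)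
    change T t (r 0) (r b) + m ≤ plen (shield m t) p at h1
    change T (shield m t) (r 0) (r b) = T t (r 0) (r b) at h2
    linarith
  have hlen : ∀ n, rlen t r n = rlen (shield m t) r n := fun n =>
    Finset.sum_congr rfl fun l _ => (hstep l).symm
  refine ⟨⟨hr.inj, hr.adj, fun _ => trivial, fun i j hij => ?_⟩, hlen⟩
  have h1 := hr.geo i j hij
  rw [LatSym.TS_univ] at h1 ⊢
  obtain ⟨p, hp, -, -⟩ := exists_piece hr.adj hij
  have h2 : T t (r i) (r j) ≤ plen t p := T_le h0 p
  rw [hp] at h2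
  have h3 : T (shield m t) (r i) (r j) ≤ T t (r i) (r j) :=
    T_anti h0' (shieldOn_le m _ t) _ _
  rw [hlen, hlen] at h2 ⊢
  linarith

/-- The Busemann function of a common ray only drops by lowering. -/
lemma bus_shield_le (_h0 : ∀ e, 0 ≤ t e) (h0' : ∀ e, 0 ≤ shield m t e)
    (hr : IsRayIn (shield m t) Set.univ r) (hlen : ∀ n, rlen t r n = rlen (shield m t) r n) (z : V) :
    bus (shield m t) Set.univ r z ≤ bus t Set.univ r z := by
  refine Rays.le_bus fun n => le_trans (Rays.bus_le h0' hr (connIn_univ _ _) n) ?_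
  rw [hlen, LatSym.TS_univ, LatSym.TS_univ]
  linarith [T_anti h0' (shieldOn_le m Set.univ t) (r n) z]

/-- The Busemann functions agree at unenclosed vertices. -/
lemma Core.bus_eq (H : Core m) (ht : Tame m t) (h0 : ∀ e, 0 ≤ t e)
    (h0' : ∀ e, 0 ≤ shield m t e) (hr : IsRayIn (shield m t) Set.univ r)
    (hr' : IsRayIn t Set.univ r) (hlen : ∀ n, rlen t r n = rlen (shield m t) r n) {z : V}
    (hz : OKpt m t z) : bus (shield m t) Set.univ r z = bus t Set.univ r z := by
  refine le_antisymm (bus_shield_le h0 h0' hr hlen z) (Rays.le_bus fun n => ?_)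
  obtain ⟨b, hb, hbok⟩ := H.exists_ok ht hr.inj hr.adj n
  have h1 := Rays.bus_le h0 hr' (connIn_univ (r 0) z) b
  have h2 := Rays.bus_seq_antitone h0' hr (connIn_univ (r 0) z) hb
  simp only at h2
  rw [LatSym.TS_univ, hlen, ← show T (shield m t) (r b) z = T t (r b) z from
    H.eq_T Set.univ t h0 _ _ hbok hz, ← LatSym.TS_univ] at h1
  linarith

/-- Two rays whose Busemann functions differ by `c` at unenclosed vertices. -/
lemma Core.bus_sub_le (H : Core m) (ht : Tame m t) (h0' : ∀ e, 0 ≤ shield m t e) {r s : ℕ → V}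
    (hr : IsRayIn (shield m t) Set.univ r) (hs : IsRayIn (shield m t) Set.univ s) {c : ℝ}
    (hc : ∀ w, OKpt m t w → bus (shield m t) Set.univ r w ≤ bus (shield m t) Set.univ s w + c)
    (z : V) : bus (shield m t) Set.univ r z ≤ bus (shield m t) Set.univ s z + c := by
  rw [← sub_le_iff_le_add]
  refine Rays.le_bus fun n => ?_
  obtain ⟨b, hb, hbok⟩ := H.exists_ok ht hs.inj hs.adj n
  have h1 := hc _ hbok
  rw [Rays.bus_ray h0' hs b] at h1
  have h2 := (abs_le.1 (Rays.bus_lip h0' hr (connIn_univ (r 0) z) (connIn_univ z (s b)))).2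
  have h3 := Rays.bus_seq_antitone h0' hs (connIn_univ (s 0) z) hb
  simp only at h3
  rw [TS_comm (t := shield m t) Set.univ z (s b)] at h2
  linarith

/-- Niceness transfers to the lowered configuration. -/
theorem Core.nice (H : Core m) (hm : 0 < m) (κ : ℝ) (t : Conf) (ht : Tame m t)
    (hg : GoodG κ (shield m t)) (hn : NiceG κ t) : NiceG κ (shield m t) := by
  have h0 := hn.good.nonneg
  have h0' := hg.nonneg
  refine ⟨hg, ?_, ?_⟩
  · rintro ⟨γ, δ, hγ, hδ, hcom⟩
    exact hn.fork ⟨γ, δ, (H.bigeo t ht h0 γ).1.1 hγ, (H.bigeo t ht h0 δ).1.1 hδ, hcom⟩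
  intro γ hγ r hr hexc
  obtain ⟨C, hC⟩ := hexc
  have hγt : IsBigeodesic t γ := (H.bigeo t ht h0 γ).1.1 hγ
  have hw := (H.bigeo t ht h0 γ).2 hγt
  obtain ⟨a, -, haok⟩ := H.exists_ok ht hr.inj hr.adj 0
  set s := Rays.tail a r with hs
  have hs0 : IsRayIn (shield m t) Set.univ s := Rays.isRayIn_tail hr a
  obtain ⟨hst, hlen⟩ := H.ray_transfer hm ht h0 h0' hs0 (show OKpt m t (s 0) from haok)
  have hf0 := Rays.isRayIn_fwd hγ h0' 0
  have hb0 := Rays.isRayIn_bwd hγ h0' 0
  have hflen : ∀ n, rlen t (fwd γ 0) n = rlen (shield m t) (fwd γ 0) n := fun n =>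
    Finset.sum_congr rfl fun l _ => by
      simpa [fwd, add_assoc] using (hw (l : ℤ)).symm
  have hblen : ∀ n, rlen t (bwd γ 0) n = rlen (shield m t) (bwd γ 0) n := fun n =>
    Finset.sum_congr rfl fun l _ => by
      simp only [bwd, zero_sub]
      have := hw (-((l + 1 : ℕ) : ℤ))
      rw [show -((l + 1 : ℕ) : ℤ) + 1 = -(l : ℤ) by omega] at this
      rw [wt_comm t, wt_comm (shield m t)]
      exact this.symm
  have htail : ∀ z, bus (shield m t) Set.univ s z =
      bus (shield m t) Set.univ r z + rlen (shield m t) r a := fun z =>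
    Rays.bus_tail h0' hr (connIn_univ _ _) a
  obtain ⟨c, hc⟩ := hn.matched γ hγt s hst ⟨C - rlen (shield m t) r a, fun z => by
    have := hC z
    have := htail z
    have := bus_shield_le h0 h0' hs0 hlen z
    have := bus_shield_le h0 h0' hf0 hflen z
    linarith⟩
  have hok : ∀ w, OKpt m t w →
      bus (shield m t) Set.univ s w = bus (shield m t) Set.univ (bwd γ 0) w + c := fun w hw' => by
    rw [H.bus_eq ht h0 h0' hs0 hst hlen hw',
      H.bus_eq ht h0 h0' hb0 (Rays.isRayIn_bwd hγt h0 0) hblen hw']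
    linarith [hc w]
  refine ⟨c - rlen (shield m t) r a, fun z => ?_⟩
  have h1 := H.bus_sub_le ht h0' hs0 hb0 (fun w hw' => (hok w hw').le) z
  have h2 := H.bus_sub_le ht h0' hb0 hs0 (c := -c) (fun w hw' => by linarith [hok w hw']) z
  have := htail z
  linarith

end Vale.Agent.P158.Gen
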