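import Vale.Agent.P158.Gen.Spec
import Vale.Agent.P158.Straight
import Vale.Agent.P158.Gen.ShieldMatch

/-!
Passage times of fixed scaled pairs from the box statement for the shielded passage time: the
passage time is above the shielded one, and above it by a tight escape cost only.
-/

open MeasureTheory Filter Topology
open scoped ENNReal

namespace Vale.Agent.P158.Gen.ShapePairs

open Vale.Agent.P158

variable {G : Measure ℝ} {m κ κ' A AY A' : ℝ}

/-- The point `j` steps to the right of `x`. -/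
def right (x : V) (j : ℕ) : V := (x.1 + j, x.2)

/-- The weights of the first `R` edges to the right of the origin. -/
def rowSum (R : ℕ) (t : Conf) : ℝ := ∑ i ∈ Finset.range R, |t ((((i : ℤ), 0) : V), false)|

lemma rowSum_shift_step (x : V) (i : ℕ) (t : Conf) :
    shift x t (((i : ℤ), 0), false) = wt t (right x i) (right x (i + 1)) := by
  simp [shift, eShift, wt, edgeOf, right, Prod.ext_iff]
  congr 1
  ext <;> simp <;> omega

lemma T_right_le {t : Conf} (h0 : ∀ e, 0 ≤ t e) (x : V) {j R : ℕ} (hj : j ≤ R) :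
    T t x (right x j) ≤ rowSum R (shift x t) := by
  induction R generalizing j with
  | zero =>
    obtain rfl : j = 0 := by omega
    rw [show right x 0 = x by simp [right]]
    simpa [rowSum] using T_le h0 (x := x) (.nil : grid.Walk x x)
  | succ R ih =>
    have hs : rowSum (R + 1) (shift x t)
        = rowSum R (shift x t) + |shift x t (((R : ℤ), 0), false)| := Finset.sum_range_succ _ _
    rcases hj.lt_or_eq with h | rfl
    · linarith [ih (Nat.lt_succ_iff.1 h), abs_nonneg (shift x t (((R : ℤ), 0), false))]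
    · have ha : Adj (right x R) (right x (R + 1)) := by
        simp [Adj, right]
      refine (T_triangle h0 x (right x R) _).trans ?_
      rw [hs]
      refine add_le_add (ih le_rfl) ((T_le_wt h0 ha).trans ?_)
      rw [rowSum_shift_step]
      exact le_abs_self _

lemma eShift_injective (v : V) : Function.Injective (eShift v) := fun a b h => by
  simp [eShift, Prod.ext_iff] at h
  ext <;> simp [h]

lemma cl_eShift (v : V) (t : Conf) {e f : Edge} (h : f ∈ cl m t e) :
    eShift (-v) f ∈ cl m (shift v t) (eShift (-v) e) := by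
  have hback : ∀ a : Edge, shift v t (eShift (-v) a) = t a := fun a => by
    simp [shift, eShift, neg_add_cancel_right]
  refine ⟨by rw [hback]; exact h.1, h.2.lift (eShift (-v)) fun a b hab => ⟨?_, ?_⟩⟩
  · obtain ⟨w, hw⟩ := hab.1
    exact ⟨w + -v, shift_sq (-v) w a hw.1, shift_sq (-v) w b hw.2⟩
  · rw [hback]; exact hab.2

lemma encl_eShift (v : V) {C D : Set Edge} {x : V} (hCD : ∀ f ∈ C, eShift (-v) f ∈ D)
    (h : Encl C (x + v)) : Encl D x := by
  classical
  obtain ⟨P, hP, hev, hpot⟩ := h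
  refine ⟨P.image (eShift (-v)), fun f hf => ?_, fun w => ?_, ?_⟩
  · obtain ⟨g, hg, rfl⟩ := Finset.mem_image.1 hf
    exact hCD g (hP hg)
  · have e : P.image (eShift (-v)) ∩ sq w = (P ∩ sq (w + v)).image (eShift (-v)) := by
      ext f
      simp only [Finset.mem_inter, Finset.mem_image]
      constructor
      · rintro ⟨⟨g, hg, rfl⟩, hw⟩
        refine ⟨g, ⟨hg, ?_⟩, rfl⟩
        simpa [eShift, add_assoc] using shift_sq v w _ hw
      · rintro ⟨g, ⟨hg, hw⟩, rfl⟩
        refine ⟨⟨g, hg, rfl⟩, ?_⟩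
        simpa using shift_sq (-v) (w + v) g hw
    rw [e, Finset.card_image_of_injective _ (eShift_injective _)]
    exact hev _
  · rw [← hpot]
    simp only [pot, Finset.filter_image, Finset.card_image_of_injective _ (eShift_injective _)]
    refine congrArg _ (congrArg Finset.card (Finset.filter_congr fun g _ => ?_))
    simp [eShift]
    intros
    constructor <;> intro h <;> omega

lemma okpt_of_shift (v : V) {t : Conf} {x : V} (h : OKpt m (shift v t) x) :
    OKpt m t (x + v) := fun e _ he =>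
  h (eShift (-v) e) trivial (encl_eShift v (fun _ hf => cl_eShift v t hf) he)

/-- Some vertex within `L + 1` steps to the right of the origin is unenclosed. -/
lemma exists_ok_right (hS : ShieldFacts m) {t : Conf} {L : ℕ} (hloc : Loc m 0 L t) :
    ∃ j, j ≤ L + 1 ∧ OKpt m t (right 0 j) := by
  by_contra! hno
  have hp : ∀ j ≤ L + 1, ∃ p : grid.Walk (0 : V) (right 0 j),
      ∀ v ∈ p.support, ¬ OKpt m t v := by
    intro j hj
    induction j with
    | zero =>
      have h0 : right (0 : V) 0 = 0 := by simp [right]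
      refine ⟨(SimpleGraph.Walk.nil' (G := grid) (0 : V)).copy rfl h0.symm, fun v hv => ?_⟩
      simp at hv
      subst hv
      exact h0 ▸ hno 0 (Nat.zero_le _)
    | succ j ih =>
      obtain ⟨p, hp⟩ := ih (by omega)
      have ha : grid.Adj (right 0 j) (right 0 (j + 1)) := by
        simp [grid, Adj, right]
      refine ⟨p.concat ha, fun v hv => ?_⟩
      rw [SimpleGraph.Walk.support_concat] at hv
      simp only [List.mem_append, List.mem_singleton] at hv
      rcases hv with hv | rfl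
      · exact hp v hv
      · exact hno _ hj
  obtain ⟨p, hp⟩ := hp (L + 1) le_rfl
  have hin : InSq ((0 : ℕ) : ℤ) (0 : V) := by simp [InSq]
  have h := (hS.escape 0 L t hloc 0 _ p hin hp _ p.end_mem_support).1
  simp [right] at h
  rw [abs_le] at h
  omega

/-- The passage time exceeds the shielded one by at most twice the two escape costs. -/
lemma T_le_shield (hS : ShieldFacts m) {t : Conf} (h0 : ∀ e, 0 ≤ t e)
    (h0' : ∀ e, 0 ≤ shield m t e) (x y : V) {x' y' : V} (hx : OKpt m t x') (hy : OKpt m t y') :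
    T t x y ≤ T (shield m t) x y + 2 * (T t x x' + T t y y') := by
  have heq : T (shield m t) x' y' = T t x' y' := hS.eq_T Set.univ t h0 x' y' hx hy
  have hle : ∀ a b, T (shield m t) a b ≤ T t a b := fun a b => T_anti h0' (hS.le Set.univ t) a b
  have h1 := T_triangle h0 x x' y
  have h2 := T_triangle h0 x' y' y
  have h3 := T_triangle h0' x' x y'
  have h4 := T_triangle h0' x y y'
  have h5 := hle x' x
  have h6 := hle y y'
  rw [T_comm t x' x] at h5
  rw [T_comm t y' y] at h2
  linarith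

theorem mu_close (hsmul : ∀ (r : ℝ) v, 0 ≤ r → muG m G (r • v) = r * muG m G v)
    (hlip : ∀ v w, |muG m G v - muG m G w| ≤ A * r1 (v - w)) {x y : ℕ → V} {p q : ℝ × ℝ}
    (hx : Straight.Scaled x p) (hy : Straight.Scaled y q) {ε : ℝ} (hε : 0 < ε) :
    ∀ᶠ n : ℕ in atTop, |muG m G (toR (y n) - toR (x n)) - n * muG m G (q - p)| ≤ ε * n := by
  have hc : Continuous fun v : ℝ × ℝ => A * r1 (v - (q - p)) := by unfold r1; fun_prop
  have h0 : A * r1 (q - p - (q - p)) < ε := by simp [r1, hε]
  filter_upwards [((hc.tendsto _).comp (Tendsto.sub hy hx)).eventually_lt_const h0,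
    eventually_gt_atTop 0] with n hn hn0
  have hn' : (0 : ℝ) < n := by exact_mod_cast hn0
  simp only [Function.comp_apply, ← smul_sub] at hn
  rw [← hsmul _ _ hn'.le]
  refine (hlip _ _).trans ?_
  rw [show toR (y n) - toR (x n) - (n : ℝ) • (q - p) =
    (n : ℝ) • ((n : ℝ)⁻¹ • (toR (y n) - toR (x n)) - (q - p)) by
      conv_rhs => rw [smul_sub, smul_smul, mul_inv_cancel₀ hn'.ne', one_smul],
    r1_smul, abs_of_pos hn']
  nlinarith

lemma ae_nonneg (hL : ShieldLaw m G κ AY) :
    ∀ᵐ t ∂law G, (∀ e, 0 ≤ t e) ∧ ∀ e, 0 ≤ shield m t e :=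
  hL.good.mono fun _ h => ⟨h.1.nonneg, h.2.nonneg⟩

lemma eventually_box_le
    (hbox : ∀ (C : ℕ) (ε : ℝ), 0 < ε → Tendsto (fun n : ℕ => law G {t | ∃ x y : V,
      InBox (C * n) x ∧ InBox (C * n) y ∧
        ε * n < |T (shield m t) x y - muG m G (toR y - toR x)|}) atTop (𝓝 0))
    (C : ℕ) {ε δ : ℝ} (hε : 0 < ε) (hδ : 0 < δ) :
    ∀ᶠ n : ℕ in atTop, law G {t | ∃ x y : V, InBox (C * n) x ∧ InBox (C * n) y ∧
      ε * n < |T (shield m t) x y - muG m G (toR y - toR x)|} ≤ ENNReal.ofReal δ :=
  (hbox C ε hε).eventually_le_const (ENNReal.ofReal_pos.2 hδ)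

/-- The lower shape statement for fixed scaled pairs. -/
theorem lower_of_box (hS : ShieldFacts m) (hL : ShieldLaw m G κ AY)
    (hsmul : ∀ (r : ℝ) v, 0 ≤ r → muG m G (r • v) = r * muG m G v)
    (hlip : ∀ v w, |muG m G v - muG m G w| ≤ A * r1 (v - w))
    (hbox : ∀ (C : ℕ) (ε : ℝ), 0 < ε → Tendsto (fun n : ℕ => law G {t | ∃ x y : V,
      InBox (C * n) x ∧ InBox (C * n) y ∧
        ε * n < |T (shield m t) x y - muG m G (toR y - toR x)|}) atTop (𝓝 0)) :
    ∀ (x y : ℕ → V) (p q : ℝ × ℝ), Straight.Scaled x p → Straight.Scaled y q →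
      ∀ ε : ℝ, 0 < ε → Tendsto
        (fun n : ℕ => (law G {t | T t (x n) (y n) < n * (muG m G (q - p) - ε)}).toReal)
        atTop (𝓝 0) := by
  intro x y p q hx hy ε hε
  obtain ⟨C, hC⟩ := exists_nat_gt (max (r1 p) (r1 q))
  rw [max_lt_iff] at hC
  refine Straight.toReal_tendsto_zero fun δ hδ => ?_
  filter_upwards [eventually_box_le hbox C (half_pos hε) hδ, hx.inBox hC.1, hy.inBox hC.2,
    mu_close hsmul hlip hx hy (half_pos hε)] with n hn h1 h2 h3
  refine le_trans (measure_mono_ae ?_) hn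
  filter_upwards [ae_nonneg hL] with t ht htlt
  refine ⟨x n, y n, h1, h2, ?_⟩
  have h4 := T_anti ht.2 (hS.le Set.univ t) (x n) (y n)
  have h5 : T t (x n) (y n) < n * (muG m G (q - p) - ε) := htlt
  rw [lt_abs]; right
  change T (shield m t) (x n) (y n) ≤ _ at h4
  linarith [(abs_le.1 h3).1]

/-- The escape costs are tight, uniformly in the starting point. -/
theorem escape_tight (hG : LawGen G) (hS : ShieldFacts m) (hB : BoxProp m G κ' A')
    {δ : ℝ} (hδ : 0 < δ) : ∃ K : ℝ, ∀ x : V, law G {t | (∀ e, 0 ≤ t e) ∧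
      ∀ x', OKpt m t x' → K < T t x x'} ≤ ENNReal.ofReal δ := by
  have hP := law_isProbG hG
  have := hG.prob
  obtain ⟨n, hn⟩ := ((hB.2.2 0).eventually_le_const
    (ENNReal.ofReal_pos.2 (half_pos hδ))).exists
  set L := Lc n
  have hmeas : Measurable fun t : Conf => rowSum (L + 1) t := by
    unfold rowSum; fun_prop
  have hlim : Tendsto (fun K : ℕ => law G {t | (K : ℝ) < rowSum (L + 1) t}) atTop
      (𝓝 (law G (⋂ K : ℕ, {t | (K : ℝ) < rowSum (L + 1) t}))) :=
    tendsto_measure_iInter_atTop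
      (fun K => (measurableSet_lt measurable_const hmeas).nullMeasurableSet)
      (fun a b hab t ht => lt_of_le_of_lt (show (a : ℝ) ≤ b by exact_mod_cast hab) ht)
      ⟨0, measure_ne_top _ _⟩
  have hemp : (⋂ K : ℕ, {t : Conf | (K : ℝ) < rowSum (L + 1) t}) = ∅ := by
    refine Set.eq_empty_iff_forall_notMem.2 fun t ht => ?_
    obtain ⟨K, hK⟩ := exists_nat_ge (rowSum (L + 1) t)
    exact absurd (Set.mem_iInter.1 ht K) (not_lt.2 hK)
  rw [hemp, measure_empty] at hlim
  obtain ⟨K, hK⟩ := (hlim.eventually_le_const (ENNReal.ofReal_pos.2 (half_pos hδ))).exists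
  refine ⟨K, fun x => ?_⟩
  have hsub : {t | (∀ e, 0 ≤ t e) ∧ ∀ x', OKpt m t x' → (K : ℝ) < T t x x'} ⊆
      shift x ⁻¹' ({t | ¬ BoxOK m κ' A' (0 * n) L t} ∪ {t | (K : ℝ) < rowSum (L + 1) t}) := by
    intro t ht
    by_contra hc
    simp only [Set.mem_preimage, Set.mem_union, Set.mem_ofPred_eq, not_or, not_not] at hc
    obtain ⟨hbox, hrow⟩ := hc
    rw [zero_mul] at hbox
    obtain ⟨j, hj, hok⟩ := exists_ok_right hS hbox.loc
    have hok' := okpt_of_shift x hok
    rw [show right (0 : V) j + x = right x j by simp [right, Prod.ext_iff]; omega] at hok'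
    exact absurd (ht.2 _ hok') (not_lt.2 ((T_right_le ht.1 x hj).trans (not_lt.1 hrow)))
  refine (measure_mono hsub).trans ?_
  rw [law_shift_preimage]
  refine (measure_union_le _ _).trans ((add_le_add hn hK).trans ?_)
  rw [← ENNReal.ofReal_add (half_pos hδ).le (half_pos hδ).le, add_halves]

/-- The upper shape statement for fixed scaled pairs. -/
theorem upper_of_box (hG : LawGen G) (hS : ShieldFacts m) (hL : ShieldLaw m G κ AY)
    (hB : BoxProp m G κ' A')
    (hsmul : ∀ (r : ℝ) v, 0 ≤ r → muG m G (r • v) = r * muG m G v)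
    (hlip : ∀ v w, |muG m G v - muG m G w| ≤ A * r1 (v - w))
    (hbox : ∀ (C : ℕ) (ε : ℝ), 0 < ε → Tendsto (fun n : ℕ => law G {t | ∃ x y : V,
      InBox (C * n) x ∧ InBox (C * n) y ∧
        ε * n < |T (shield m t) x y - muG m G (toR y - toR x)|}) atTop (𝓝 0)) :
    ∀ (x y : ℕ → V) (p q : ℝ × ℝ), Straight.Scaled x p → Straight.Scaled y q →
      ∀ ε : ℝ, 0 < ε → Tendsto
        (fun n : ℕ => (law G {t | n * (muG m G (q - p) + ε) < T t (x n) (y n)}).toReal)
        atTop (𝓝 0) := by
  intro x y p q hx hy ε hε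
  obtain ⟨C, hC⟩ := exists_nat_gt (max (r1 p) (r1 q))
  rw [max_lt_iff] at hC
  refine Straight.toReal_tendsto_zero fun δ hδ => ?_
  obtain ⟨K, hK⟩ := escape_tight hG hS hB (show 0 < δ / 3 by positivity)
  filter_upwards [eventually_box_le hbox C (show 0 < ε / 4 by positivity)
      (show 0 < δ / 3 by positivity), hx.inBox hC.1, hy.inBox hC.2,
    mu_close hsmul hlip hx hy (show 0 < ε / 4 by positivity),
    tendsto_natCast_atTop_atTop.eventually_ge_atTop (8 * |K| / ε)] with n hn h1 h2 h3 hbig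
  have hK4 : 4 * K ≤ ε / 2 * (n : ℝ) := by
    rw [div_le_iff₀ hε] at hbig
    linarith [le_abs_self K]
  refine le_trans (measure_mono_ae (t := {t | ∃ a b : V, InBox (C * n) a ∧ InBox (C * n) b ∧
      ε / 4 * n < |T (shield m t) a b - muG m G (toR b - toR a)|} ∪
    ({t | (∀ e, 0 ≤ t e) ∧ ∀ x', OKpt m t x' → K < T t (x n) x'} ∪
      {t | (∀ e, 0 ≤ t e) ∧ ∀ x', OKpt m t x' → K < T t (y n) x'})) ?_) ?_
  · filter_upwards [ae_nonneg hL] with t ht htlt
    by_contra hc
    have hc' := hc
    change ¬ (_ ∨ (_ ∨ _)) at hc'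
    simp only [not_or] at hc'
    obtain ⟨hcb, hcx, hcy⟩ := hc'
    obtain ⟨x', hx', hxK⟩ : ∃ x', OKpt m t x' ∧ T t (x n) x' ≤ K := by
      by_contra hh
      exact hcx ⟨ht.1, fun x' h => not_le.1 fun hle => hh ⟨x', h, hle⟩⟩
    obtain ⟨y', hy', hyK⟩ : ∃ y', OKpt m t y' ∧ T t (y n) y' ≤ K := by
      by_contra hh
      exact hcy ⟨ht.1, fun x' h => not_le.1 fun hle => hh ⟨x', h, hle⟩⟩
    have hb : |T (shield m t) (x n) (y n) - muG m G (toR (y n) - toR (x n))| ≤ ε / 4 * n :=
      not_lt.1 fun h => hcb ⟨x n, y n, h1, h2, h⟩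
    have h4 := T_le_shield hS ht.1 ht.2 (x n) (y n) hx' hy'
    have h5 : n * (muG m G (q - p) + ε) < T t (x n) (y n) := htlt
    linarith [(abs_le.1 hb).2, (abs_le.1 h3).2]
  · refine (measure_union_le _ _).trans ((add_le_add hn ((measure_union_le _ _).trans
      (add_le_add (hK _) (hK _)))).trans ?_)
    rw [← ENNReal.ofReal_add (by positivity) (by positivity),
      ← ENNReal.ofReal_add (by positivity) (by positivity)]
    exact le_of_eq (by ring_nf)

end Vale.Agent.P158.Gen.ShapePairs
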