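import Vale.Agent.P158.Gen.ShapeCore
import Vale.Agent.P158.Meas
import Vale.Agent.P158.BasicLaw
import Vale.Agent.P158.MuStrip

/-!
The strip field of the shape theorem for all atomless laws.

The route from `x` to `y` leaves `x` horizontally. Its first `h` edges are paid at their weights,
which is tight; the later bad edges are bypassed along their clusters, which stay away from the
level of `x` and have linear total size in expectation. The middle of the route is cut into short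
pieces between unenclosed vertices, whose geodesics are too short to leave the strip.
-/

open MeasureTheory Filter Topology
open scoped ENNReal

namespace Vale.Agent.P158.Gen

open Vale.Agent.P158 Vale.Agent.P158.Straight

namespace StripG

variable {m : ℝ} {t : Conf}

/-! ### Clusters and squares -/

theorem bad_of_mem_cl {e f : Edge} (h : f ∈ cl m t e) : m < t f := by
  rcases Relation.ReflTransGen.cases_tail h.2 with h' | ⟨b, -, -, h'⟩
  · exact h' ▸ h.1
  · exact h'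

theorem cl_subset {e f : Edge} (h : f ∈ cl m t e) : cl m t f ⊆ cl m t e :=
  fun _ hg => ⟨h.1, h.2.trans hg.2⟩

theorem encl_mono {C D : Set Edge} (hs : C ⊆ D) {x : V} (h : Encl C x) : Encl D x :=
  h.imp fun _ hP => ⟨hP.1.trans hs, hP.2⟩

theorem sq_shift (u : V) {e : Edge} {v : V} (h : e ∈ sq v) : eShift u e ∈ sq (v + u) := by
  simp only [sq, Finset.mem_insert, Finset.mem_singleton] at h ⊢
  rcases h with rfl | rfl | rfl | rfl <;> simp [eShift, Prod.ext_iff] <;> omega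

theorem cl_shift {v : V} {e f : Edge} (h : f ∈ cl m t (eShift v e)) :
    eShift (-v) f ∈ cl m (shift v t) e := by
  have key : ∀ b, shift v t (eShift (-v) b) = t b := fun b => by simp [shift, eShift]
  refine ⟨h.1, ?_⟩
  have := h.2.lift (p := fun a b => SqAdj a b ∧ m < shift v t b) (eShift (-v)) (fun a b hab => by
    obtain ⟨⟨w, ha, hb⟩, hbad⟩ := hab
    exact ⟨⟨w + -v, sq_shift _ ha, sq_shift _ hb⟩, by rwa [key]⟩)
  simpa [Function.onFun, eShift] using this

theorem lev_sq {k : ℤ} (hk : k = 0 ∨ k = 1) {v : V} {e : Edge} (h : e ∈ sq v) :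
    (lev k v ≤ lev k (eFst e) ∧ lev k (eFst e) ≤ lev k v + 1) ∧
      lev k v ≤ lev k (eSnd e) ∧ lev k (eSnd e) ≤ lev k v + 2 := by
  simp only [sq, Finset.mem_insert, Finset.mem_singleton] at h
  rcases hk with rfl | rfl <;> rcases h with rfl | rfl | rfl | rfl <;>
    simp [lev, eFst, eSnd] <;> omega

/-! ### Enclosed vertices -/

theorem pot_eq_zero_of_right {P : Finset Edge} (hP : EvenSq P) {x : V}
    (h : ∀ e ∈ P, e.2 = false → e.1.2 = x.2 → e.1.1 < x.1) : pot P x = 0 := by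
  classical
  have hpot : ∀ u : V, pot P u =
      ∑ e ∈ P, if e.2 = false ∧ e.1.2 = u.2 ∧ e.1.1 < u.1 then (1 : ZMod 2) else 0 :=
    fun u => by rw [pot, Finset.sum_boole]
  have hsq : ∀ v : V, ∑ e ∈ P, (if e ∈ sq v then (1 : ZMod 2) else 0) = 0 := fun v => by
    rw [Finset.sum_boole, Finset.filter_mem_eq_inter, ZMod.natCast_eq_zero_iff_even]
    exact hP v
  set f : ℤ → ℤ → ZMod 2 := fun a r => pot P (a, r) + pot P (a, r + 1) +
    ∑ e ∈ P, (if e = ((a, r), true) then (1 : ZMod 2) else 0) with hf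
  have hstep : ∀ a r, f (a + 1) r = f a r := by
    intro a r
    rw [← add_zero (f a r), ← hsq (a, r)]
    simp only [hf, hpot, ← Finset.sum_add_distrib]
    refine Finset.sum_congr rfl fun e _ => ?_
    obtain ⟨⟨a', r'⟩, b⟩ := e
    cases b <;> simp [sq] <;> split_ifs <;> first | rfl | decide | omega
  obtain ⟨N, hN⟩ : ∃ N : ℕ, ∀ e ∈ P, e.1.1.natAbs + e.1.2.natAbs < N :=
    ⟨P.sup (fun e => e.1.1.natAbs + e.1.2.natAbs) + 1, fun e he =>
      Nat.lt_succ_of_le (Finset.le_sup (f := fun e : Edge => e.1.1.natAbs + e.1.2.natAbs) he)⟩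
  have hfd : ∀ (j : ℕ) (r : ℤ), f (-(N : ℤ) + j) r = 0 := by
    intro j r
    induction j with
    | zero =>
      simp only [hf, hpot, ← Finset.sum_add_distrib]
      refine Finset.sum_eq_zero fun e he => ?_
      have := hN e he
      rw [if_neg (by rintro ⟨-, -, h⟩; simp at h; omega),
        if_neg (by rintro ⟨-, -, h⟩; simp at h; omega),
        if_neg (by rintro rfl; dsimp only at this; omega)]
      simp
    | succ j ih => rw [show -(N : ℤ) + (j + 1 : ℕ) = -(N : ℤ) + j + 1 by push_cast; ring, hstep, ih]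
  have hrow : ∀ r : ℤ, pot P ((N : ℤ), r) = pot P ((N : ℤ), r + 1) := by
    intro r
    have h2 := hfd (2 * N) r
    rw [show -(N : ℤ) + (2 * N : ℕ) = N by push_cast; ring] at h2
    simp only [hf] at h2
    have h3 : ∑ e ∈ P, (if e = (((N : ℤ), r), true) then (1 : ZMod 2) else 0) = 0 :=
      Finset.sum_eq_zero fun e he => if_neg
        (by rintro rfl; have := hN _ he; dsimp only at this; omega)
    rw [h3, add_zero, CharTwo.add_eq_zero] at h2
    exact h2
  have hup : ∀ (j : ℕ) (r : ℤ), pot P ((N : ℤ), r) = pot P ((N : ℤ), r + j) := by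
    intro j
    induction j with
    | zero => simp
    | succ j ih => intro r; rw [ih r, hrow]; push_cast; ring_nf
  have hfar : pot P ((N : ℤ), x.2 + (x.2.natAbs + N : ℕ)) = 0 := by
    rw [hpot]
    refine Finset.sum_eq_zero fun e he => if_neg ?_
    rintro ⟨-, h2, -⟩
    have := hN e he
    dsimp only at h2; omega
  have heq : pot P x = pot P ((N : ℤ), x.2) := by
    rw [hpot, hpot]
    refine Finset.sum_congr rfl fun e he => ?_
    have := hN e he
    refine if_congr ⟨?_, ?_⟩ rfl rfl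
    · rintro ⟨a, b, -⟩
      exact ⟨a, b, by dsimp only; omega⟩
    · rintro ⟨a, b, -⟩
      exact ⟨a, b, (h e he a b)⟩
  rw [heq, hup _ _, hfar]

theorem not_encl_of_lev {k : ℤ} {C : Set Edge} {x : V}
    (h : (∀ e ∈ C, lev k x + 1 ≤ lev k (eFst e)) ∨ ∀ e ∈ C, lev k (eFst e) + 1 ≤ lev k x) :
    ¬ Encl C x := by
  rintro ⟨P, hPC, hP, hx⟩
  rcases h with h | h
  · have h0 : (P.filter fun e => e.2 = false ∧ e.1.2 = x.2 ∧ e.1.1 < x.1) = ∅ := by
      refine Finset.filter_eq_empty_iff.2 fun e he => ?_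
      rintro ⟨-, h2, h3⟩
      have := h e (hPC he)
      simp only [lev, eFst, h2] at this
      linarith
    rw [pot, h0] at hx
    simp at hx
  · rw [pot_eq_zero_of_right hP fun e he _ h2 => ?_] at hx
    · simp at hx
    · have := h e (hPC he)
      simp only [lev, eFst, h2] at this
      linarith

/-! ### Horizontal lines -/

/-- The `i`-th edge of the horizontal line leaving `a` in the direction `s`. -/
def stepE (s : ℤ) (a : V) (i : ℕ) : Edge :=
  edgeOf (a.1 + s * i, a.2) (a.1 + s * (i + 1), a.2)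

theorem stepE_adj {s : ℤ} (hs : s = 1 ∨ s = -1) (a : V) (i : ℕ) :
    Adj ((a.1 + s * i, a.2) : V) (a.1 + s * (i + 1), a.2) := by
  rcases hs with rfl | rfl <;> simp [Adj]

theorem stepE_eq {s : ℤ} (a : V) (i : ℕ) :
    stepE s a i = eShift (a.1 + s * i, a.2) (stepE s 0 0) := by
  refine Prod.ext (Prod.ext ?_ ?_) ?_
  · simp only [stepE, eShift, edgeOf, Prod.fst_add]
    rw [← min_add_add_right]
    congr 1 <;> simp <;> ring
  · simp [stepE, eShift, edgeOf]
  · simp only [stepE, eShift, edgeOf, decide_eq_decide]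
    simp only [Prod.fst_zero, Nat.cast_zero]
    constructor <;> intro h <;> linarith

theorem stepE_eShift {s : ℤ} (a : V) (i : ℕ) : stepE s a i = eShift a (stepE s 0 i) := by
  refine Prod.ext (Prod.ext ?_ ?_) ?_
  · simp only [stepE, eShift, edgeOf, Prod.fst_add]
    rw [← min_add_add_right]
    congr 1 <;> simp <;> ring
  · simp [stepE, eShift, edgeOf]
  · simp only [stepE, eShift, edgeOf, decide_eq_decide]
    simp only [Prod.fst_zero]
    constructor <;> intro h <;> linarith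

theorem exists_line {s : ℤ} (hs : s = 1 ∨ s = -1) (a : V) : ∀ J : ℕ,
    ∃ p : grid.Walk a (a.1 + s * J, a.2), edgeList p = (List.range J).map (stepE s a) ∧
      ∀ v ∈ p.support, ∃ i ≤ J, v = (a.1 + s * i, a.2) := by
  intro J
  induction J with
  | zero => exact ⟨SimpleGraph.Walk.nil.copy rfl (by simp), by simp [edgeList], by simp⟩
  | succ J ih =>
    obtain ⟨p, hp, hs'⟩ := ih
    have hadj : grid.Adj ((a.1 + s * J, a.2) : V) (a.1 + s * ((J + 1 : ℕ) : ℤ), a.2) := by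
      push_cast; exact stepE_adj hs a J
    refine ⟨p.concat hadj, ?_, fun v hv => ?_⟩
    · rw [List.range_succ, List.map_append, ← hp]
      simp [edgeList, stepE, SimpleGraph.Walk.darts_concat]
    · rw [SimpleGraph.Walk.support_concat] at hv
      rcases (by simpa [List.concat_eq_append] using hv :
          v ∈ p.support ∨ v = (a.1 + s * ((J + 1 : ℕ) : ℤ), a.2)) with hv | hv
      · obtain ⟨i, hi, rfl⟩ := hs' v hv
        exact ⟨i, by omega, rfl⟩
      · exact ⟨J + 1, le_rfl, by simpa using hv⟩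

theorem walkIn_of_edgeList {S : Set Edge} {x y : V} {p : grid.Walk x y}
    (h : ∀ e ∈ edgeList p, e ∈ S) : WalkIn S p :=
  fun d hd => h _ (List.mem_map.2 ⟨d, hd, rfl⟩)

theorem edge_mem_of_walkIn {S : Set Edge} {x y : V} {p : grid.Walk x y}
    (h : WalkIn S p) : ∀ e ∈ edgeList p, e ∈ S := fun e he => by
  obtain ⟨d, hd, rfl⟩ := List.mem_map.1 he
  exact h d hd

theorem sum_filter_map {α : Type*} (l : List α) (P : α → Bool) (g : α → ℝ) :
    ((l.filter P).map g).sum = (l.map fun e => if P e then g e else 0).sum := by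
  induction l with
  | nil => simp
  | cons a l ih => by_cases h : P a <;> simp [h, ih]

/-! ### The ends of the route -/

theorem capY_nonneg (hm : 0 ≤ m) {e : Edge} (he : 0 ≤ t e) : 0 ≤ capY m t e := by
  unfold capY; split_ifs <;> positivity

/-- A horizontal end of the route, with the bad edges beyond the first `h` bypassed. -/
theorem end_det (hm : 0 < m) (hF : ShieldFacts m) (h0 : ∀ e, 0 ≤ t e) {k A B : ℤ}
    (hk : k = 0 ∨ k = 1) {s : ℤ} (hs : s = 1 ∨ s = -1) {a : V}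
    (ha : lev k a = A ∨ lev k a = B) {h J : ℕ} (hh : h ≤ J)
    (hz : OKpt m t (a.1 + s * J, a.2)) (hfin : ∀ e, (cl m t e).Finite)
    (hin : ∀ i, i < J → stepE s a i ∈ Strip k A B)
    (hpos : ∀ i, h ≤ i → i < J → ∀ f ∈ cl m t (stepE s a i),
      A + 3 ≤ lev k (eFst f) ∧ lev k (eFst f) ≤ B - 3) :
    TS t (Strip k A B) a (a.1 + s * J, a.2) ≤ (∑ i ∈ Finset.range h, t (stepE s a i)) + m * J +
      ∑ i ∈ Finset.Ico h J, capY m t (stepE s a i) ∧
    ConnIn (Strip k A B) a (a.1 + s * J, a.2) := by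
  classical
  obtain ⟨p, hp, -⟩ := exists_line hs a J
  have hpS : WalkIn (Strip k A B) p := walkIn_of_edgeList fun e he => by
    rw [hp, List.mem_map] at he
    obtain ⟨i, hi, rfl⟩ := he
    exact hin i (List.mem_range.1 hi)
  set U : Finset Edge := (Finset.Ico h J).biUnion fun i => (hfin (stepE s a i)).toFinset with hU
  have memU : ∀ e, e ∈ U ↔ ∃ i, (h ≤ i ∧ i < J) ∧ e ∈ cl m t (stepE s a i) := fun e => by
    simp [hU]
  have hUcl : ∀ e ∈ U, m < t e ∧ cl m t e ⊆ ↑U := fun e he => by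
    obtain ⟨i, hi, hei⟩ := (memU e).1 he
    exact ⟨bad_of_mem_cl hei, fun g hg =>
      Finset.mem_coe.2 ((memU g).2 ⟨i, hi, cl_subset hei hg⟩)⟩
  have hUlev : ∀ f ∈ U, A + 3 ≤ lev k (eFst f) ∧ lev k (eFst f) ≤ B - 3 := fun f hf => by
    obtain ⟨i, hi, hei⟩ := (memU f).1 hf
    exact hpos i hi.1 hi.2 f hei
  have hOa : OKon m (↑U) t a := by
    intro e he
    refine fun hE => not_encl_of_lev (k := k) (C := (↑U : Set Edge)) (x := a) ?_
      (encl_mono (hUcl e (Finset.mem_coe.1 he)).2 hE)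
    rcases ha with ha | ha
    · exact Or.inl fun f hf => by have := hUlev f (Finset.mem_coe.1 hf); omega
    · exact Or.inr fun f hf => by have := hUlev f (Finset.mem_coe.1 hf); omega
  obtain ⟨q, hq1, hq2⟩ := hF.detour t h0 a _ p U hUcl hOa (fun e _ => hz e trivial)
  have hqS : WalkIn (Strip k A B) q := hq2.mono fun e he => by
    obtain ⟨-, he | ⟨-, v, hev, f, hfU, hfv⟩⟩ := he
    · exact edge_mem_of_walkIn hpS e he
    · have h1 := hUlev f hfU
      obtain ⟨h2, -⟩ := lev_sq hk hfv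
      obtain ⟨h3, h4⟩ := lev_sq hk hev
      simp only [Strip, rigE, lefE, Set.mem_inter_iff, Set.mem_ofPred_eq]
      omega
  refine ⟨(TS_le h0 hqS).trans (hq1.trans ?_), ⟨p, hpS⟩⟩
  refine add_le_add ?_ ?_
  · rw [sum_filter_map, hp, List.map_map]
    change ∑ i ∈ Finset.range J, _ ≤ _
    refine (Finset.sum_le_sum (g := fun i => (if i < h then t (stepE s a i) else 0) + m)
      fun i hi => ?_).trans ?_
    · simp only [Function.comp_apply, decide_eq_true_eq]
      by_cases hih : i < h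
      · rw [if_pos hih]
        split_ifs <;> linarith [h0 (stepE s a i)]
      · rw [if_neg hih, zero_add]
        split_ifs with hU'
        · exact hm.le
        · by_contra hcon
          exact hU' ((memU _).2 ⟨i, ⟨by omega, Finset.mem_range.1 hi⟩, not_le.1 hcon, .refl⟩)
    · rw [Finset.sum_add_distrib, ← Finset.sum_filter, Finset.sum_const, Finset.card_range,
        nsmul_eq_mul, mul_comm]
      refine add_le_add (le_of_eq (Finset.sum_congr ?_ fun _ _ => rfl)) le_rfl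
      ext i; simp; omega
  · have hc : (U.card : ℝ) ≤ ∑ i ∈ Finset.Ico h J, ((cl m t (stepE s a i)).ncard : ℝ) := by
      rw [← Nat.cast_sum, Nat.cast_le]
      refine Finset.card_biUnion_le.trans (le_of_eq (Finset.sum_congr rfl fun i _ => ?_))
      rw [Set.ncard_eq_toFinset_card _ (hfin _)]
    refine (mul_le_mul_of_nonneg_left hc (by positivity)).trans ?_
    rw [Finset.mul_sum]
    refine Finset.sum_le_sum fun i _ => ?_
    rw [capY, if_pos (hfin _)]
    nlinarith [Nat.cast_nonneg (α := ℝ) (cl m t (stepE s a i)).ncard]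

/-- Where the clusters are, when they stay near their edges. -/
theorem cl_lev {k : ℤ} (hk : k = 0 ∨ k = 1) {s : ℤ} (hs : s = 1 ∨ s = -1) {a : V} {i : ℕ}
    (hst : Stay m 1 (i / 4) (shift (a.1 + s * i, a.2) t)) {f : Edge}
    (hf : f ∈ cl m t (stepE s a i)) :
    2 * |lev k (eFst f) - (lev k a + s * i)| ≤ i := by
  rw [stepE_eq] at hf
  have h1 := (hst (stepE s 0 0) (Or.inl ?_) _ (cl_shift hf)).1
  · simp only [InSq, eShift, eFst, Prod.fst_add, Prod.snd_add, Prod.fst_neg, Prod.snd_neg] at h1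
    obtain ⟨a1, a2, a3, a4⟩ := h1
    simp only [lev, eFst]
    push_cast at a1 a2 a3 a4
    rcases abs_cases (f.1.1 + k * f.1.2 - (a.1 + k * a.2 + s * i)) with ⟨e, -⟩ | ⟨e, -⟩ <;>
      rw [e] <;> rcases hk with rfl | rfl <;> rcases hs with rfl | rfl <;> omega
  · rcases hs with rfl | rfl <;> simp [stepE, edgeOf, eFst, InSq]

/-! ### The middle of the route -/

/-- A horizontal line of length `L + 1` from the box contains an unenclosed vertex. -/
theorem exists_ok (hF : ShieldFacts m) {N L : ℕ} (hloc : Loc m N L t) {u : V} (hu : InSq N u) :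
    ∃ j, j ≤ L + 1 ∧ OKpt m t (u.1 + j, u.2) ∧ (OKpt m t u → j = 0) := by
  by_cases h : OKpt m t u
  · exact ⟨0, by omega, by simpa using h, fun _ => rfl⟩
  by_contra hcon
  simp only [h, false_imp_iff, and_true, not_exists, not_and] at hcon
  obtain ⟨p, -, hp⟩ := exists_line (Or.inl rfl) u (L + 1)
  have := hF.escape N L t hloc u _ p hu (fun v hv => by
    obtain ⟨i, hi, rfl⟩ := hp v hv
    simpa using hcon i hi) _ p.end_mem_support
  have := abs_le.1 this.1
  dsimp only at this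
  push_cast at this
  omega

/-- A short piece between unenclosed vertices far from both levels is crossed inside the strip. -/
theorem middle_piece (hm : 0 < m) (hF : ShieldFacts m) {κ A' : ℝ} {N L : ℕ}
    (hb : BoxOK m κ A' N L t) (hκ : 0 < κ) {k A B : ℤ} (hk : k = 0 ∨ k = 1) {u w : V}
    (hu : InSq N u) (hou : OKpt m t u) (how : OKpt m t w) {W : ℝ}
    (hW : T (shield m t) u w ≤ W) {ℓ : ℕ} (hL : L ≤ ℓ) (hℓ : W + 1 ≤ κ * ℓ)
    (h1 : A + ℓ ≤ lev k u) (h2 : lev k u + ℓ ≤ B) :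
    TS t (Strip k A B) u w ≤ W + 1 ∧ ConnIn (Strip k A B) u w := by
  have h00 : ∀ e, 0 ≤ shield m t e := fun e => by
    refine le_trans ?_ (hF.cap_low Set.univ t e)
    unfold capTo
    split_ifs with hh
    · exact hb.nonneg e
    · have := not_le.1 hh
      have : 0 ≤ (t e - m) / (1 + (t e - m)) := div_nonneg (by linarith) (by linarith)
      linarith
  have hpos : 0 < min m 1 := lt_min hm one_pos
  obtain ⟨p, hp⟩ : ∃ p : grid.Walk u w,
      plen (shield m t) p < T (shield m t) u w + min m 1 := by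
    by_contra hcon
    push Not at hcon
    linarith [le_T hcon]
  have hbp := (plen_bypass_le h00 p).trans_lt hp
  have hm1 := min_le_right m 1
  have hlen : p.bypass.length ≤ ℓ := by
    by_contra hcon
    push Not at hcon
    have h3 := hb.long u w p.bypass hu p.bypass_isPath (by omega)
    have : (ℓ : ℝ) < p.bypass.length := by exact_mod_cast hcon
    nlinarith
  have hin : WalkIn (Strip k A B) p.bypass :=
    mem_strip_of_length hk p.bypass (by omega) (by omega)
  have hT : T (shield m t) u w = T t u w := hF.eq_T Set.univ t hb.nonneg u w hou how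
  have heq : plen t p.bypass = plen (shield m t) p.bypass := by
    refine congrArg List.sum (List.map_congr_left fun d hd => ?_)
    refine le_antisymm ?_ (hF.le Set.univ t _)
    by_contra hlt
    have := hF.lowered Set.univ t hb.nonneg u w p.bypass hou how ⟨d, hd, not_le.1 hlt⟩
    have := min_le_left m 1
    change T t u w + m ≤ plen (shield m t) p.bypass at *
    linarith
  exact ⟨(TS_le hb.nonneg hin).trans (by linarith), ⟨_, hin⟩⟩

/-- The chain of short pieces between two unenclosed vertices. -/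
theorem chain_det (hm : 0 < m) (hF : ShieldFacts m) {μ : ℝ × ℝ → ℝ} {AA : ℝ} (hA : 0 ≤ AA)
    (hlip : ∀ v w, |μ v - μ w| ≤ AA * r1 (v - w))
    (hsmul : ∀ (r : ℝ) v, 0 ≤ r → μ (r • v) = r * μ v) {κ A' : ℝ} (hκ : 0 < κ) {N N' L : ℕ}
    (hb : BoxOK m κ A' N L t) (hN : N' + L + 2 ≤ N) {D : ℝ}
    (hsh : ∀ u w, InSq N u → InSq N w → T (shield m t) u w ≤ μ (toR w - toR u) + D)
    {k A B : ℤ} (hk : k = 0 ∨ k = 1) {z₀ z₁ : V} (hz₀ : InSq N' z₀) (hz₁ : InSq N' z₁)
    (ho₀ : OKpt m t z₀) (ho₁ : OKpt m t z₁) {h : ℕ}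
    (hl₀ : A + h ≤ lev k z₀ ∧ lev k z₀ + h ≤ B) (hl₁ : A + h ≤ lev k z₁ ∧ lev k z₁ + h ≤ B)
    {K : ℕ} (hK : 0 < K) (hh : 2 * L + 4 ≤ h)
    (hℓ : AA * (r1 (toR z₁ - toR z₀) / K + 2 * L + 8) + D + 1 ≤ κ * ((h : ℝ) - L - 4)) :
    TS t (Strip k A B) z₀ z₁ ≤ μ (toR z₁ - toR z₀) + K * (AA * (2 * L + 8) + D + 1) ∧
      ConnIn (Strip k A B) z₀ z₁ := by
  classical
  have hK' : (0 : ℝ) < K := by exact_mod_cast hK
  set q : ℝ × ℝ := (1 / (K : ℝ)) • (toR z₁ - toR z₀) with hq
  set w : ℕ → V := fun i => z₀ + flr i q with hw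
  have hw0 : w 0 = z₀ := by simp [hw, flr]
  have hwK : w K = z₁ := by
    have e : ∀ a b : ℤ, (K : ℝ) * (1 / K * ((a : ℝ) - b)) = ((a - b : ℤ) : ℝ) := fun a b => by
      push_cast; field_simp
    refine Prod.ext ?_ ?_ <;>
      simp only [hw, hq, flr, toR, Prod.fst_add, Prod.snd_add, Prod.smul_fst, Prod.smul_snd,
        Prod.fst_sub, Prod.snd_sub, smul_eq_mul, e, Int.floor_intCast] <;> ring
  have hgeo : ∀ i ≤ K, InSq (N' + 1 : ℕ) (w i) ∧
      A + h - 2 ≤ lev k (w i) ∧ lev k (w i) + h ≤ B := by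
    intro i hi
    have hl0 : (0 : ℝ) ≤ (i : ℝ) / K := by positivity
    have hl1 : (i : ℝ) / K ≤ 1 := (div_le_one hK').2 (by exact_mod_cast hi)
    have hmix : ∀ a b lo hi' : ℝ, lo ≤ a → a ≤ hi' → lo ≤ b → b ≤ hi' →
        lo ≤ a + (i : ℝ) / K * (b - a) ∧ a + (i : ℝ) / K * (b - a) ≤ hi' := by
      intro a b lo hi' a1 a2 b1 b2
      constructor <;> nlinarith
    have f1 := Int.floor_le ((i : ℝ) * q.1)
    have f2 := Int.lt_floor_add_one ((i : ℝ) * q.1)
    have f3 := Int.floor_le ((i : ℝ) * q.2)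
    have f4 := Int.lt_floor_add_one ((i : ℝ) * q.2)
    have e1 : (i : ℝ) * q.1 = (i : ℝ) / K * ((z₁.1 : ℝ) - z₀.1) := by simp [hq, toR]; ring
    have e2 : (i : ℝ) * q.2 = (i : ℝ) / K * ((z₁.2 : ℝ) - z₀.2) := by simp [hq, toR]; ring
    obtain ⟨a1, a2, a3, a4⟩ := hz₀
    obtain ⟨b1, b2, b3, b4⟩ := hz₁
    rify at a1 a2 a3 a4 b1 b2 b3 b4
    obtain ⟨c1, c2⟩ := hmix _ _ _ _ a1 a2 b1 b2
    obtain ⟨c3, c4⟩ := hmix _ _ _ _ a3 a4 b3 b4
    obtain ⟨l1, l2⟩ := hl₀
    obtain ⟨l3, l4⟩ := hl₁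
    rify at l1 l2 l3 l4
    obtain ⟨c5, c6⟩ := hmix (lev k z₀ : ℝ) (lev k z₁) ((A : ℝ) + h) ((B : ℝ) - h) l1
      (by linarith) l3 (by linarith)
    simp only [InSq, hw, lev, flr, Prod.fst_add, Prod.snd_add] at c5 c6 ⊢
    refine ⟨⟨?_, ?_, ?_, ?_⟩, ?_, ?_⟩ <;> rify <;> push_cast at c5 c6 ⊢ <;>
      rcases hk with rfl | rfl <;> simp only [Int.cast_zero, Int.cast_one, zero_mul, one_mul,
        add_zero] at c5 c6 ⊢ <;> linarith
  have hex : ∀ i, ∃ j, i ≤ K → j ≤ L + 1 ∧ OKpt m t ((w i).1 + j, (w i).2) ∧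
      (OKpt m t (w i) → j = 0) := fun i => by
    by_cases hi : i ≤ K
    · obtain ⟨j, hj⟩ := exists_ok hF hb.loc (u := w i) (by
        have := (hgeo i hi).1
        simp only [InSq] at this ⊢; omega)
      exact ⟨j, fun _ => hj⟩
    · exact ⟨0, fun h => absurd h hi⟩
  choose j hj using hex
  set z : ℕ → V := fun i => ((w i).1 + j i, (w i).2) with hz
  have hz0 : z 0 = z₀ := by simp [hz, (hj 0 (Nat.zero_le _)).2.2 (hw0 ▸ ho₀), hw0]
  have hzK : z K = z₁ := by simp [hz, (hj K le_rfl).2.2 (hwK ▸ ho₁), hwK]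
  have hzbox : ∀ i ≤ K, InSq N (z i) ∧ A + ((h - L - 4 : ℕ) : ℤ) ≤ lev k (z i) ∧
      lev k (z i) + ((h - L - 4 : ℕ) : ℤ) ≤ B := by
    intro i hi
    obtain ⟨h1, h2, h3⟩ := hgeo i hi
    have := (hj i hi).1
    simp only [InSq, hz, lev] at h1 h2 h3 ⊢
    omega
  have hstep : ∀ i < K, r1 (toR (z (i + 1)) - toR (z i) - q) ≤ 2 * L + 8 := by
    intro i hi
    have e : toR (z (i + 1)) - toR (z i) - q =
        (toR (flr ((i + 1 : ℕ) : ℝ) q) - ((i + 1 : ℕ) : ℝ) • q) +
          -(toR (flr (i : ℕ) q) - (i : ℝ) • q) + (((j (i + 1) : ℝ) - j i), 0) := by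
      refine Prod.ext ?_ ?_ <;> simp [hz, hw, toR] <;> ring
    rw [e]
    refine (r1_add _ _).trans ?_
    refine le_trans (add_le_add (r1_add _ _) le_rfl) ?_
    rw [r1_neg]
    have g1 : (j i : ℝ) ≤ L + 1 := by exact_mod_cast (hj i hi.le).1
    have g2 : (j (i + 1) : ℝ) ≤ L + 1 := by exact_mod_cast (hj (i + 1) hi).1
    have g3 : r1 (((j (i + 1) : ℝ) - j i), (0 : ℝ)) ≤ L + 1 := by
      have := Nat.cast_nonneg (α := ℝ) (j i)
      have := Nat.cast_nonneg (α := ℝ) (j (i + 1))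
      simp only [r1, abs_zero, add_zero]
      exact abs_le.2 ⟨by linarith, by linarith⟩
    linarith [flr_close ((i + 1 : ℕ) : ℝ) q, flr_close ((i : ℕ) : ℝ) q,
      Nat.cast_nonneg (α := ℝ) L]
  have hμq : μ q ≤ AA * r1 q := by
    have h1 := (abs_le.1 (hlip q 0)).2
    have h2 : μ 0 = 0 := by simpa using hsmul 0 0 le_rfl
    simp only [sub_zero] at h1; linarith
  have hr1q : r1 q = r1 (toR z₁ - toR z₀) / K := by
    rw [hq, r1_smul, abs_of_pos (by positivity), one_div_mul_eq_div]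
  set W : ℝ := μ q + AA * (2 * L + 8) + D with hW
  have hpiece : ∀ i < K, TS t (Strip k A B) (z i) (z (i + 1)) ≤ W + 1 ∧
      ConnIn (Strip k A B) (z i) (z (i + 1)) := by
    intro i hi
    obtain ⟨b1, b2, b3⟩ := hzbox i hi.le
    refine middle_piece hm hF hb hκ hk b1 (hj i hi.le).2.1 (hj (i + 1) hi).2.1 ?_
      (show L ≤ h - L - 4 by omega) ?_ b2 b3
    · refine (hsh _ _ b1 (hzbox (i + 1) hi).1).trans ?_
      have := (abs_le.1 (hlip (toR (z (i + 1)) - toR (z i)) q)).2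
      have := mul_le_mul_of_nonneg_left (hstep i hi) hA
      linarith
    · rw [Nat.cast_sub (by omega), Nat.cast_sub (by omega)]
      rw [← hr1q] at hℓ
      push_cast
      rw [hW]; linarith
  have hchain : ∀ i ≤ K, TS t (Strip k A B) z₀ (z i) ≤ i * (W + 1) ∧
      ConnIn (Strip k A B) z₀ (z i) := by
    intro i
    induction i with
    | zero => exact fun _ => ⟨by simp [hz0, TS_self hb.nonneg], hz0 ▸ ConnIn.refl _⟩
    | succ i ih =>
      intro hi
      obtain ⟨c1, c2⟩ := ih (by omega)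
      obtain ⟨d1, d2⟩ := hpiece i (by omega)
      refine ⟨(TS_triangle hb.nonneg c2 d2).trans ?_, c2.trans d2⟩
      push_cast; linarith
  obtain ⟨m1, m2⟩ := hchain K le_rfl
  rw [hzK] at m1 m2
  refine ⟨m1.trans (le_of_eq ?_), m2⟩
  have : (K : ℝ) * μ q = μ (toR z₁ - toR z₀) := by
    rw [hq, hsmul _ _ (by positivity), ← mul_assoc, mul_one_div, div_self hK'.ne', one_mul]
  rw [hW, ← this]; ring

/-- The full route: two horizontal ends and the chain between them. -/
theorem route_det (hm : 0 < m) (hF : ShieldFacts m) {μ : ℝ × ℝ → ℝ} {AA : ℝ} (hA : 0 ≤ AA)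
    (hlip : ∀ v w, |μ v - μ w| ≤ AA * r1 (v - w))
    (hsmul : ∀ (r : ℝ) v, 0 ≤ r → μ (r • v) = r * μ v) {κ A' : ℝ} (hκ : 0 < κ) {N N₀ L : ℕ}
    (hb : BoxOK m κ A' N L t) {D : ℝ}
    (hsh : ∀ u w, InSq N u → InSq N w → T (shield m t) u w ≤ μ (toR w - toR u) + D)
    {k : ℤ} (hk : k = 0 ∨ k = 1) {x y : V} (hx : InSq N₀ x) (hy : InSq N₀ y) {h₀ hn : ℕ}
    (h6 : 6 ≤ h₀) (h0n : h₀ ≤ hn) (hLn : 2 * L + 4 ≤ hn) (hN : N₀ + 2 * hn + L + 2 ≤ N)
    (hlev : 4 * (hn : ℤ) + 3 ≤ lev k y - lev k x)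
    (hst : ∀ i, h₀ ≤ i → Stay m 1 (i / 4) (shift (x.1 + 1 * i, x.2) t))
    (hst' : ∀ i, h₀ ≤ i → Stay m 1 (i / 4) (shift (y.1 + -1 * i, y.2) t))
    {R Q : ℝ} (hR : ∑ i ∈ Finset.range h₀, t (stepE 1 x i) ≤ R)
    (hR' : ∑ i ∈ Finset.range h₀, t (stepE (-1) y i) ≤ R)
    (hQ : ∑ i ∈ Finset.range (2 * hn), capY m t (stepE 1 x i) ≤ Q)
    (hQ' : ∑ i ∈ Finset.range (2 * hn), capY m t (stepE (-1) y i) ≤ Q)
    {K : ℕ} (hK : 0 < K)
    (hℓ : AA * (4 * (N : ℝ) / K + 2 * L + 8) + D + 1 ≤ κ * ((hn : ℝ) - L - 4)) :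
    TS t (Strip k (lev k x) (lev k y)) x y ≤ μ (toR y - toR x) + 2 * R + 2 * Q +
      4 * (m + AA) * hn + K * (AA * (2 * L + 8) + D + 1) := by
  have h0 := hb.nonneg
  obtain ⟨j₀, hj₀, hz₀, -⟩ := exists_ok hF hb.loc (u := (x.1 + hn, x.2))
    (by simp only [InSq] at hx ⊢; omega)
  obtain ⟨j₁, hj₁, hz₁, -⟩ := exists_ok hF hb.loc (u := (y.1 - hn - (L + 1), y.2))
    (by simp only [InSq] at hy ⊢; omega)
  obtain ⟨J₁, hJ₁⟩ : ∃ J₁ : ℕ, J₁ + j₁ = hn + L + 1 := ⟨hn + L + 1 - j₁, by omega⟩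
  set J₀ : ℕ := hn + j₀ with hJ₀
  have e0 : ((x.1 + hn + j₀, x.2) : V) = (x.1 + 1 * (J₀ : ℤ), x.2) := by
    simp [hJ₀]; ring
  have e1 : ((y.1 - hn - (L + 1) + j₁, y.2) : V) = (y.1 + -1 * (J₁ : ℤ), y.2) := by
    simp only [Prod.mk.injEq, and_true]; omega
  simp only at hz₀ hz₁
  rw [e0] at hz₀
  rw [e1] at hz₁
  have hlevi : ∀ (s : ℤ) (a : V) (i : ℕ), lev k (a.1 + s * i, a.2) = lev k a + s * i :=
    fun s a i => by simp only [lev]; ring
  have hstrip : ∀ {s : ℤ} (_ : s = 1 ∨ s = -1) (a : V) (J : ℕ), J ≤ 2 * hn →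
      (s = 1 ∧ lev k a = lev k x ∨ s = -1 ∧ lev k a = lev k y) →
      ∀ i, i < J → stepE s a i ∈ Strip k (lev k x) (lev k y) := by
    intro s hs a J hJ ha i hi
    rw [stepE, edge_mem_strip (stepE_adj hs a i),
      show ((i : ℤ) + 1) = ((i + 1 : ℕ) : ℤ) by simp, hlevi, hlevi]
    rcases ha with ⟨rfl, ha⟩ | ⟨rfl, ha⟩ <;> push_cast <;> omega
  obtain ⟨t₀, c₀⟩ := end_det hm hF h0 hk (Or.inl rfl) (A := lev k x) (B := lev k y) (Or.inl rfl)
    (show h₀ ≤ J₀ by omega) hz₀ hb.loc.tame.fin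
    (hstrip (Or.inl rfl) x J₀ (by omega) (Or.inl ⟨rfl, rfl⟩)) (fun i hi hiJ f hf => by
      have := abs_le.1 (show |lev k (eFst f) - (lev k x + 1 * i)| ≤ (i : ℤ) / 2 by
        have := cl_lev hk (Or.inl rfl) (hst i hi) hf; omega)
      omega)
  obtain ⟨t₁, c₁⟩ := end_det hm hF h0 hk (Or.inr rfl) (A := lev k x) (B := lev k y) (Or.inr rfl)
    (show h₀ ≤ J₁ by omega) hz₁ hb.loc.tame.fin
    (hstrip (Or.inr rfl) y J₁ (by omega) (Or.inr ⟨rfl, rfl⟩)) (fun i hi hiJ f hf => by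
      have := abs_le.1 (show |lev k (eFst f) - (lev k y + -1 * i)| ≤ (i : ℤ) / 2 by
        have := cl_lev hk (Or.inr rfl) (hst' i hi) hf; omega)
      omega)
  set z₀ : V := (x.1 + 1 * (J₀ : ℤ), x.2) with hz₀e
  set z₁ : V := (y.1 + -1 * (J₁ : ℤ), y.2) with hz₁e
  have hb₀ : InSq (N₀ + 2 * hn : ℕ) z₀ := by simp only [InSq, hz₀e] at hx ⊢; omega
  have hb₁ : InSq (N₀ + 2 * hn : ℕ) z₁ := by simp only [InSq, hz₁e] at hy ⊢; omega
  have hr : r1 (toR z₁ - toR z₀) ≤ 4 * (N : ℝ) := by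
    obtain ⟨a1, a2, a3, a4⟩ := hb₀
    obtain ⟨b1, b2, b3, b4⟩ := hb₁
    rify at a1 a2 a3 a4 b1 b2 b3 b4
    push_cast at a1 a2 a3 a4 b1 b2 b3 b4
    have hN' : ((N₀ + 2 * hn + L + 2 : ℕ) : ℝ) ≤ N := Nat.cast_le.2 hN
    push_cast at hN'
    have := Nat.cast_nonneg (α := ℝ) L
    simp only [r1, toR, Prod.fst_sub, Prod.snd_sub]
    have p1 : |(z₁.1 : ℝ) - z₀.1| ≤ 2 * N := abs_le.2 ⟨by linarith, by linarith⟩
    have p2 : |(z₁.2 : ℝ) - z₀.2| ≤ 2 * N := abs_le.2 ⟨by linarith, by linarith⟩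
    linarith
  obtain ⟨t₂, c₂⟩ := chain_det hm hF hA hlip hsmul hκ hb (N' := N₀ + 2 * hn) (by omega) hsh hk
    (A := lev k x) (B := lev k y) hb₀ hb₁ hz₀ hz₁ (h := hn)
    (by simp only [hz₀e, hlevi]; omega) (by simp only [hz₁e, hlevi]; omega) hK hLn
    (le_trans (by gcongr) hℓ)
  have q₁ := TS_triangle h0 (c₀.trans c₂) c₁.symm
  have q₂ := TS_triangle h0 c₀ c₂
  rw [TS_comm _ z₁ y] at q₁
  have hJ : ∀ J : ℕ, J ≤ 2 * hn → m * (J : ℝ) ≤ m * (2 * hn) := fun J hJ => by
    have : (J : ℝ) ≤ ((2 * hn : ℕ) : ℝ) := Nat.cast_le.2 hJ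
    push_cast at this
    exact mul_le_mul_of_nonneg_left this hm.le
  have hcap : ∀ (s : ℤ) (a : V) (J : ℕ), J ≤ 2 * hn →
      ∑ i ∈ Finset.Ico h₀ J, capY m t (stepE s a i) ≤
        ∑ i ∈ Finset.range (2 * hn), capY m t (stepE s a i) := fun s a J hJ =>
    Finset.sum_le_sum_of_subset_of_nonneg
      (fun i hi => by simp only [Finset.mem_Ico, Finset.mem_range] at hi ⊢; omega)
      fun i _ _ => capY_nonneg hm.le (h0 _)
  have hμ : μ (toR z₁ - toR z₀) ≤ μ (toR y - toR x) + AA * (4 * hn) := by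
    have h1 := (abs_le.1 (hlip (toR z₁ - toR z₀) (toR y - toR x))).2
    have e : toR z₁ - toR z₀ - (toR y - toR x) = (-((J₀ + J₁ : ℕ) : ℝ), 0) := by
      refine Prod.ext ?_ ?_ <;> simp [hz₀e, hz₁e, toR]; ring
    have h2 : ((J₀ + J₁ : ℕ) : ℝ) ≤ 4 * hn := by
      have : J₀ + J₁ ≤ 4 * hn := by omega
      exact_mod_cast this
    rw [e, r1, abs_neg, abs_zero, add_zero, abs_of_nonneg (Nat.cast_nonneg _)] at h1
    have := mul_le_mul_of_nonneg_left h2 hA
    linarith
  have := hJ J₀ (by omega)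
  have := hJ J₁ (by omega)
  have := hcap 1 x J₀ (by omega)
  have := hcap (-1) y J₁ (by omega)
  linarith

/-! ### The bad events -/

variable {G : Measure ℝ}

/-- The tail of the events that clusters far along a line come back near its start. -/
theorem exists_far [IsProbabilityMeasure G] {κ AY : ℝ} (hSL : ShieldLaw m G κ AY) {d : ℝ≥0∞}
    (hd : 0 < d) : ∃ h₀ : ℕ, 6 ≤ h₀ ∧ ∀ (s : ℤ) (a : V),
      law G {t | ∃ i, h₀ ≤ i ∧ ¬ Stay m 1 (i / 4) (shift (a.1 + s * i, a.2) t)} ≤ d := by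
  set b : ℕ → ℝ := fun i => 300000 * (9 / 10 : ℝ) ^ i with hb
  have hb0 : ∀ i, 0 ≤ b i := fun i => by positivity
  have hsum : Summable b :=
    (summable_geometric_of_lt_one (by norm_num) (by norm_num)).mul_left _
  have htop : ∑' i, ENNReal.ofReal (b i) ≠ ⊤ := by
    rw [← ENNReal.ofReal_tsum_of_nonneg hb0 hsum]; exact ENNReal.ofReal_ne_top
  obtain ⟨h₁, hh₁⟩ :=
    eventually_atTop.1 (ENNReal.tendsto_nhds_zero.1 (ENNReal.tendsto_sum_nat_add _ htop) d hd)
  refine ⟨max h₁ 20, by omega, fun s a => ?_⟩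
  refine (measure_mono (t := ⋃ j : ℕ, shift (a.1 + s * (j + max h₁ 20 : ℕ), a.2) ⁻¹'
    {t | ¬ Stay m 1 ((j + max h₁ 20) / 4) t}) ?_).trans ?_
  · rintro t ⟨i, hi, hst⟩
    obtain ⟨j, rfl⟩ := Nat.exists_eq_add_of_le hi
    exact Set.mem_iUnion.2 ⟨j, by rwa [add_comm (max h₁ 20) j] at hst⟩
  refine (measure_iUnion_le _).trans (le_trans (ENNReal.tsum_le_tsum fun j => ?_)
    (hh₁ (max h₁ 20) (le_max_left _ _)))
  rw [law_shift_preimage]
  set i := j + max h₁ 20 with hi
  refine (hSL.stay 1 (i / 4) (by omega)).trans (ENNReal.ofReal_le_ofReal ?_)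
  have e1 : (1 / 2 : ℝ) ^ (i / 4 - 1 - 4) * (1 / 2) ^ 5 = (1 / 2) ^ (i / 4) := by
    rw [← pow_add]; congr 1; omega
  have e2 : (1 / 2 : ℝ) ^ (i / 4) ≤ (9 / 10 : ℝ) ^ (4 * (i / 4)) := by
    rw [pow_mul]; exact pow_le_pow_left₀ (by norm_num) (by norm_num) _
  have e3 : (9 / 10 : ℝ) ^ (4 * (i / 4)) * (9 / 10) ^ (i % 4) = (9 / 10) ^ i := by
    rw [← pow_add]; congr 1; omega
  have e4 : (9 / 10 : ℝ) ^ 3 ≤ (9 / 10) ^ (i % 4) :=
    pow_le_pow_of_le_one (by norm_num) (by norm_num) (by omega)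
  have e5 : (0 : ℝ) ≤ (9 / 10) ^ (4 * (i / 4)) := by positivity
  simp only [hb]
  push_cast
  nlinarith [mul_le_mul_of_nonneg_left e4 e5]

/-- A sum of finitely many weights along a line is at most a multiple of `n`, in probability. -/
theorem raw_tendsto [IsProbabilityMeasure G] (s : ℤ) (h : ℕ) {c : ℝ} (hc : 0 < c) (a : ℕ → V) :
    Tendsto (fun n : ℕ => law G {t | c * n < ∑ i ∈ Finset.range h, t (stepE s (a n) i)}) atTop
      (𝓝 0) := by
  have : IsProbabilityMeasure (law G) := by unfold law; infer_instance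
  set f : Conf → ℝ := fun t => ∑ i ∈ Finset.range h, t (stepE s 0 i) with hf
  have hfm : Measurable f := Finset.measurable_sum _ fun i _ => measurable_pi_apply _
  have h1 : Tendsto (fun n : ℕ => law G {t | c * n < f t}) atTop (𝓝 0) := by
    have h2 := tendsto_measure_iInter_atTop (μ := law G) (s := fun n : ℕ => {t | c * n < f t})
      (fun n => (measurableSet_lt measurable_const hfm).nullMeasurableSet)
      (fun n n' hn t ht => lt_of_le_of_lt
        (mul_le_mul_of_nonneg_left (Nat.cast_le.2 hn) hc.le) ht)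
      ⟨0, measure_ne_top _ _⟩
    have h3 : ⋂ n : ℕ, {t : Conf | c * n < f t} = ∅ := by
      refine Set.eq_empty_iff_forall_notMem.2 fun t ht => ?_
      obtain ⟨n, hn⟩ := exists_nat_gt (f t / c)
      rw [div_lt_iff₀ hc] at hn
      have := Set.mem_iInter.1 ht n
      simp only [Set.mem_ofPred_eq] at this
      linarith
    rw [h3, measure_empty] at h2
    exact h2
  refine h1.congr fun n => ?_
  rw [← law_shift_preimage (a n)]
  refine congrArg _ (Set.ext fun t => ?_)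
  simp [hf, shift, ← stepE_eShift]

/-- The cluster sums along a line are linear, by Markov's inequality. -/
theorem cap_markov (hm : 0 < m) {κ AY : ℝ} (hSL : ShieldLaw m G κ AY) (s : ℤ) (a : V) (J : ℕ)
    {c : ℝ} (hc : 0 < c) [IsProbabilityMeasure G] :
    law G {t | c < ∑ i ∈ Finset.range J, capY m t (stepE s a i)} ≤
      ENNReal.ofReal (J * AY / c) := by
  have : IsProbabilityMeasure (law G) := by unfold law; infer_instance
  have hint : Integrable (fun t => ∑ i ∈ Finset.range J, capY m t (stepE s a i)) (law G) :=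
    integrable_finsetSum _ fun i _ => hSL.int_capY _
  have hnn : 0 ≤ᵐ[law G] fun t => ∑ i ∈ Finset.range J, capY m t (stepE s a i) := by
    filter_upwards [hSL.tame] with t ht
    refine Finset.sum_nonneg fun i _ => ?_
    rw [capY, if_pos (ht.fin _)]
    positivity
  have h1 := mul_meas_ge_le_integral_of_nonneg hnn hint c
  rw [integral_finsetSum _ fun i _ => hSL.int_capY _] at h1
  have h2 := Finset.sum_le_sum (s := Finset.range J) fun i _ => hSL.mean_capY (stepE s a i)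
  rw [Finset.sum_const, Finset.card_range, nsmul_eq_mul] at h2
  refine (measure_mono (t := {t | c ≤ ∑ i ∈ Finset.range J, capY m t (stepE s a i)})
    fun t ht => le_of_lt (show c < _ from ht)).trans ?_
  rw [← ENNReal.ofReal_toReal (measure_ne_top (law G) _)]
  refine ENNReal.ofReal_le_ofReal ((le_div_iff₀' hc).2 ?_)
  exact h1.trans h2

theorem lc_le {n : ℕ} {c : ℝ} (hc : 0 < c) (hn : 4 / c ^ 2 + 2 / c ≤ n) : (Lc n : ℝ) ≤ c * n := by
  have h1 : Nat.sqrt (Nat.sqrt n) ≤ Nat.sqrt n := Nat.sqrt_le_self _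
  have h2 : Nat.sqrt n * Nat.sqrt n ≤ n := Nat.sqrt_le n
  rify at h1 h2
  have h3 : 4 / c ^ 2 * c ^ 2 = 4 := div_mul_cancel₀ _ (by positivity)
  have h4 : 2 / c * c = 2 := div_mul_cancel₀ _ hc.ne'
  have h5 : 0 ≤ 4 / c ^ 2 := by positivity
  have h6 : 0 ≤ 2 / c := by positivity
  rw [Lc]
  push_cast
  nlinarith [mul_le_mul_of_nonneg_right hn hc.le, mul_le_mul_of_nonneg_right hn (sq_nonneg c),
    sq_nonneg ((Nat.sqrt n : ℝ) * c - 1)]

end StripG

open StripG

/-- Passage times inside strips are at most the norm, in probability. -/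
theorem strip_of_box {m : ℝ} {G : Measure ℝ} {κ₁ AY κ₂ A₂ AA : ℝ} {μ : ℝ × ℝ → ℝ} (hm : 0 < m)
    (hG : LawGen G) (hF : ShieldFacts m) (hSL : ShieldLaw m G κ₁ AY)
    (hB : BoxProp m G κ₂ A₂) (hlip : ∀ v w, |μ v - μ w| ≤ AA * r1 (v - w))
    (hsmul : ∀ (r : ℝ) v, 0 ≤ r → μ (r • v) = r * μ v)
    (hbox : ∀ (C : ℕ) (ε : ℝ), 0 < ε → Tendsto (fun n : ℕ => law G {t | ∃ x y : V,
      InBox (C * n) x ∧ InBox (C * n) y ∧
        ε * n < |T (shield m t) x y - μ (toR y - toR x)|}) atTop (𝓝 0)) :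
    ∀ (k : ℤ), (k = 0 ∨ k = 1) → ∀ (x y : ℕ → V) (p q : ℝ × ℝ),
      Scaled x p → Scaled y q → p.1 + k * p.2 < q.1 + k * q.2 →
      ∀ ε : ℝ, 0 < ε → Tendsto (fun n : ℕ => (law G {t | n * (μ (q - p) + ε) <
        TS t (Strip k (lev k (x n)) (lev k (y n))) (x n) (y n)}).toReal) atTop (𝓝 0) := by
  intro k hk x y p q hx hy hpq ε hε
  have := hG.prob
  have : IsProbabilityMeasure (law G) := by unfold law; infer_instance
  obtain ⟨hκ, -, hBC⟩ := hB
  have hA : 0 ≤ AA := by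
    have := (abs_nonneg (μ (1, 0) - μ 0)).trans (hlip (1, 0) 0)
    simpa [r1] using this
  suffices h : Tendsto (fun n : ℕ => law G {t | n * (μ (q - p) + ε) <
      TS t (Strip k (lev k (x n)) (lev k (y n))) (x n) (y n)}) atTop (𝓝 0) by
    simpa [Function.comp_def] using (ENNReal.tendsto_toReal ENNReal.zero_ne_top).comp h
  rw [ENNReal.tendsto_nhds_zero]
  intro e he
  set d : ℝ≥0∞ := e / 8 with hd
  have hd0 : 0 < d := ENNReal.div_pos he.ne' (by norm_num)
  obtain ⟨δ, hδ0, hδ⟩ := ENNReal.lt_iff_exists_nnreal_btwn.1 hd0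
  have hδr : (0 : ℝ) < δ := by exact_mod_cast hδ0
  obtain ⟨h₀, h6, hfar⟩ := exists_far hSL hd0
  -- constants
  set c₀ : ℝ := (q.1 + k * q.2 - (p.1 + k * p.2)) / 2 with hc₀
  have hc₀0 : 0 < c₀ := by rw [hc₀]; linarith
  set θ : ℝ := min (min (1 / 4) (c₀ / 8))
    (min (ε / (64 * (m + AA + 1))) (δ * ε / (64 * (|AY| + 1)))) with hθ
  have hθ0 : 0 < θ := lt_min (lt_min (by norm_num) (by positivity))
    (lt_min (by positivity) (by positivity))
  have hθ1 : θ ≤ 1 / 4 := (min_le_left _ _).trans (min_le_left _ _)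
  have hθc : θ ≤ c₀ / 8 := (min_le_left _ _).trans (min_le_right _ _)
  have hθε : θ * (64 * (m + AA + 1)) ≤ ε :=
    (le_div_iff₀ (by positivity)).1 ((min_le_right _ _).trans (min_le_left _ _))
  have hθY : θ * (64 * (|AY| + 1)) ≤ δ * ε :=
    (le_div_iff₀ (by positivity)).1 ((min_le_right _ _).trans (min_le_right _ _))
  obtain ⟨C, hC⟩ := exists_nat_gt (r1 p + r1 q)
  obtain ⟨K, hK⟩ := exists_nat_gt (32 * (AA + 1) * ((C : ℝ) + 2) / (θ * κ₂))
  have hK0 : (0 : ℝ) < K := lt_trans (by positivity) hK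
  rw [div_lt_iff₀ (by positivity)] at hK
  set ε' : ℝ := min (ε / (16 * K)) (κ₂ * θ / 8) with hε'
  have hε'0 : 0 < ε' := lt_min (by positivity) (by positivity)
  -- limits
  have hcont : Continuous r1 := by unfold r1; fun_prop
  have hlevc : Continuous fun z : ℝ × ℝ => z.1 + (k : ℝ) * z.2 := by fun_prop
  have ev1 := ((hcont.tendsto _).comp hx).eventually_lt_const
    (show r1 p < C by linarith [show 0 ≤ r1 q by unfold r1; positivity])
  have ev2 := ((hcont.tendsto _).comp hy).eventually_lt_const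
    (show r1 q < C by linarith [show 0 ≤ r1 p by unfold r1; positivity])
  have ev3 := ((((hlevc.tendsto _).comp hy).sub ((hlevc.tendsto _).comp hx))).eventually_const_lt
    (show c₀ < q.1 + k * q.2 - (p.1 + k * p.2) by rw [hc₀]; linarith)
  have ev4 := ((hcont.tendsto _).comp ((hy.sub hx).sub_const (q - p))).eventually_lt_const
    (show r1 (q - p - (q - p)) < ε / (8 * (AA + 1)) by
      rw [sub_self]; simp only [r1, Prod.fst_zero, Prod.snd_zero, abs_zero, add_zero]; positivity)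
  have hlarge : Tendsto (fun n : ℕ => (n : ℝ)) atTop atTop := tendsto_natCast_atTop_atTop
  have ev5 : ∀ᶠ n : ℕ in atTop, (Lc n : ℝ) ≤
      min (θ / 16) (min (θ * κ₂ / (32 * (AA + 1))) (ε / (64 * K * (AA + 1)))) * n := by
    filter_upwards [hlarge.eventually_ge_atTop _] with n hn
    exact lc_le (lt_min (by positivity) (lt_min (by positivity) (by positivity))) hn
  filter_upwards [ev1, ev2, ev3, ev4, ev5,
    ENNReal.tendsto_nhds_zero.1 (hBC (C + 2)) d hd0,
    ENNReal.tendsto_nhds_zero.1 (hbox (C + 2) ε' hε'0) d hd0,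
    ENNReal.tendsto_nhds_zero.1 (raw_tendsto (G := G) 1 h₀ (show 0 < ε / 16 by positivity) x) d hd0,
    ENNReal.tendsto_nhds_zero.1 (raw_tendsto (G := G) (-1) h₀ (show 0 < ε / 16 by positivity) y)
      d hd0,
    hlarge.eventually_ge_atTop ((h₀ + 32 : ℝ) / θ), hlarge.eventually_ge_atTop (8 / c₀),
    hlarge.eventually_ge_atTop (32 * (8 * (AA + 1) + 1) / (θ * κ₂)),
    hlarge.eventually_ge_atTop (64 * K * (8 * (AA + 1) + 1) / ε)]
    with n e1 e2 e3 e4 e5 pB pS pR pR' n1 n2 n3 n4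
  rw [div_le_iff₀ hθ0] at n1
  rw [div_le_iff₀ hc₀0] at n2
  rw [div_le_iff₀ (by positivity)] at n3
  rw [div_le_iff₀ hε] at n4
  have hn' : (0 : ℝ) < n := by
    rcases Nat.eq_zero_or_pos n with rfl | h
    · simp at n1; linarith [Nat.cast_nonneg (α := ℝ) h₀]
    · exact_mod_cast h
  set hn := ⌊θ * (n : ℝ)⌋₊ with hhn
  have hh1 : (hn : ℝ) ≤ θ * n := Nat.floor_le (by positivity)
  have hh2 : θ * n < hn + 1 := Nat.lt_floor_add_one _
  set L := Lc n with hLdef
  have l1 : (L : ℝ) ≤ θ / 16 * n :=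
    e5.trans (mul_le_mul_of_nonneg_right (min_le_left _ _) hn'.le)
  have l2 : (L : ℝ) * (32 * (AA + 1)) ≤ θ * κ₂ * n := by
    rw [← le_div_iff₀ (by positivity), mul_div_right_comm]
    exact e5.trans (mul_le_mul_of_nonneg_right
      ((min_le_right _ _).trans (min_le_left _ _)) hn'.le)
  have l3 : (L : ℝ) * (64 * K * (AA + 1)) ≤ ε * n := by
    rw [← le_div_iff₀ (by positivity), mul_div_right_comm]
    exact e5.trans (mul_le_mul_of_nonneg_right
      ((min_le_right _ _).trans (min_le_right _ _)) hn'.le)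
  refine (measure_mono (t := {t | ¬ BoxOK m κ₂ A₂ ((C + 2) * n) L t} ∪
    {t | ∃ u w : V, InBox ((C + 2) * n) u ∧ InBox ((C + 2) * n) w ∧
      ε' * n < |T (shield m t) u w - μ (toR w - toR u)|} ∪
    {t | ∃ i, h₀ ≤ i ∧ ¬ Stay m 1 (i / 4) (shift ((x n).1 + 1 * i, (x n).2) t)} ∪
    {t | ∃ i, h₀ ≤ i ∧ ¬ Stay m 1 (i / 4) (shift ((y n).1 + -1 * i, (y n).2) t)} ∪
    {t | ε / 16 * n < ∑ i ∈ Finset.range h₀, t (stepE 1 (x n) i)} ∪
    {t | ε / 16 * n < ∑ i ∈ Finset.range h₀, t (stepE (-1) (y n) i)} ∪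
    {t | ε / 16 * n < ∑ i ∈ Finset.range (2 * hn), capY m t (stepE 1 (x n) i)} ∪
    {t | ε / 16 * n < ∑ i ∈ Finset.range (2 * hn), capY m t (stepE (-1) (y n) i)}) ?_).trans ?_
  · intro t ht
    by_contra hcon
    simp only [Set.mem_union, Set.mem_ofPred_eq, not_or, not_not, not_exists, not_and,
      not_lt] at hcon
    obtain ⟨⟨⟨⟨⟨⟨⟨hb, hsh⟩, hst⟩, hst'⟩, hR⟩, hR'⟩, hQ⟩, hQ'⟩ := hcon
    have hscale : ∀ z : V, (n : ℝ)⁻¹ • toR z = ((z.1 : ℝ) / n, (z.2 : ℝ) / n) := fun z => by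
      simp [toR, div_eq_inv_mul]
    simp only [Function.comp_apply, hscale] at e1 e2 e3 e4
    have hsq : ∀ z : V, r1 ((z.1 : ℝ) / n, (z.2 : ℝ) / n) < C → InSq (C * n : ℕ) z := by
      intro z hz
      simp only [r1, abs_div, abs_of_pos hn', ← add_div] at hz
      rw [div_lt_iff₀ hn'] at hz
      have := abs_nonneg (z.1 : ℝ)
      have := abs_nonneg (z.2 : ℝ)
      obtain ⟨a1, a2⟩ := abs_le.1 (show |(z.1 : ℝ)| ≤ C * n by linarith)
      obtain ⟨a3, a4⟩ := abs_le.1 (show |(z.2 : ℝ)| ≤ C * n by linarith)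
      simp only [InSq]
      refine ⟨?_, ?_, ?_, ?_⟩ <;> rify <;> push_cast <;> linarith
    have hμ : μ (toR (y n) - toR (x n)) ≤ n * μ (q - p) + ε / 8 * n := by
      have h1 := (abs_le.1 (hlip (toR (y n) - toR (x n)) ((n : ℝ) • (q - p)))).2
      rw [hsmul _ _ hn'.le] at h1
      have h2 : r1 (toR (y n) - toR (x n) - (n : ℝ) • (q - p)) =
          (n : ℝ) * r1 ((((y n).1 : ℝ) / n, ((y n).2 : ℝ) / n) -
            (((x n).1 : ℝ) / n, ((x n).2 : ℝ) / n) - (q - p)) := by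
        rw [← hscale, ← hscale, ← abs_of_pos hn', ← r1_smul, abs_of_pos hn']
        simp only [smul_sub, smul_inv_smul₀ hn'.ne']
      rw [h2] at h1
      have h3 := mul_le_mul_of_nonneg_left e4.le (mul_nonneg hA hn'.le)
      have h4 : AA * n * (ε / (8 * (AA + 1))) ≤ ε / 8 * n := by
        rw [← mul_div_assoc, div_le_iff₀ (by positivity)]
        have : 0 ≤ ε * n := by positivity
        linarith
      linarith
    have hlev : 4 * (hn : ℤ) + 3 ≤ lev k (y n) - lev k (x n) := by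
      rify
      simp only [lev]
      push_cast
      rw [div_add' _ _ _ hn'.ne', div_add' _ _ _ hn'.ne', ← sub_div, lt_div_iff₀ hn'] at e3
      have := mul_le_mul_of_nonneg_right hθc hn'.le
      field_simp at e3
      linarith
    have hdet := route_det hm hF hA hlip hsmul hκ hb (D := ε' * n)
      (fun u w hu hw => by
        have := hsh u w ⟨abs_le.2 ⟨hu.1, hu.2.1⟩, abs_le.2 ⟨hu.2.2.1, hu.2.2.2⟩⟩
          ⟨abs_le.2 ⟨hw.1, hw.2.1⟩, abs_le.2 ⟨hw.2.2.1, hw.2.2.2⟩⟩
        linarith [(abs_le.1 this).2])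
      hk (hsq _ e1) (hsq _ e2) h6 (hn := hn) ?_ ?_ ?_ hlev hst hst' hR hR' hQ hQ'
      (K := K) (by exact_mod_cast hK0) ?_
    · have b1 : 4 * (m + AA) * hn ≤ ε / 16 * n := by
        have := mul_le_mul_of_nonneg_left hh1 (show 0 ≤ 4 * (m + AA) by positivity)
        have := mul_le_mul_of_nonneg_right hθε hn'.le
        have : 0 ≤ θ * n := by positivity
        linarith
      have b2 : (K : ℝ) * (ε' * n) ≤ ε / 16 * n := by
        have := mul_le_mul_of_nonneg_right (show ε' * (16 * K) ≤ ε from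
          (le_div_iff₀ (by positivity)).1 (min_le_left _ _)) hn'.le
        linarith
      have b3 : (K : ℝ) * (AA * (2 * L + 8) + 1) ≤ ε / 16 * n := by
        have : 0 ≤ (K : ℝ) * L := by positivity
        have : 0 ≤ (K : ℝ) := hK0.le
        have : 0 ≤ ε * n := by positivity
        have : 0 ≤ (K : ℝ) * AA := by positivity
        linarith
      change (n : ℝ) * (μ (q - p) + ε) < TS t (Strip k (lev k (x n)) (lev k (y n))) (x n) (y n)
        at ht
      have : 0 < ε * n := by positivity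
      linarith
    · rw [← Nat.lt_add_one_iff]
      have : (h₀ : ℝ) < ((hn + 1 : ℕ) : ℝ) := by push_cast; linarith
      exact_mod_cast this
    · have : ((2 * L + 4 : ℕ) : ℝ) < ((hn + 1 : ℕ) : ℝ) := by
        push_cast; linarith [Nat.cast_nonneg (α := ℝ) h₀]
      exact Nat.lt_add_one_iff.1 (by exact_mod_cast this)
    · rw [← Nat.cast_le (α := ℝ)]
      push_cast
      have := mul_le_mul_of_nonneg_right hθ1 hn'.le
      linarith [Nat.cast_nonneg (α := ℝ) h₀]
    · push_cast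
      have a1 : AA * (4 * (((C : ℝ) + 2) * n) / K) ≤ κ₂ * θ / 8 * n := by
        rw [← mul_div_assoc, div_le_iff₀ hK0]
        have := mul_le_mul_of_nonneg_right hK.le hn'.le
        have : 0 ≤ ((C : ℝ) + 2) * n := by positivity
        linarith
      have a2 := mul_le_mul_of_nonneg_right (min_le_right (ε / (16 * K)) (κ₂ * θ / 8)) hn'.le
      have a3 := mul_le_mul_of_nonneg_left (show θ / 2 * n ≤ (hn : ℝ) - L - 4 by
        linarith [Nat.cast_nonneg (α := ℝ) h₀]) hκ.le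
      have : 0 ≤ (L : ℝ) := Nat.cast_nonneg _
      rw [← hε'] at a2
      linarith
  · have hcap : ∀ (s : ℤ) (a : V),
        law G {t | ε / 16 * n < ∑ i ∈ Finset.range (2 * hn), capY m t (stepE s a i)} ≤ d := by
      intro s a
      refine (cap_markov hm hSL s a _ (by positivity)).trans (le_trans ?_ hδ.le)
      rw [← ENNReal.ofReal_coe_nnreal]
      refine ENNReal.ofReal_le_ofReal ((div_le_iff₀ (by positivity)).2 ?_)
      push_cast
      have := mul_le_mul_of_nonneg_left (le_abs_self AY) (show (0 : ℝ) ≤ 2 * hn by positivity)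
      have := mul_le_mul_of_nonneg_right hh1 (abs_nonneg AY)
      have := mul_le_mul_of_nonneg_right hθY hn'.le
      have : 0 ≤ θ * n := by positivity
      have : (0 : ℝ) ≤ δ * ε * n := by positivity
      linarith
    calc _ ≤ d + d + d + d + d + d + d + d := by
          refine (measure_union_le _ _).trans (add_le_add ?_ (hcap _ _))
          refine (measure_union_le _ _).trans (add_le_add ?_ (hcap _ _))
          refine (measure_union_le _ _).trans (add_le_add ?_ pR')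
          refine (measure_union_le _ _).trans (add_le_add ?_ pR)
          refine (measure_union_le _ _).trans (add_le_add ?_ (hfar _ _))
          refine (measure_union_le _ _).trans (add_le_add ?_ (hfar _ _))
          exact (measure_union_le _ _).trans (add_le_add pB pS)
      _ = 8 * d := by ring
      _ ≤ e := ENNReal.mul_div_le

/-- The shape theorem with its strip field, from the core. -/
theorem shapeG_of_core {m : ℝ} {G : Measure ℝ} {κ A κ₁ AY κ₂ A₂ : ℝ} (hm : 0 < m) (hG : LawGen G)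
    (hF : ShieldFacts m) (hSL : ShieldLaw m G κ₁ AY) (hB : BoxProp m G κ₂ A₂)
    (h : ShapeCore m G κ A) : ShapeG m G κ A :=
  h.toShapeG (strip_of_box hm hG hF hSL hB h.lip h.smul h.box)

end Vale.Agent.P158.Gen
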