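import Vale.Agent.P158.Gen.ShapeBox
import Vale.Agent.P158.Gen.ShapePairs
import Vale.Agent.P158.Gen.Strip

/-!
The shape theorem for all atomless laws.
-/

open MeasureTheory Filter Topology
open scoped ENNReal

namespace Vale.Agent.P158.Gen

open Vale.Agent.P158

/-- The shape theorem without its strip field; the bound `A` can be taken as `AY + 1`. -/
theorem shapeCore {m : ℝ} {G : Measure ℝ} {κ₁ AY κ₂ A₂ : ℝ} (hG : LawGen G) (hm : 0 < m)
    (hS : ShieldFacts m) (hL : ShieldLaw m G κ₁ AY) (hB : BoxProp m G κ₂ A₂) :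
    ∃ κ : ℝ, ShapeCore m G κ (AY + 1) := by
  have hf := ShapeAux.muT0_subadd hm hS hG hL
  obtain ⟨κ, hκ, hlow⟩ := ShapeAux.exists_lowerR hm hS hG hL
  have hsmul : ∀ (r : ℝ) v, 0 ≤ r → muG m G (r • v) = r * muG m G v :=
    fun r v hr => hf.norm_smul_nonneg hr v
  have hlip : ∀ v w, |muG m G v - muG m G w| ≤ (AY + 1) * r1 (v - w) := fun v w => hf.norm_lip v w
  have hbox := fun C ε hε => ShapeAux.shape_box0 hm hS hG hL hB C ε hε
  have hA : 0 < AY + 1 := by
    have h1 := (hlow (1, 0)).trans (hf.norm_le (1, 0))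
    have h2 : r1 ((1, 0) : ℝ × ℝ) = 1 := by simp [r1]
    rw [h2, mul_one, mul_one] at h1
    linarith
  exact ⟨κ,
    { κ_pos := hκ
      A_pos := hA
      pos := fun v hv => by
        refine lt_of_lt_of_le (mul_pos hκ ?_) (hlow v)
        refine lt_of_le_of_ne (r1_nonneg v) fun h => hv (Prod.ext ?_ ?_) <;>
          simp only [r1] at h <;> [exact abs_eq_zero.1 (le_antisymm (by linarith [abs_nonneg v.2]) (abs_nonneg _));
          exact abs_eq_zero.1 (le_antisymm (by linarith [abs_nonneg v.1]) (abs_nonneg _))]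
      smul := hsmul
      add_le := hf.norm_add
      lip := hlip
      neg := hf.norm_neg
      rot := ShapeAux.muG_rot hm hS hG hL
      upperR := hf.norm_le
      lowerR := hlow
      lower := ShapePairs.lower_of_box hS hL hsmul hlip hbox
      upper := ShapePairs.upper_of_box hG hS hL hB hsmul hlip hbox
      box := hbox }⟩

/-- The shape theorem without its strip field. -/
theorem exists_shapeCore {m : ℝ} {G : Measure ℝ} {κ₁ AY κ₂ A₂ : ℝ} (hG : LawGen G)
    (hT : SmallTail m G) (hS : ShieldFacts m) (hL : ShieldLaw m G κ₁ AY)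
    (hB : BoxProp m G κ₂ A₂) : ∃ κ A, ShapeCore m G κ A :=
  let ⟨κ, h⟩ := shapeCore hG hT.1 hS hL hB
  ⟨κ, AY + 1, h⟩

/-- The shape theorem. -/
theorem exists_shapeG {m : ℝ} {G : Measure ℝ} {κ₁ AY κ₂ A₂ : ℝ} (hG : LawGen G)
    (hT : SmallTail m G) (hS : ShieldFacts m) (hL : ShieldLaw m G κ₁ AY)
    (hB : BoxProp m G κ₂ A₂) : ∃ κ A, ShapeG m G κ A :=
  let ⟨κ, h⟩ := shapeCore hG hT.1 hS hL hB
  ⟨κ, AY + 1, shapeG_of_core hT.1 hG hS hL hB h⟩

end Vale.Agent.P158.Gen
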