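import Vale.Agent.P158.Gen.Spec
import Vale.Agent.P158.Gen.ClusterLaw

/-!
The law of shielding: measurability, and almost every configuration is good before and after
shielding.
-/

open MeasureTheory Filter Topology
open scoped ENNReal

namespace Vale.Agent.P158.Gen.LawAux

open Vale.Agent.P158

/-! ### The function `capTo` -/

lemma capTo_of_le {Y x : ℝ} (h : x ≤ Y) : capTo Y x = x := if_pos h

lemma capTo_of_lt {Y x : ℝ} (h : Y < x) : capTo Y x = Y + (x - Y) / (1 + (x - Y)) :=
  if_neg h.not_ge

lemma capTo_le (Y x : ℝ) : capTo Y x ≤ x := by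
  rcases le_or_gt x Y with h | h
  · exact (capTo_of_le h).le
  · rw [capTo_of_lt h]
    have : (x - Y) / (1 + (x - Y)) ≤ x - Y := div_le_self (by linarith) (by linarith)
    linarith

lemma capTo_le_add_one (Y x : ℝ) : capTo Y x ≤ Y + 1 := by
  rcases le_or_gt x Y with h | h
  · rw [capTo_of_le h]; linarith
  · rw [capTo_of_lt h]
    have : (x - Y) / (1 + (x - Y)) ≤ 1 := (div_le_one (by linarith)).2 (by linarith)
    linarith

lemma capTo_strictMono (Y : ℝ) : StrictMono (capTo Y) := by
  intro a b hab
  rcases le_or_gt b Y with hb | hb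
  · rwa [capTo_of_le hb, capTo_of_le (hab.le.trans hb)]
  · rw [capTo_of_lt hb]
    rcases le_or_gt a Y with ha | ha
    · rw [capTo_of_le ha]
      have : (0 : ℝ) < (b - Y) / (1 + (b - Y)) := div_pos (by linarith) (by linarith)
      linarith
    · rw [capTo_of_lt ha]
      have : (a - Y) / (1 + (a - Y)) < (b - Y) / (1 + (b - Y)) := by
        rw [div_lt_div_iff₀ (by linarith) (by linarith)]; nlinarith
      linarith

lemma capTo_pos {Y x : ℝ} (hY : 0 ≤ Y) (hx : 0 < x) : 0 < capTo Y x := by
  have h := capTo_strictMono Y hx
  rwa [capTo_of_le hY] at h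

lemma capTo_mono_left {m Y : ℝ} (h : m ≤ Y) (x : ℝ) : capTo m x ≤ capTo Y x := by
  rcases le_or_gt x Y with hx | hx
  · exact (capTo_le m x).trans (capTo_of_le hx).ge
  · rw [capTo_of_lt hx, capTo_of_lt (h.trans_lt hx)]
    have h1 : (x - m) / (1 + (x - m)) = 1 - 1 / (1 + (x - m)) := by
      rw [one_sub_div (show 1 + (x - m) ≠ 0 from (by linarith : (0 : ℝ) < 1 + (x - m)).ne')]
      ring
    have h2 : (x - Y) / (1 + (x - Y)) = 1 - 1 / (1 + (x - Y)) := by
      rw [one_sub_div (show 1 + (x - Y) ≠ 0 from (by linarith : (0 : ℝ) < 1 + (x - Y)).ne')]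
      ring
    have h3 : 1 / (1 + (x - Y)) - 1 / (1 + (x - m)) ≤ Y - m := by
      rw [div_sub_div _ _ (by linarith) (by linarith), div_le_iff₀ (by nlinarith)]
      nlinarith [mul_le_mul_of_nonneg_left
        (show (1 : ℝ) ≤ (1 + (x - Y)) * (1 + (x - m)) by nlinarith) (sub_nonneg.2 h)]
    rw [h1, h2]; linarith

lemma measurable_capTo : Measurable fun p : ℝ × ℝ => capTo p.1 p.2 :=
  Measurable.ite (measurableSet_le measurable_snd measurable_fst) measurable_snd (by fun_prop)

/-! ### Clusters and shielded weights -/

variable {m : ℝ} {t t' : Conf} {e : Edge}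

lemma cl_congr (h : ∀ g, (m < t g ↔ m < t' g)) (e : Edge) : cl m t e = cl m t' e := by
  have hR : (fun a b => SqAdj a b ∧ m < t b) = fun a b => SqAdj a b ∧ m < t' b := by
    funext a b; rw [h b]
  simp only [cl, hR, h e]

lemma capY_of_finite (h : (cl m t e).Finite) :
    capY m t e = 10 * m * ((cl m t e).ncard + 1) := if_pos h

lemma capY_of_infinite (h : ¬ (cl m t e).Finite) : capY m t e = t e := if_neg h

lemma shield_apply (m : ℝ) (t : Conf) (e : Edge) :
    shield m t e = capTo (capY m t e) (t e) := by simp [shield, shieldOn]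

lemma shield_le (m : ℝ) (t : Conf) (e : Edge) : shield m t e ≤ t e :=
  (shield_apply m t e).le.trans (capTo_le _ _)

lemma le_capY_of_finite (hm : 0 ≤ m) (h : (cl m t e).Finite) : m ≤ capY m t e := by
  rw [capY_of_finite h]
  nlinarith [mul_nonneg hm (Nat.cast_nonneg ((cl m t e).ncard) : (0 : ℝ) ≤ _)]

lemma cap_le_shield (hm : 0 ≤ m) (t : Conf) (e : Edge) :
    capTo m (t e) ≤ shield m t e := by
  rw [shield_apply]
  by_cases h : (cl m t e).Finite
  · exact capTo_mono_left (le_capY_of_finite hm h) _
  · rw [capY_of_infinite h, capTo_of_le le_rfl]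
    exact capTo_le _ _

lemma shield_pos (hm : 0 ≤ m) (h : 0 < t e) : 0 < shield m t e :=
  (capTo_pos hm h).trans_le (cap_le_shield hm t e)

/-- A weight changed on its side of `m` leaves the other lowered weights unchanged, and the
lowered weight is then injective in it. -/
lemma shield_update (t : Conf) (e : Edge) (x x' : ℝ) (h : m < x ↔ m < x') :
    (∀ g, g ≠ e →
      shield m (Function.update t e x) g = shield m (Function.update t e x') g) ∧
    (shield m (Function.update t e x) e = shield m (Function.update t e x') e → x = x') := by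
  have hcl : ∀ g, cl m (Function.update t e x) g = cl m (Function.update t e x') g := by
    refine cl_congr fun g => ?_
    rcases eq_or_ne g e with rfl | hg
    · simpa using h
    · simp [Function.update_of_ne hg]
  constructor
  · intro g hg
    have hY : capY m (Function.update t e x) g = capY m (Function.update t e x') g := by
      by_cases hf : (cl m (Function.update t e x) g).Finite
      · rw [capY_of_finite hf, capY_of_finite (hcl g ▸ hf), hcl g]
      · rw [capY_of_infinite hf, capY_of_infinite (hcl g ▸ hf), Function.update_of_ne hg,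
          Function.update_of_ne hg]
    simp only [shield_apply, hY, Function.update_of_ne hg]
  · intro he
    simp only [shield_apply, Function.update_self] at he
    by_cases hf : (cl m (Function.update t e x) e).Finite
    · rw [capY_of_finite hf, capY_of_finite (hcl e ▸ hf), hcl e] at he
      exact (capTo_strictMono _).injective he
    · rw [capY_of_infinite hf, capY_of_infinite (hcl e ▸ hf)] at he
      simpa [capTo_of_le le_rfl] using he

/-! ### Measurability -/

lemma measurable_shield (m : ℝ) : Measurable (shield m) := by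
  refine measurable_pi_lambda _ fun e => ?_
  simp only [shield_apply]
  exact measurable_capTo.comp ((Gen.measurable_capY m e).prodMk (measurable_pi_apply e))

/-! ### Almost sure properties -/

variable {G : Measure ℝ}

lemma null_of_sections [IsProbabilityMeasure G] (e : Edge) {S : Set Conf} (hS : MeasurableSet S)
    (h : ∀ t, G {x | Function.update t e x ∈ S} = 0) : law G S = 0 := by
  have hp : IsProbabilityMeasure (law G) := by unfold law; infer_instance
  have hm := measurePreserving_update' (G := G) e
  rw [← hm.measure_preimage hS.nullMeasurableSet, Measure.prod_apply_symm (hm.measurable hS)]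
  exact (lintegral_congr fun t => h t).trans lintegral_zero

lemma measurable_list_sum {F : Conf → Conf} (hF : Measurable F) :
    ∀ l : List Edge, Measurable fun t => (l.map (F t)).sum
  | [] => by simp
  | a :: l => by
    simp only [List.map_cons, List.sum_cons]
    exact ((measurable_pi_apply a).comp hF).add (measurable_list_sum hF l)

/-- A transform, injective in each weight while that weight stays on one side of `m` and the
others do not notice, is almost surely free of ties. -/
lemma ae_tieFree_map (hG : LawGen G) {F : Conf → Conf} (hF : Measurable F) (m : ℝ)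
    (h : ∀ t e x x', (m < x ↔ m < x') →
      (∀ g, g ≠ e → F (Function.update t e x) g = F (Function.update t e x') g) ∧
      (F (Function.update t e x) e = F (Function.update t e x') e → x = x')) :
    ∀ᵐ t ∂law G, TieFree (F t) := by
  have := hG.prob
  refine ae_all_iff.2 fun x => ae_all_iff.2 fun y => ae_all_iff.2 fun p => ae_all_iff.2 fun q => ?_
  by_cases hpq : p.IsPath ∧ q.IsPath ∧ p ≠ q
  · obtain ⟨e, l₁, l₂, h1, h2, h3⟩ := exists_tie_edge p q hpq.1 hpq.2.1 hpq.2.2
    set S : Set Conf := {t | F t e = (l₂.map (F t)).sum - (l₁.map (F t)).sum} with hSdef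
    have hSm : MeasurableSet S := measurableSet_eq_fun ((measurable_pi_apply e).comp hF)
      ((measurable_list_sum hF l₂).sub (measurable_list_sum hF l₁))
    have h0 : law G S = 0 := by
      refine null_of_sections e hSm fun t => ?_
      have hsub : ∀ Q : ℝ → Prop, (∀ a b, Q a → Q b → (m < a ↔ m < b)) →
          G {a | Q a ∧ Function.update t e a ∈ S} = 0 := by
        intro Q hQ
        rcases Set.eq_empty_or_nonempty {a | Q a ∧ Function.update t e a ∈ S} with h | ⟨a, ha⟩
        · rw [h, measure_empty]
        · refine measure_mono_null (fun b hb => Set.mem_singleton_iff.2 ?_) (hG.noAtoms a)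
          obtain ⟨g1, g2⟩ := h t e b a (hQ b a hb.1 ha.1)
          refine g2 ?_
          have hl : ∀ l : List Edge, e ∉ l → l.map (F (Function.update t e b))
              = l.map (F (Function.update t e a)) := fun l hl =>
            List.map_congr_left fun g hg => g1 g fun hge => hl (hge ▸ hg)
          have eb : F (Function.update t e b) e = (l₂.map (F (Function.update t e b))).sum
              - (l₁.map (F (Function.update t e b))).sum := hb.2
          have ea : F (Function.update t e a) e = (l₂.map (F (Function.update t e a))).sum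
              - (l₁.map (F (Function.update t e a))).sum := ha.2
          rw [eb, ea, hl l₁ h1, hl l₂ h2]
      refine measure_mono_null (fun a ha => ?_)
        (measure_union_null (hsub (fun a => m < a) fun a b ha hb => iff_of_true ha hb)
          (hsub (fun a => ¬ m < a) fun a b ha hb => iff_of_false ha hb))
      rcases Classical.em (m < a) with hc | hc
      · exact Or.inl ⟨hc, ha⟩
      · exact Or.inr ⟨hc, ha⟩
    filter_upwards [measure_eq_zero_iff_ae_notMem.1 h0] with t ht _ _ he
    exact absurd (h3 (F t) he) ht
  · filter_upwards with t hp hq _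
    exact not_not.1 fun hne => hpq ⟨hp, hq, hne⟩

lemma plen_mono {s t : Conf} (h : ∀ e, s e ≤ t e) {x y : V} (p : grid.Walk x y) :
    plen s p ≤ plen t p := List.sum_le_sum fun _ _ => h _

lemma lenBound_mono {κ : ℝ} {s t : Conf} (h : ∀ e, s e ≤ t e) (hs : LenBound κ s) :
    LenBound κ t := fun x => (hs x).mono fun _ hn y p hp hl =>
  (hn y p hp hl).trans (plen_mono h p)

lemma exists_lenBound_cap (hG : LawGen G) {m : ℝ} (hm : 0 ≤ m) : ∃ κ : ℝ, 0 < κ ∧
    ∀ᵐ t ∂law G, LenBound κ fun e => capTo m (t e) := by
  have := hG.prob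
  have hc : Measurable (capTo m) := (capTo_strictMono m).monotone.measurable
  have hprob : IsProbabilityMeasure (G.map (capTo m)) :=
    Measure.isProbabilityMeasure_map hc.aemeasurable
  have hG' : LawOK (G.map (capTo m)) (m + 1) := by
    refine ⟨hprob, fun y => ?_, le_antisymm prob_le_one ?_⟩
    · rw [Measure.map_apply hc (measurableSet_singleton y)]
      rcases Set.eq_empty_or_nonempty (capTo m ⁻¹' {y}) with h | ⟨a, ha⟩
      · rw [h, measure_empty]
      · exact measure_mono_null (fun b hb => (capTo_strictMono m).injective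
          (Eq.trans hb (Eq.symm ha))) (hG.noAtoms a)
    · rw [Measure.map_apply hc measurableSet_Icc]
      refine hG.supp.ge.trans (measure_mono fun a ha => ⟨?_, capTo_le_add_one m a⟩)
      have h := (capTo_strictMono m).monotone (Set.mem_Ici.1 ha)
      rwa [capTo_of_le hm] at h
  obtain ⟨κ, hκ, h⟩ := ae_lenBound hG'
  refine ⟨κ, hκ, ?_⟩
  have hmap : (law G).map (fun t e => capTo m (t e)) = law (G.map (capTo m)) :=
    Measure.infinitePi_map_pi (fun _ : Edge => G) fun _ => hc
  rw [← hmap] at h
  exact ae_of_ae_map (measurable_pi_lambda _ fun e =>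
    hc.comp (measurable_pi_apply e)).aemeasurable h

/-- Almost every configuration is good before and after shielding. -/
theorem exists_good_shield (hG : LawGen G) {m : ℝ} (hm : 0 ≤ m) : ∃ κ : ℝ, 0 < κ ∧
    ∀ᵐ t ∂law G, GoodG κ t ∧ GoodG κ (shield m t) := by
  obtain ⟨κ, hκ, hl⟩ := exists_lenBound_cap hG hm
  refine ⟨κ, hκ, ?_⟩
  have h1 : ∀ᵐ t ∂law G, TieFree t := ae_tieFreeG hG
  have h2 : ∀ᵐ t ∂law G, TieFree (shield m t) :=
    ae_tieFree_map hG (measurable_shield m) m fun t e x x' h => shield_update t e x x' h
  filter_upwards [hl, ae_posG hG, h1, h2] with t hl hp h1 h2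
  exact ⟨⟨hp, h1, lenBound_mono (fun e => capTo_le m (t e)) hl⟩,
    ⟨fun e => shield_pos hm (hp e), h2, lenBound_mono (fun e => cap_le_shield hm t e) hl⟩⟩

end Vale.Agent.P158.Gen.LawAux

namespace Vale.Agent.P158.Gen

open Vale.Agent.P158

/-- The law of shielding, with `κ` from the capped law and the mean cap `20 m`. -/
theorem exists_shieldLaw {G : Measure ℝ} {m : ℝ} (hG : LawGen G) (hS : SmallTail m G)
    (hF : ShieldFacts m) : ∃ κ AY, ShieldLaw m G κ AY := by
  obtain ⟨κ, hκ, h⟩ := LawAux.exists_good_shield hG hS.1.le
  exact ⟨κ, 20 * m, ⟨hκ, tame_ae hG hS hF.encl_near, h, measurable_capY m,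
    LawAux.measurable_shield m, int_capY hG hS, mean_capY hG hS, stay_prob hG hS⟩⟩

end Vale.Agent.P158.Gen
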