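import Vale.Agent.P158.Gen.Spec
import Vale.Agent.P158.BasicLaw

/-!
Deterministic facts about shielding: detours around clusters by parity, nesting of enclosing
clusters, and the transfer of passage times, segments, bigeodesics and rigidity.
-/

open MeasureTheory Filter Topology

namespace Vale.Agent.P158.Gen.Shield

open Vale.Agent.P158 Vale.Agent.P158.Gen

variable {m : ℝ} {t : Conf}

/-! ### Potentials of even sets -/

lemma mem_sq_self (e : Edge) : e ∈ sq e.1 := by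
  obtain ⟨v, b⟩ := e; cases b <;> simp [sq]

lemma sqAdj_symm {e f : Edge} (h : SqAdj e f) : SqAdj f e :=
  let ⟨v, a, b⟩ := h; ⟨v, b, a⟩

lemma cast_card_inter_sq (P : Finset Edge) (v : V) :
    (((P ∩ sq v).card : ℕ) : ZMod 2) = (if (v, false) ∈ P then 1 else 0) +
      ((if ((v.1, v.2 + 1), false) ∈ P then 1 else 0) + ((if (v, true) ∈ P then 1 else 0) +
        if ((v.1 + 1, v.2), true) ∈ P then 1 else 0)) := by
  classical
  obtain ⟨a, b⟩ := v
  rw [Finset.inter_comm, ← Finset.filter_mem_eq_inter, Finset.card_filter, sq,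
    Finset.sum_insert (by simp), Finset.sum_insert (by simp), Finset.sum_insert (by simp),
    Finset.sum_singleton]
  push_cast
  rfl

lemma pot_right (P : Finset Edge) (v : V) :
    pot P (v.1 + 1, v.2) = pot P v + if (v, false) ∈ P then 1 else 0 := by
  classical
  obtain ⟨p, q⟩ := v
  unfold pot
  have hsplit : (P.filter fun e => e.2 = false ∧ e.1.2 = q ∧ e.1.1 < p + 1) =
      (P.filter fun e => e.2 = false ∧ e.1.2 = q ∧ e.1.1 < p) ∪
        (if ((p, q), false) ∈ P then {((p, q), false)} else ∅) := by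
    ext ⟨⟨a, b⟩, c⟩
    split_ifs with h <;> simp only [Finset.mem_union, Finset.mem_filter, Finset.mem_singleton,
      Finset.notMem_empty, Prod.mk.injEq, or_false]
    · constructor
      · rintro ⟨hS, hc, hb, ha⟩
        rcases lt_or_eq_of_le (Int.lt_add_one_iff.1 ha) with ha | ha
        · exact Or.inl ⟨hS, hc, hb, ha⟩
        · exact Or.inr ⟨⟨ha, hb⟩, hc⟩
      · rintro (⟨hS, hc, hb, ha⟩ | ⟨⟨ha, hb⟩, hc⟩)
        · exact ⟨hS, hc, hb, by omega⟩
        · subst ha hb hc; exact ⟨h, rfl, rfl, by omega⟩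
    · constructor
      · rintro ⟨hS, hc, hb, ha⟩
        refine ⟨hS, hc, hb, ?_⟩
        rcases lt_or_eq_of_le (Int.lt_add_one_iff.1 ha) with ha | ha
        · exact ha
        · subst ha hb hc; exact absurd hS h
      · rintro ⟨hS, hc, hb, ha⟩
        exact ⟨hS, hc, hb, by omega⟩
  rw [hsplit, Finset.card_union_of_disjoint, Nat.cast_add]
  · split_ifs <;> simp
  · rw [Finset.disjoint_left]
    intro e he he'
    split_ifs at he'
    · rw [Finset.mem_singleton] at he'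
      subst he'
      simp at he
    · simp at he'

lemma pot_eq_zero_of_no {P : Finset Edge} {x : V}
    (h : ∀ e ∈ P, e.2 = false → e.1.2 = x.2 → x.1 ≤ e.1.1) : pot P x = 0 := by
  rw [pot, Finset.filter_eq_empty_iff.2, Finset.card_empty, Nat.cast_zero]
  rintro e he ⟨a, b, c⟩
  have := h e he a b
  omega

lemma exists_lt_all (P : Finset Edge) :
    ∃ B : ℤ, ∀ e ∈ P, (-B < e.1.1 ∧ e.1.1 < B) ∧ -B < e.1.2 ∧ e.1.2 < B := by
  obtain ⟨B, hB⟩ := (P.image fun e : Edge => |e.1.1| + |e.1.2|).exists_le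
  refine ⟨B + 1, fun e he => ?_⟩
  have h := hB _ (Finset.mem_image_of_mem (fun e : Edge => |e.1.1| + |e.1.2|) he)
  have := abs_le.1 (show |e.1.1| ≤ B by have := abs_nonneg e.1.2; omega)
  have := abs_le.1 (show |e.1.2| ≤ B by have := abs_nonneg e.1.1; omega)
  omega

lemma pot_up {P : Finset Edge} (hP : EvenSq P) (v : V) :
    pot P (v.1, v.2 + 1) = pot P v + if (v, true) ∈ P then 1 else 0 := by
  classical
  obtain ⟨B, hB⟩ := exists_lt_all P
  have key : ∀ n : ℕ, ∀ x : ℤ, x ≤ -B + n →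
      pot P (x, v.2) + pot P (x, v.2 + 1) + (if ((x, v.2), true) ∈ P then 1 else 0) = 0 := by
    intro n
    induction n with
    | zero =>
      intro x hx
      have h1 : ∀ y : ℤ, pot P (x, y) = 0 := fun y => pot_eq_zero_of_no fun e he _ _ => by
        have := (hB e he).1.1; simp only; omega
      rw [h1, h1, if_neg fun h => by have := (hB _ h).1.1; simp at this; omega]
      simp
    | succ n ih =>
      intro x hx
      rcases le_or_gt x (-B + n) with hle | hgt
      · exact ih x hle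
      have h : (((P ∩ sq (x - 1, v.2)).card : ℕ) : ZMod 2) = 0 :=
        ZMod.natCast_eq_zero_iff_even.2 (hP _)
      rw [cast_card_inter_sq] at h
      have := ih (x - 1) (by push_cast at hx; omega)
      have e1 := pot_right P (x - 1, v.2)
      have e2 := pot_right P (x - 1, v.2 + 1)
      simp only [sub_add_cancel] at h this e1 e2 ⊢
      rw [e1, e2]
      have e : ∀ a b c d p r : ZMod 2, a + (b + (c + d)) = 0 → p + r + c = 0 →
          p + a + (r + b) + d = 0 := by decide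
      exact e _ _ _ _ _ _ h this
  have h := key (v.1 + B).toNat v.1 (by omega)
  have e : ∀ a b c : ZMod 2, a + b + c = 0 → b = a + c := by decide
  exact e _ _ _ h

/-- The potential changes exactly across the edges of the set. -/
lemma pot_edge {P : Finset Edge} (hP : EvenSq P) (e : Edge) :
    pot P (eSnd e) = pot P (eFst e) + if e ∈ P then 1 else 0 := by
  obtain ⟨v, b⟩ := e
  cases b
  · simpa [eFst, eSnd] using pot_right P v
  · simpa [eFst, eSnd] using pot_up hP v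

lemma pot_step {P : Finset Edge} (hP : EvenSq P) {x y : V} (h : Adj x y) :
    pot P y = pot P x + if edgeOf x y ∈ P then 1 else 0 := by
  have hkey := pot_edge hP (edgeOf x y)
  rcases ends_edgeOf h with ⟨h1, h2⟩ | ⟨h1, h2⟩ <;> rw [h1, h2] at hkey
  · exact hkey
  · have e : ∀ a b c : ZMod 2, a = b + c → b = a + c := by decide
    exact e _ _ _ hkey

lemma pot_union {P Q : Finset Edge} (h : Disjoint P Q) (x : V) :
    pot (P ∪ Q) x = pot P x + pot Q x := by
  classical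
  unfold pot
  rw [Finset.filter_union, Finset.card_union_of_disjoint (Finset.disjoint_filter_filter h),
    Nat.cast_add]

/-- A vertex of potential one has edges of the set in all four directions. -/
lemma pot_span {P : Finset Edge} (hP : EvenSq P) {x : V} (hx : pot P x = 1) :
    (∃ a ∈ P, a.1.1 < x.1) ∧ (∃ b ∈ P, x.1 ≤ b.1.1) ∧
      (∃ a ∈ P, a.1.2 < x.2) ∧ (∃ b ∈ P, x.2 ≤ b.1.2) := by
  classical
  obtain ⟨B, hB⟩ := exists_lt_all P
  have habove : ∀ z w : ℤ, B ≤ w → pot P (z, w) = 0 := fun z w hw =>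
    pot_eq_zero_of_no fun e he _ hrow => by have := (hB e he).2.2; simp only at hrow; omega
  have hbelow : ∀ z w : ℤ, w ≤ -B → pot P (z, w) = 0 := fun z w hw =>
    pot_eq_zero_of_no fun e he _ hrow => by have := (hB e he).2.1; simp only at hrow; omega
  have hcol : ∀ z : ℤ, ∀ w w' : ℤ, w ≤ w' → (∀ u, w ≤ u → u < w' → ((z, u), true) ∉ P) →
      pot P (z, w') = pot P (z, w) := by
    intro z w w' hw
    induction w', hw using Int.leInduction with
    | base => intro _; rfl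
    | succ w' hw ih =>
      intro hno
      rw [pot_up hP (z, w'), if_neg (hno w' hw (by omega)), add_zero]
      exact ih fun u a b => hno u a (by omega)
  have hrow : ∀ y : ℤ, ∀ z z' : ℤ, z ≤ z' → (∀ u, z ≤ u → u < z' → ((u, y), false) ∉ P) →
      pot P (z', y) = pot P (z, y) := by
    intro y z z' hz
    induction z', hz using Int.leInduction with
    | base => intro _; rfl
    | succ z' hz ih =>
      intro hno
      rw [pot_right P (z', y), if_neg (hno z' hz (by omega)), add_zero]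
      exact ih fun u a b => hno u a (by omega)
  have hright : ∀ z : ℤ, B ≤ z → pot P (z, x.2) = 0 := by
    intro z hz
    rw [← hcol z x.2 (max x.2 B) (le_max_left _ _) fun u _ _ he => by
      have := (hB _ he).1.2; simp only at this; omega]
    exact habove z _ (le_max_right _ _)
  refine ⟨?_, ?_, ?_, ?_⟩
  · by_contra hno
    simp only [not_exists, not_and, not_lt] at hno
    rw [pot_eq_zero_of_no fun e he _ _ => hno e he] at hx
    exact absurd hx (by decide)
  · by_contra hno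
    simp only [not_exists, not_and, not_le] at hno
    rw [← hrow x.2 x.1 (max x.1 B) (le_max_left _ _) fun u hu _ he => by
      have := hno _ he; simp only at this; omega, hright _ (le_max_right _ _)] at hx
    exact absurd hx (by decide)
  · by_contra hno
    simp only [not_exists, not_and, not_lt] at hno
    rw [hcol x.1 (min x.2 (-B)) x.2 (min_le_left _ _) fun u _ hu he => by
      have := hno _ he; simp only at this; omega, hbelow _ _ (min_le_right _ _)] at hx
    exact absurd hx (by decide)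
  · by_contra hno
    simp only [not_exists, not_and, not_le] at hno
    rw [← hcol x.1 x.2 (max x.2 B) (le_max_left _ _) fun u hu _ he => by
      have := hno _ he; simp only at this; omega, habove _ _ (le_max_right _ _)] at hx
    exact absurd hx (by decide)

/-! ### Clusters -/

lemma cl_lt {e f : Edge} (h : f ∈ cl m t e) : m < t f := by
  obtain ⟨he, hr⟩ := h
  rcases hr.cases_tail with rfl | ⟨b, -, -, hf⟩
  · exact he
  · exact hf

lemma cl_self {e : Edge} (h : m < t e) : e ∈ cl m t e := ⟨h, .refl⟩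

lemma cl_step {e f g : Edge} (h : f ∈ cl m t e) (ha : SqAdj f g) (hg : m < t g) :
    g ∈ cl m t e :=
  ⟨h.1, h.2.tail ⟨ha, hg⟩⟩

lemma cl_symm {e f : Edge} (h : f ∈ cl m t e) : e ∈ cl m t f := by
  obtain ⟨he, hr⟩ := h
  induction hr with
  | refl => exact cl_self he
  | @tail b c hb hbc ih =>
    have hb' : m < t b := cl_lt ⟨he, hb⟩
    exact ⟨hbc.2, (Relation.ReflTransGen.single ⟨sqAdj_symm hbc.1, hb'⟩).trans ih.2⟩

lemma cl_trans {e f g : Edge} (h : f ∈ cl m t e) (h' : g ∈ cl m t f) : g ∈ cl m t e :=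
  ⟨h.1, h.2.trans h'.2⟩

lemma cl_eq {e f : Edge} (h : f ∈ cl m t e) : cl m t f = cl m t e :=
  Set.ext fun _ => ⟨fun hg => cl_trans h hg, fun hg => cl_trans (cl_symm h) hg⟩

lemma cl_empty {e : Edge} (h : ¬ m < t e) : cl m t e = ∅ :=
  Set.eq_empty_iff_forall_notMem.2 fun _ hf => h hf.1

/-- The part of an even set in one cluster is even, if the set is closed for the squares. -/
lemma evenSq_inter_cl {P : Finset Edge} (hP : EvenSq P) (hbad : ∀ f ∈ P, m < t f) (e : Edge)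
    [DecidablePred (· ∈ cl m t e)] :
    EvenSq (P.filter (· ∈ cl m t e)) ∧ EvenSq (P.filter fun f => f ∉ cl m t e) := by
  classical
  have key : ∀ v : V, (∀ f ∈ P ∩ sq v, f ∈ cl m t e) ∨ ∀ f ∈ P ∩ sq v, f ∉ cl m t e := by
    intro v
    by_cases h : ∃ f ∈ P ∩ sq v, f ∈ cl m t e
    · obtain ⟨f, hf, hfc⟩ := h
      refine Or.inl fun g hg => ?_
      rw [Finset.mem_inter] at hf hg
      exact cl_step hfc ⟨v, hf.2, hg.2⟩ (hbad g hg.1)
    · exact Or.inr fun f hf hfc => h ⟨f, hf, hfc⟩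
  refine ⟨fun v => ?_, fun v => ?_⟩ <;> rw [Finset.filter_inter] <;>
    rcases key v with h | h
  · rw [Finset.filter_eq_self.2 h]; exact hP v
  · rw [Finset.filter_eq_empty_iff.2 h]; simp
  · rw [Finset.filter_eq_empty_iff.2 fun f hf => not_not.2 (h f hf)]; simp
  · rw [Finset.filter_eq_self.2 h]; exact hP v

/-- An even set of bad edges whose clusters enclose nothing has potential zero. -/
lemma pot_eq_zero_of_clusters {x : V} : ∀ {P : Finset Edge}, EvenSq P → (∀ f ∈ P, m < t f) →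
    (∀ f ∈ P, ¬ Encl (cl m t f) x) → pot P x = 0 := by
  classical
  intro P
  induction P using Finset.strongInduction with
  | H P ih =>
    intro hP hbad hne
    rcases P.eq_empty_or_nonempty with rfl | ⟨e, he⟩
    · simp [pot]
    obtain ⟨h1, h2⟩ := evenSq_inter_cl hP hbad e
    have hz : pot (P.filter (· ∈ cl m t e)) x = 0 := by
      have e2 : ∀ a : ZMod 2, a ≠ 1 → a = 0 := by decide
      exact e2 _ fun h => hne e he ⟨_, fun f hf => (Finset.mem_filter.1 hf).2, h1, h⟩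
    have hz' := ih _ (Finset.filter_ssubset.2 ⟨e, he, not_not.2 (cl_self (hbad e he))⟩) h2
      (fun f hf => hbad f (Finset.mem_filter.1 hf).1) fun f hf => hne f (Finset.mem_filter.1 hf).1
    rw [← Finset.filter_union_filter_not_eq (· ∈ cl m t e) P,
      pot_union (Finset.disjoint_filter_filter_not _ _ _), hz, hz', add_zero]

/-! ### Detours -/

lemma connIn_of_edge {A : Set Edge} {e : Edge} (he : e ∈ A) : ConnIn A (eFst e) (eSnd e) := by
  have hadj : Adj (eFst e) (eSnd e) := by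
    obtain ⟨v, b⟩ := e; cases b <;> simp [eFst, eSnd, Adj]
  have hed : edgeOf (eFst e) (eSnd e) = e := by
    obtain ⟨⟨x, y⟩, b⟩ := e; cases b <;> simp [eFst, eSnd, edgeOf]
  exact ⟨.cons (show grid.Adj (eFst e) (eSnd e) from hadj) .nil, by simp [hed, he, walkIn_nil]⟩

/-- The parity argument: edges of the walk off `U` and edges of the squares at `U` join two
vertices which no part of `U` separates from infinity. -/
lemma connIn_detour {U : Finset Edge} {a b : V} (p : grid.Walk a b)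
    (ha : ∀ P ⊆ U, EvenSq P → pot P a = 0) (hb : ∀ P ⊆ U, EvenSq P → pot P b = 0) :
    ConnIn {e | e ∉ U ∧ (e ∈ edgeList p ∨ ∃ v, e ∈ sq v ∧ ∃ f ∈ U, f ∈ sq v)} a b := by
  classical
  set A : Set Edge := {e | e ∉ U ∧ (e ∈ edgeList p ∨ ∃ v, e ∈ sq v ∧ ∃ f ∈ U, f ∈ sq v)} with hA
  by_contra hab
  set P := U.filter fun e => ¬ (ConnIn A a (eFst e) ↔ ConnIn A a (eSnd e)) with hPdef
  have hAedge : ∀ e : Edge, e ∈ A → (ConnIn A a (eFst e) ↔ ConnIn A a (eSnd e)) := fun e he =>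
    ⟨fun h => h.trans (connIn_of_edge he), fun h => h.trans (connIn_of_edge he).symm⟩
  have hzero : ∀ x y z w : V, (if ¬ (ConnIn A a x ↔ ConnIn A a y) then (1 : ZMod 2) else 0) +
      ((if ¬ (ConnIn A a z ↔ ConnIn A a w) then 1 else 0) +
      ((if ¬ (ConnIn A a x ↔ ConnIn A a z) then 1 else 0) +
        if ¬ (ConnIn A a y ↔ ConnIn A a w) then 1 else 0)) = 0 := by
    intro x y z w
    by_cases h1 : ConnIn A a x <;> by_cases h2 : ConnIn A a y <;> by_cases h3 : ConnIn A a z <;>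
      by_cases h4 : ConnIn A a w <;> simp [h1, h2, h3, h4] <;> decide
  have hev : EvenSq P := by
    intro v
    by_cases hne : ∃ f ∈ U, f ∈ sq v
    swap
    · rw [Finset.eq_empty_of_forall_notMem (s := P ∩ sq v) fun e he => hne ⟨e, ?_⟩]
      · simp
      · rw [Finset.mem_inter] at he
        exact ⟨(Finset.mem_filter.1 he.1).1, he.2⟩
    obtain ⟨f, hfU, hfv⟩ := hne
    have hiff : ∀ e ∈ sq v, (e ∈ P ↔ ¬ (ConnIn A a (eFst e) ↔ ConnIn A a (eSnd e))) := by
      intro e he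
      rw [hPdef, Finset.mem_filter, and_iff_right_iff_imp]
      intro hne'
      by_contra heS
      exact hne' (hAedge e ⟨heS, Or.inr ⟨v, he, f, hfU, hfv⟩⟩)
    refine ZMod.natCast_eq_zero_iff_even.1 ?_
    rw [cast_card_inter_sq]
    simp only [hiff _ (by simp [sq] : (v, false) ∈ sq v),
      hiff _ (by simp [sq] : (v, true) ∈ sq v),
      hiff _ (by simp [sq] : ((v.1 + 1, v.2), true) ∈ sq v),
      hiff _ (by simp [sq] : ((v.1, v.2 + 1), false) ∈ sq v)]
    exact hzero _ _ _ _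
  have hstep : ∀ {x y : V} (q : grid.Walk x y),
      (∀ d ∈ q.darts, edgeOf d.toProd.1 d.toProd.2 ∈ P ∨
        (ConnIn A a d.toProd.1 ↔ ConnIn A a d.toProd.2)) →
      pot P x + pot P y =
        (if ConnIn A a x then 1 else 0) + if ConnIn A a y then 1 else 0 := by
    intro x y q
    induction q with
    | nil => intro _; rw [CharTwo.add_self_eq_zero, CharTwo.add_self_eq_zero]
    | @cons x z y hxz q ih =>
      intro hq
      simp only [SimpleGraph.Walk.darts_cons, List.forall_mem_cons] at hq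
      have h1 := ih hq.2
      have h2 := pot_step hev (show Adj x z from hxz)
      have hflip : (if edgeOf x z ∈ P then (1 : ZMod 2) else 0) =
          (if ConnIn A a x then 1 else 0) + if ConnIn A a z then 1 else 0 := by
        by_cases hP : edgeOf x z ∈ P
        · rw [if_pos hP]
          rw [hPdef, Finset.mem_filter] at hP
          rcases ends_edgeOf (show Adj x z from hxz) with ⟨e1, e2⟩ | ⟨e1, e2⟩ <;>
            rw [e1, e2] at hP <;> have hne := hP.2 <;> by_cases a1 : ConnIn A a x <;>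
            by_cases a2 : ConnIn A a z <;> simp [a1, a2] at hne ⊢
        · rw [if_neg hP]
          have hc : ConnIn A a x ↔ ConnIn A a z := hq.1.resolve_left hP
          by_cases a1 : ConnIn A a x
          · rw [if_pos a1, if_pos (hc.1 a1)]; decide
          · rw [if_neg a1, if_neg (mt hc.2 a1), add_zero]
      rw [hflip] at h2
      have e : ∀ p q r u w s : ZMod 2, q = p + (u + w) → q + r = w + s → p + r = u + s := by decide
      exact e _ _ _ _ _ _ h2 h1
  have hall : ∀ d ∈ p.darts, edgeOf d.toProd.1 d.toProd.2 ∈ P ∨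
      (ConnIn A a d.toProd.1 ↔ ConnIn A a d.toProd.2) := by
    intro d hd
    refine or_iff_not_imp_left.2 fun hP => ?_
    have hc : ConnIn A a (eFst (edgeOf d.toProd.1 d.toProd.2)) ↔
        ConnIn A a (eSnd (edgeOf d.toProd.1 d.toProd.2)) := by
      by_cases hS : edgeOf d.toProd.1 d.toProd.2 ∈ U
      · by_contra hc; exact hP (Finset.mem_filter.2 ⟨hS, hc⟩)
      · exact hAedge _ ⟨hS, Or.inl (List.mem_map.2 ⟨d, hd, rfl⟩)⟩
    rcases ends_edgeOf (show Adj d.toProd.1 d.toProd.2 from d.adj) with ⟨e1, e2⟩ | ⟨e1, e2⟩ <;>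
      rw [e1, e2] at hc
    exacts [hc, hc.symm]
  have h := hstep p hall
  rw [ha P (Finset.filter_subset _ _) hev, hb P (Finset.filter_subset _ _) hev,
    if_pos (ConnIn.refl a), if_neg hab] at h
  simp at h

/-- The squares of an edge. -/
def nearEdges (e : Edge) : Finset Edge :=
  if e.2 then sq e.1 ∪ sq (e.1.1 - 1, e.1.2) else sq e.1 ∪ sq (e.1.1, e.1.2 - 1)

lemma card_nearEdges_le (e : Edge) : (nearEdges e).card ≤ 8 := by
  have h : ∀ v, (sq v).card ≤ 4 := fun v => Finset.card_le_four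
  unfold nearEdges
  split_ifs <;>
    exact (Finset.card_union_le _ _).trans (Nat.add_le_add (h _) (h _))

lemma mem_nearEdges {e f : Edge} {v : V} (hf : f ∈ sq v) (he : e ∈ sq v) :
    e ∈ nearEdges f := by
  obtain ⟨⟨a, b⟩, c⟩ := f
  obtain ⟨x, y⟩ := v
  simp only [sq, Finset.mem_insert, Finset.mem_singleton, Prod.mk.injEq] at hf
  rcases hf with ⟨⟨rfl, rfl⟩, rfl⟩ | ⟨⟨rfl, rfl⟩, rfl⟩ | ⟨⟨rfl, rfl⟩, rfl⟩ | ⟨⟨rfl, rfl⟩, rfl⟩ <;>
    simp [nearEdges, he]

lemma nodup_sum_le {l : List Edge} (hl : l.Nodup) (s : Conf) (F : Finset Edge)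
    (hsub : ∀ e ∈ l, e ∈ F) (h0 : ∀ e ∈ F, 0 ≤ s e) : (l.map s).sum ≤ ∑ e ∈ F, s e := by
  classical
  rw [← List.sum_toFinset _ hl]
  exact Finset.sum_le_sum_of_subset_of_nonneg (fun e he => hsub e (List.mem_toFinset.1 he))
    fun e he _ => h0 e he

lemma sum_toFinset_le_list {s : Conf} (h0 : ∀ e, 0 ≤ s e) (l : List Edge) :
    ∑ e ∈ l.toFinset, s e ≤ (l.map s).sum := by
  induction l with
  | nil => simp
  | cons a l ih =>
    simp only [List.toFinset_cons, List.map_cons, List.sum_cons]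
    by_cases ha : a ∈ l.toFinset
    · rw [Finset.insert_eq_of_mem ha]; linarith [h0 a]
    · rw [Finset.sum_insert ha]; linarith

theorem detour (hm : 0 < m) : ∀ t, (∀ e, 0 ≤ t e) → ∀ x y (p : grid.Walk x y) (U : Finset Edge),
    (∀ e ∈ U, m < t e ∧ cl m t e ⊆ ↑U) → OKon m ↑U t x → OKon m ↑U t y →
    ∃ q : grid.Walk x y,
      plen t q ≤ (((edgeList p).filter fun e => e ∉ U).map t).sum + 8 * m * U.card ∧
      WalkIn {e | e ∉ U ∧ (e ∈ edgeList p ∨
        (t e ≤ m ∧ ∃ v, e ∈ sq v ∧ ∃ f ∈ U, f ∈ sq v))} q := by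
  classical
  intro t h0 x y p U hU hx hy
  have hout : ∀ {z : V}, OKon m ↑U t z → ∀ P ⊆ U, EvenSq P → pot P z = 0 := fun hz P hP hev =>
    pot_eq_zero_of_clusters hev (fun f hf => (hU f (hP hf)).1) fun f hf => hz f (hP hf)
  obtain ⟨q0, hq0⟩ := connIn_detour p (hout hx) (hout hy)
  have hgood : ∀ e, e ∉ U → ∀ v, e ∈ sq v → ∀ f ∈ U, f ∈ sq v → t e ≤ m := by
    intro e he v hev f hf hfv
    by_contra hlt
    exact he ((hU f hf).2 (cl_step (cl_self (hU f hf).1) ⟨v, hfv, hev⟩ (not_le.1 hlt)))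
  have hq : WalkIn {e | e ∉ U ∧ (e ∈ edgeList p ∨
      (t e ≤ m ∧ ∃ v, e ∈ sq v ∧ ∃ f ∈ U, f ∈ sq v))} q0.bypass := by
    refine (hq0.bypass).mono ?_
    rintro e ⟨he, h | ⟨v, hv, f, hf, hfv⟩⟩
    · exact ⟨he, Or.inl h⟩
    · exact ⟨he, Or.inr ⟨hgood e he v hv f hf hfv, v, hv, f, hf, hfv⟩⟩
  refine ⟨q0.bypass, ?_, hq⟩
  set A1 := ((edgeList p).filter fun e => e ∉ U).toFinset
  set A2 := (U.biUnion nearEdges).filter fun e => t e ≤ m
  rw [plen_eq_edgeSum]
  refine (nodup_sum_le (edgeList_nodup q0.bypass_isPath) t (A1 ∪ A2) ?_ fun e _ => h0 e).trans ?_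
  · intro e he
    obtain ⟨d, hd, rfl⟩ := List.mem_map.1 he
    obtain ⟨he', h | ⟨hle, v, hv, f, hf, hfv⟩⟩ := hq d hd
    · exact Finset.mem_union_left _
        (List.mem_toFinset.2 (List.mem_filter.2 ⟨h, by simpa using he'⟩))
    · exact Finset.mem_union_right _
        (Finset.mem_filter.2 ⟨Finset.mem_biUnion.2 ⟨f, hf, mem_nearEdges hfv hv⟩, hle⟩)
  · have h1 := sum_toFinset_le_list h0 ((edgeList p).filter fun e => e ∉ U)
    have h2 : ∑ e ∈ A2, t e ≤ 8 * m * U.card := by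
      refine (Finset.sum_le_card_nsmul _ _ m fun e he => (Finset.mem_filter.1 he).2).trans ?_
      rw [nsmul_eq_mul]
      have hc : A2.card ≤ U.card * 8 := (Finset.card_filter_le _ _).trans
        (Finset.card_biUnion_le_card_mul _ _ _ fun e _ => card_nearEdges_le e)
      calc (A2.card : ℝ) * m ≤ ((U.card * 8 : ℕ) : ℝ) * m := by gcongr
        _ = 8 * m * U.card := by push_cast; ring
    have h3 := Finset.sum_union_inter (s₁ := A1) (s₂ := A2) (f := t)
    have h4 : (0 : ℝ) ≤ ∑ e ∈ A1 ∩ A2, t e := Finset.sum_nonneg fun e _ => h0 e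
    linarith

/-! ### Spans of enclosing clusters -/

/-- The vertex lies within the coordinate span of the set. -/
def InSpan (C : Set Edge) (v : V) : Prop :=
  (∃ a ∈ C, a.1.1 < v.1) ∧ (∃ b ∈ C, v.1 ≤ b.1.1) ∧ (∃ a ∈ C, a.1.2 < v.2) ∧
    (∃ b ∈ C, v.2 ≤ b.1.2)

lemma encl_span {C : Set Edge} {x : V} (h : Encl C x) : InSpan C x := by
  obtain ⟨P, hPC, hP, hx⟩ := h
  obtain ⟨⟨a, ha, ha'⟩, ⟨b, hb, hb'⟩, ⟨c, hc, hc'⟩, ⟨d, hd, hd'⟩⟩ := pot_span hP hx
  exact ⟨⟨a, hPC ha, ha'⟩, ⟨b, hPC hb, hb'⟩, ⟨c, hPC hc, hc'⟩, ⟨d, hPC hd, hd'⟩⟩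

lemma cl_spread {φ : Edge → ℤ} (hφ : ∀ e f, SqAdj e f → |φ e - φ f| ≤ 1) {e₀ f g : Edge}
    (hfin : (cl m t e₀).Finite) (hf : f ∈ cl m t e₀) (hg : g ∈ cl m t e₀) :
    |φ f - φ g| < ((cl m t e₀).ncard : ℤ) := by
  classical
  rw [← cl_eq hf] at hfin hg ⊢
  obtain ⟨hf', hr⟩ := hg
  have hivt : ∀ z, min (φ f) (φ g) ≤ z → z ≤ max (φ f) (φ g) → ∃ h ∈ cl m t f, φ h = z := by
    induction hr with
    | refl =>
      intro z h1 h2
      simp only [min_self, max_self] at h1 h2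
      exact ⟨f, cl_self hf', le_antisymm h1 h2⟩
    | @tail b c hb hbc ih =>
      intro z h1 h2
      by_cases hz : z = φ c
      · exact ⟨c, ⟨hf', hb.tail hbc⟩, hz.symm⟩
      · have hd := abs_le.1 (hφ b c hbc.1)
        exact ih z (by omega) (by omega)
  have hsub : Finset.Icc (min (φ f) (φ g)) (max (φ f) (φ g)) ⊆ hfin.toFinset.image φ := by
    intro z hz
    obtain ⟨h, hh, rfl⟩ := hivt z (Finset.mem_Icc.1 hz).1 (Finset.mem_Icc.1 hz).2
    exact Finset.mem_image_of_mem _ (hfin.mem_toFinset.2 hh)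
  have hc := (Finset.card_le_card hsub).trans Finset.card_image_le
  rw [Int.card_Icc, ← Set.ncard_eq_toFinset_card _ hfin] at hc
  rw [abs_lt]
  omega

lemma sqAdj_fst {e f : Edge} (h : SqAdj e f) : |e.1.1 - f.1.1| ≤ 1 := by
  obtain ⟨v, he, hf⟩ := h
  simp only [sq, Finset.mem_insert, Finset.mem_singleton] at he hf
  rcases he with rfl | rfl | rfl | rfl <;> rcases hf with rfl | rfl | rfl | rfl <;> simp

lemma sqAdj_snd {e f : Edge} (h : SqAdj e f) : |e.1.2 - f.1.2| ≤ 1 := by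
  obtain ⟨v, he, hf⟩ := h
  simp only [sq, Finset.mem_insert, Finset.mem_singleton] at he hf
  rcases he with rfl | rfl | rfl | rfl <;> rcases hf with rfl | rfl | rfl | rfl <;> simp

lemma span_near {e : Edge} {u v : V} (hfin : (cl m t e).Finite) (hu : InSpan (cl m t e) u)
    (hv : InSpan (cl m t e) v) :
    |u.1 - v.1| ≤ ((cl m t e).ncard : ℤ) ∧ |u.2 - v.2| ≤ ((cl m t e).ncard : ℤ) := by
  obtain ⟨⟨a, ha, a'⟩, ⟨b, hb, b'⟩, ⟨c, hc, c'⟩, ⟨d, hd, d'⟩⟩ := hu
  obtain ⟨⟨a₁, ha₁, a₁'⟩, ⟨b₁, hb₁, b₁'⟩, ⟨c₁, hc₁, c₁'⟩, ⟨d₁, hd₁, d₁'⟩⟩ := hv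
  have h1 := abs_lt.1 (cl_spread (φ := fun e : Edge => e.1.1) (fun _ _ => sqAdj_fst) hfin hb ha₁)
  have h2 := abs_lt.1 (cl_spread (φ := fun e : Edge => e.1.1) (fun _ _ => sqAdj_fst) hfin hb₁ ha)
  have h3 := abs_lt.1 (cl_spread (φ := fun e : Edge => e.1.2) (fun _ _ => sqAdj_snd) hfin hd hc₁)
  have h4 := abs_lt.1 (cl_spread (φ := fun e : Edge => e.1.2) (fun _ _ => sqAdj_snd) hfin hd₁ hc)
  rw [abs_le, abs_le]
  omega

theorem encl_near (_hm : 0 < m) : ∀ t e x, (cl m t e).Finite → Encl (cl m t e) x →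
    |x.1 - (eFst e).1| ≤ ((cl m t e).ncard : ℤ) ∧
      |x.2 - (eFst e).2| ≤ ((cl m t e).ncard : ℤ) := by
  intro t e x hfin hx
  obtain ⟨⟨a, ha, a'⟩, ⟨b, hb, b'⟩, ⟨c, hc, c'⟩, ⟨d, hd, d'⟩⟩ := encl_span hx
  have he : e ∈ cl m t e := cl_self ha.1
  have h1 := abs_lt.1 (cl_spread (φ := fun e : Edge => e.1.1) (fun _ _ => sqAdj_fst) hfin hb he)
  have h2 := abs_lt.1 (cl_spread (φ := fun e : Edge => e.1.1) (fun _ _ => sqAdj_fst) hfin he ha)
  have h3 := abs_lt.1 (cl_spread (φ := fun e : Edge => e.1.2) (fun _ _ => sqAdj_snd) hfin hd he)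
  have h4 := abs_lt.1 (cl_spread (φ := fun e : Edge => e.1.2) (fun _ _ => sqAdj_snd) hfin he hc)
  simp only [eFst]
  rw [abs_le, abs_le]
  omega

/-- Along a walk of enclosed vertices one cluster encloses the start and spans the end. -/
lemma nested {x v : V} (p : grid.Walk x v) (hp : ∀ w ∈ p.support, ¬ OKpt m t w) :
    ∃ e, Encl (cl m t e) x ∧ InSpan (cl m t e) v := by
  classical
  induction p with
  | @nil a =>
    have h := hp a (by simp)
    simp only [OKpt, OKon, Set.mem_univ, true_implies, not_forall, not_not] at h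
    obtain ⟨e, he⟩ := h
    exact ⟨e, he, encl_span he⟩
  | @cons x z v hxz q ih =>
    simp only [SimpleGraph.Walk.support_cons, List.forall_mem_cons] at hp
    obtain ⟨e, he, hspan⟩ := ih hp.2
    by_cases hin : Encl (cl m t e) x
    · exact ⟨e, hin, hspan⟩
    have hx := hp.1
    simp only [OKpt, OKon, Set.mem_univ, true_implies, not_forall, not_not] at hx
    obtain ⟨e₂, he₂⟩ := hx
    have hne : ∀ f ∈ cl m t e, f ∉ cl m t e₂ := fun f h h' => by
      rw [← cl_eq h', cl_eq h] at he₂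
      exact hin he₂
    obtain ⟨P, hPC, hP, hPz⟩ := he
    obtain ⟨Q, hQC, hQ, hQx⟩ := he₂
    have hadj : Adj x z := hxz
    have hedge : edgeOf x z ∈ cl m t e := by
      by_contra hcon
      refine hin ⟨P, hPC, hP, ?_⟩
      have h := pot_step hP hadj
      rw [if_neg fun h' : edgeOf x z ∈ P => hcon (hPC (Finset.mem_coe.2 h')), add_zero] at h
      rwa [← h]
    -- the potential of the outer cluster is constant along the inner one
    have hnoQ : ∀ f ∈ cl m t e, ∀ v, f ∈ sq v → ∀ g ∈ sq v, g ∉ Q := fun f hf v hfv g hgv hg =>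
      hne g (cl_step hf ⟨v, hfv, hgv⟩ (cl_lt (hQC hg))) (hQC hg)
    have hsq : ∀ f ∈ cl m t e, ∀ v, f ∈ sq v →
        ∀ g ∈ sq v, pot Q (eFst g) = pot Q v ∧ pot Q (eSnd g) = pot Q v := by
      intro f hf v hfv
      have h1 := pot_edge hQ (v, false)
      have h2 := pot_edge hQ (v, true)
      have h3 := pot_edge hQ ((v.1, v.2 + 1), false)
      have h4 := pot_edge hQ ((v.1 + 1, v.2), true)
      rw [if_neg (hnoQ f hf v hfv _ (by simp [sq])), add_zero] at h1 h2 h3 h4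
      simp only [eFst, eSnd, Bool.false_eq_true, if_false, if_true] at h1 h2 h3 h4
      intro g hg
      simp only [sq, Finset.mem_insert, Finset.mem_singleton] at hg
      rcases hg with rfl | rfl | rfl | rfl <;>
        simp only [eFst, eSnd, Bool.false_eq_true, if_false, if_true] <;>
        constructor <;> simp only [h1, h2, h3, h4]
    have hconst : ∀ f ∈ cl m t (edgeOf x z), pot Q (eFst f) = pot Q (eFst (edgeOf x z)) := by
      intro f hf
      obtain ⟨hb, hr⟩ := hf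
      induction hr with
      | refl => rfl
      | @tail b c hb' hbc ihb =>
        obtain ⟨w, hbw, hcw⟩ := hbc.1
        have hbe : b ∈ cl m t e := cl_trans hedge ⟨hb, hb'⟩
        rw [(hsq b hbe w hbw c hcw).1, ← (hsq b hbe w hbw b hbw).1, ihb]
    have hxe : pot Q (eFst (edgeOf x z)) = 1 := by
      have h := pot_edge hQ (edgeOf x z)
      rw [if_neg fun h' : edgeOf x z ∈ Q => hne _ hedge (hQC (Finset.mem_coe.2 h')), add_zero] at h
      rcases ends_edgeOf hadj with ⟨a1, a2⟩ | ⟨a1, a2⟩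
      · rw [a1]; exact hQx
      · rw [← h, a2]; exact hQx
    have hall : ∀ f ∈ cl m t e, InSpan (cl m t e₂) f.1 := fun f hf =>
      encl_span ⟨Q, hQC, hQ, (hconst f (by rwa [cl_eq hedge])).trans hxe⟩
    refine ⟨e₂, ⟨Q, hQC, hQ, hQx⟩, ?_⟩
    obtain ⟨⟨a, ha, a'⟩, ⟨b, hb, b'⟩, ⟨c, hc, c'⟩, ⟨d, hd, d'⟩⟩ := hspan
    obtain ⟨a1, ha1, a1'⟩ := (hall a ha).1
    obtain ⟨b1, hb1, b1'⟩ := (hall b hb).2.1
    obtain ⟨c1, hc1, c1'⟩ := (hall c hc).2.2.1
    obtain ⟨d1, hd1, d1'⟩ := (hall d hd).2.2.2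
    exact ⟨⟨a1, ha1, by omega⟩, ⟨b1, hb1, by omega⟩, ⟨c1, hc1, by omega⟩, ⟨d1, hd1, by omega⟩⟩

theorem escape (_hm : 0 < m) : ∀ N L t, Loc m N L t → ∀ x y (p : grid.Walk x y), InSq N x →
    (∀ v ∈ p.support, ¬ OKpt m t v) →
    ∀ v ∈ p.support, |v.1 - x.1| ≤ (L : ℤ) ∧ |v.2 - x.2| ≤ (L : ℤ) := by
  classical
  intro N L t hloc x y p hx hp v hv
  obtain ⟨e, he, hspan⟩ :=
    nested (p.takeUntil v hv) fun w hw => hp w (p.support_takeUntil_subset hv hw)
  have hfin := hloc.tame.fin e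
  have hsmall := hloc.small e (Or.inr (Or.inr ⟨x, hx, he⟩))
  have h := span_near hfin hspan (encl_span he)
  omega

/-! ### Passage times -/

/-- The shielded configuration is nonnegative, at most the original one, and a lowered edge has
a finite cluster and keeps a weight large compared to it. -/
lemma shieldOn_spec (hm : 0 < m) (F : Set Edge) (h0 : ∀ e, 0 ≤ t e) (e : Edge) :
    0 ≤ shieldOn m F t e ∧ shieldOn m F t e ≤ t e ∧
      (shieldOn m F t e < t e → e ∈ F ∧ m < t e ∧ (cl m t e).Finite ∧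
        10 * m * ((cl m t e).ncard + 1) ≤ shieldOn m F t e) := by
  classical
  unfold shieldOn
  split_ifs with hF
  swap
  · exact ⟨h0 e, le_rfl, fun h => absurd h (lt_irrefl _)⟩
  unfold capTo
  split_ifs with hle
  · exact ⟨h0 e, le_rfl, fun h => absurd h (lt_irrefl _)⟩
  rw [not_le] at hle
  have hfin : (cl m t e).Finite := by
    by_contra hinf
    simp only [capY, if_neg hinf, lt_self_iff_false] at hle
  have hY : capY m t e = 10 * m * ((cl m t e).ncard + 1) := by simp [capY, hfin]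
  have hYm : m < t e := by
    rw [hY] at hle
    have : (0 : ℝ) ≤ ((cl m t e).ncard : ℝ) := Nat.cast_nonneg _
    nlinarith
  set d := t e - capY m t e with hd
  have hd0 : 0 < d := by simp only [hd]; linarith
  have h1 : d / (1 + d) ≤ d := div_le_self hd0.le (by linarith)
  have h2 : 0 ≤ d / (1 + d) := div_nonneg hd0.le (by linarith)
  have h3 : 0 ≤ capY m t e := by rw [hY]; positivity
  exact ⟨by linarith, by simp only [hd] at h1 ⊢; linarith,
    fun _ => ⟨hF, hYm, hfin, by rw [← hY]; linarith⟩⟩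

lemma shieldOn_le' (hm : 0 < m) (F : Set Edge) (h0 : ∀ e, 0 ≤ t e) {x y : V}
    (p : grid.Walk x y) : plen (shieldOn m F t) p ≤ plen t p :=
  List.sum_le_sum fun _ _ => (shieldOn_spec hm F h0 _).2.1

/-- A walk between unenclosed vertices either keeps its weight or pays at least `m`. -/
lemma walk_dichotomy (hm : 0 < m) {F : Set Edge} (h0 : ∀ e, 0 ≤ t e) {x y : V}
    (p : grid.Walk x y) (hx : OKon m F t x) (hy : OKon m F t y) :
    plen (shieldOn m F t) p = plen t p ∨ T t x y + m ≤ plen (shieldOn m F t) p := by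
  classical
  set s := shieldOn m F t with hs
  set Lw := (edgeList p).toFinset.filter fun e => s e < t e with hLw
  rcases Lw.eq_empty_or_nonempty with hem | hne
  · left
    rw [plen_eq_edgeSum, plen_eq_edgeSum]
    congr 1
    refine List.map_congr_left fun e he => le_antisymm (shieldOn_spec hm F h0 e).2.1 ?_
    by_contra hlt
    have : e ∈ Lw := Finset.mem_filter.2 ⟨List.mem_toFinset.2 he, not_le.1 hlt⟩
    simp [hem] at this
  right
  have hspec : ∀ e ∈ Lw, e ∈ F ∧ m < t e ∧ (cl m t e).Finite ∧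
      10 * m * ((cl m t e).ncard + 1) ≤ s e := fun e he =>
    (shieldOn_spec hm F h0 e).2.2 (Finset.mem_filter.1 he).2
  set U := Lw.biUnion fun e => if h : (cl m t e).Finite then h.toFinset else ∅ with hU
  have hmemU : ∀ f, f ∈ U ↔ ∃ e ∈ Lw, f ∈ cl m t e := by
    intro f
    simp only [hU, Finset.mem_biUnion]
    constructor <;> rintro ⟨e, he, hf⟩ <;> refine ⟨e, he, ?_⟩
    · rwa [dif_pos (hspec e he).2.2.1, Set.Finite.mem_toFinset] at hf
    · rwa [dif_pos (hspec e he).2.2.1, Set.Finite.mem_toFinset]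
  have hLU : Lw ⊆ U := fun e he => (hmemU e).2 ⟨e, he, cl_self (hspec e he).2.1⟩
  have hOK : ∀ {z : V}, OKon m F t z → OKon m ↑U t z := by
    intro z hz f hf
    obtain ⟨e, he, hfe⟩ := (hmemU f).1 hf
    rw [cl_eq hfe]
    exact hz e (hspec e he).1
  obtain ⟨q, hq, -⟩ := detour hm t h0 x y p U (fun f hf => by
    obtain ⟨e, he, hfe⟩ := (hmemU f).1 hf
    exact ⟨cl_lt hfe, fun g hg => Finset.mem_coe.2 ((hmemU g).2 ⟨e, he, cl_trans hfe hg⟩)⟩)
    (hOK hx) (hOK hy)
  have h1 : T t x y ≤ plen t q := T_le h0 q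
  have hcard : (U.card : ℝ) ≤ ∑ e ∈ Lw, ((cl m t e).ncard : ℝ) := by
    refine (Nat.cast_le.2 Finset.card_biUnion_le).trans (le_of_eq ?_)
    push_cast
    refine Finset.sum_congr rfl fun e he => ?_
    rw [dif_pos (hspec e he).2.2.1, ← Set.ncard_eq_toFinset_card _ (hspec e he).2.2.1]
  have h2 : (((edgeList p).filter fun e => e ∉ U).map t).sum + ∑ e ∈ Lw, s e ≤ plen s p := by
    rw [plen_eq_edgeSum]
    have hsplit : ((edgeList p).map s).sum =
        (((edgeList p).filter fun e => e ∉ U).map s).sum +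
          (((edgeList p).filter fun e => e ∈ U).map s).sum := by
      induction edgeList p with
      | nil => simp
      | cons a l ih => by_cases ha : a ∈ U <;> simp [ha, ih] <;> ring
    rw [hsplit]
    refine add_le_add (le_of_eq ?_) ?_
    · congr 1
      refine List.map_congr_left fun e he => le_antisymm ?_ (shieldOn_spec hm F h0 e).2.1
      by_contra hlt
      rw [List.mem_filter] at he
      exact (by simpa using he.2 : e ∉ U)
        (hLU (Finset.mem_filter.2 ⟨List.mem_toFinset.2 he.1, not_le.1 hlt⟩))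
    · refine le_trans (Finset.sum_le_sum_of_subset_of_nonneg ?_
        fun e _ _ => (shieldOn_spec hm F h0 e).1)
        (sum_toFinset_le_list (fun e => (shieldOn_spec hm F h0 e).1) _)
      intro e he
      exact List.mem_toFinset.2 (List.mem_filter.2
        ⟨List.mem_toFinset.1 (Finset.mem_filter.1 he).1, by simpa using hLU he⟩)
  have h3 : 10 * m * (U.card : ℝ) + 10 * m ≤ ∑ e ∈ Lw, s e := by
    refine le_trans ?_ (Finset.sum_le_sum fun e he => (hspec e he).2.2.2)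
    rw [← Finset.mul_sum, Finset.sum_add_distrib, Finset.sum_const, nsmul_one]
    have h5 : (1 : ℝ) ≤ (Lw.card : ℝ) := by exact_mod_cast hne.card_pos
    nlinarith
  have h6 : (0 : ℝ) ≤ m * U.card := mul_nonneg hm.le (Nat.cast_nonneg _)
  linarith

theorem eq_T (hm : 0 < m) : ∀ F t, (∀ e, 0 ≤ t e) → ∀ x y, OKon m F t x → OKon m F t y →
    T (shieldOn m F t) x y = T t x y := by
  intro F t h0 x y hx hy
  refine le_antisymm (le_T fun p => ?_) (le_T fun p => ?_)
  · exact (T_le (fun e => (shieldOn_spec hm F h0 e).1) p).trans (shieldOn_le' hm F h0 p)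
  · rcases walk_dichotomy hm h0 p hx hy with h | h
    · exact h ▸ T_le h0 p
    · linarith

lemma wt_shield_le (hm : 0 < m) (F : Set Edge) (h0 : ∀ e, 0 ≤ t e) (a b : V) :
    wt (shieldOn m F t) a b ≤ wt t a b :=
  (shieldOn_spec hm F h0 _).2.1

theorem lowered (hm : 0 < m) : ∀ F t, (∀ e, 0 ≤ t e) → ∀ x y (p : grid.Walk x y),
    OKon m F t x → OKon m F t y →
    (∃ d ∈ p.darts, wt (shieldOn m F t) d.toProd.1 d.toProd.2 < wt t d.toProd.1 d.toProd.2) →
    T t x y + m ≤ plen (shieldOn m F t) p := by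
  intro F t h0 x y p hx hy ⟨d, hd, hlt⟩
  refine (walk_dichotomy hm h0 p hx hy).resolve_left (ne_of_lt ?_)
  exact List.sum_lt_sum _ _ (fun d' _ => wt_shield_le hm F h0 _ _) ⟨d, hd, hlt⟩

/-- The walk along a path segment. -/
lemma seg_walk {γ : ℤ → V} {a b : ℤ} (hab : a ≤ b)
    (hadj : ∀ i, a ≤ i → i < b → Adj (γ i) (γ (i + 1))) :
    ∃ p : grid.Walk (γ a) (γ b),
      (∀ s : Conf, plen s p = ∑ i ∈ Finset.Ico a b, wt s (γ i) (γ (i + 1))) ∧
      (∀ v ∈ p.support, ∃ i, a ≤ i ∧ i ≤ b ∧ γ i = v) ∧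
      ∀ e ∈ edgeList p, ∃ i, a ≤ i ∧ i < b ∧ e = edgeOf (γ i) (γ (i + 1)) := by
  induction b, hab using Int.leInduction with
  | base =>
    exact ⟨.nil, fun s => by simp, fun v hv => ⟨a, le_rfl, le_rfl, by simpa using (Eq.symm
      (by simpa using hv : v = γ a))⟩, by simp⟩
  | succ b hb ih =>
    obtain ⟨p, h1, h2, h3⟩ := ih fun i hi hi' => hadj i hi (by omega)
    have hg : grid.Adj (γ b) (γ (b + 1)) := hadj b hb (by omega)
    refine ⟨p.concat hg, fun s => ?_, fun v hv => ?_, fun e he => ?_⟩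
    · have e : Finset.Ico a (b + 1) = insert b (Finset.Ico a b) := by
        ext k; simp only [Finset.mem_Ico, Finset.mem_insert]; omega
      rw [e, Finset.sum_insert (by simp), ← h1 s]
      simp [plen, SimpleGraph.Walk.darts_concat, add_comm]
    · rw [SimpleGraph.Walk.support_concat, List.mem_append] at hv
      rcases hv with hv | hv
      · obtain ⟨i, a1, a2, a3⟩ := h2 v hv
        exact ⟨i, a1, by omega, a3⟩
      · exact ⟨b + 1, by omega, le_rfl, by simpa using (List.mem_singleton.1 hv).symm⟩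
    · simp only [edgeList, SimpleGraph.Walk.darts_concat, List.concat_eq_append, List.map_append,
        List.mem_append, List.map_cons, List.map_nil, List.mem_singleton] at he
      rcases he with he | he
      · obtain ⟨i, a1, a2, a3⟩ := h3 e he
        exact ⟨i, a1, by omega, a3⟩
      · exact ⟨b, hb, by omega, he⟩

theorem seg (hm : 0 < m) : ∀ F t, (∀ e, 0 ≤ t e) → ∀ γ i₀ i₁,
    OKon m F t (γ i₀) → OKon m F t (γ i₁) →
    ((SegGeo (shieldOn m F t) γ i₀ i₁ ↔ SegGeo t γ i₀ i₁) ∧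
      (SegGeo t γ i₀ i₁ → ∀ i, i₀ ≤ i → i < i₁ →
        wt (shieldOn m F t) (γ i) (γ (i + 1)) = wt t (γ i) (γ (i + 1)))) := by
  intro F t h0 γ i₀ i₁ ha hb
  set s := shieldOn m F t
  have hT := eq_T hm F t h0 _ _ ha hb
  have heq : SegGeo t γ i₀ i₁ → ∀ i ∈ Finset.Ico i₀ i₁,
      wt s (γ i) (γ (i + 1)) = wt t (γ i) (γ (i + 1)) := by
    intro h
    obtain ⟨p, hp, -, -⟩ := seg_walk h.le h.adj
    by_contra hcon
    simp only [not_forall] at hcon
    obtain ⟨i, hi, hne⟩ := hcon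
    have hlt : ∑ j ∈ Finset.Ico i₀ i₁, wt s (γ j) (γ (j + 1)) <
        ∑ j ∈ Finset.Ico i₀ i₁, wt t (γ j) (γ (j + 1)) :=
      Finset.sum_lt_sum (fun j _ => wt_shield_le hm F h0 _ _)
        ⟨i, hi, lt_of_le_of_ne (wt_shield_le hm F h0 _ _) hne⟩
    have := T_le (fun e => (shieldOn_spec hm F h0 e).1) p
    rw [hp, hT, ← h.geo] at this
    linarith
  refine ⟨⟨fun h => ⟨h.le, h.adj, h.inj, ?_⟩, fun h => ⟨h.le, h.adj, h.inj, ?_⟩⟩,
    fun h i hi hi' => heq h i (Finset.mem_Ico.2 ⟨hi, hi'⟩)⟩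
  · obtain ⟨p, hp, -, -⟩ := seg_walk h.le h.adj
    rcases walk_dichotomy hm h0 p ha hb with he | he
    · rw [hp, hp, h.geo, hT] at he
      exact he.symm
    · rw [hp, h.geo, hT] at he
      linarith
  · rw [Finset.sum_congr rfl (heq h), h.geo, hT]

/-! ### Bigeodesics -/

/-- An injective path has unenclosed vertices beyond every index. -/
lemma exists_ok_ge (ht : Tame m t) {γ : ℤ → V} (hinj : Function.Injective γ)
    (hadj : ∀ i, Adj (γ i) (γ (i + 1))) (i : ℤ) : ∃ b, i ≤ b ∧ OKpt m t (γ b) := by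
  classical
  by_contra hcon
  simp only [not_exists, not_and] at hcon
  have hall : ∀ n : ℕ, ∃ e, Encl (cl m t e) (γ i) ∧ InSpan (cl m t e) (γ (i + n)) := by
    intro n
    obtain ⟨p, -, hp, -⟩ := seg_walk (γ := γ) (show i ≤ i + n by omega) fun j _ _ => hadj j
    refine nested p fun w hw => ?_
    obtain ⟨j, hj, -, rfl⟩ := hp w hw
    exact hcon j hj
  choose e he hspan using hall
  set E := (ht.encl (γ i)).toFinset
  have hEm : ∀ n, e n ∈ E := fun n => (ht.encl (γ i)).mem_toFinset.2 (he n)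
  obtain ⟨K, hK⟩ := (E.image fun f => ((cl m t f).ncard : ℤ)).exists_le
  have hmaps : ∀ n : ℕ, γ (i + n) ∈
      Finset.Icc ((γ i).1 - K) ((γ i).1 + K) ×ˢ Finset.Icc ((γ i).2 - K) ((γ i).2 + K) := by
    intro n
    have h := span_near (ht.fin _) (hspan n) (encl_span (he n))
    have hk := hK _ (Finset.mem_image_of_mem _ (hEm n))
    rw [abs_le, abs_le] at h
    simp only [Finset.mem_product, Finset.mem_Icc]
    omega
  have hfin : (Set.range fun n : ℕ => γ (i + n)).Finite :=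
    (Finset.finite_toSet _).subset (Set.range_subset_iff.2 fun n => Finset.mem_coe.2 (hmaps n))
  exact Set.infinite_range_of_injective
    (fun a b hab => by have := hinj hab; omega : Function.Injective fun n : ℕ => γ (i + n)) hfin

lemma exists_ok_le (ht : Tame m t) {γ : ℤ → V} (hinj : Function.Injective γ)
    (hadj : ∀ i, Adj (γ i) (γ (i + 1))) (i : ℤ) : ∃ a, a ≤ i ∧ OKpt m t (γ a) := by
  obtain ⟨b, hb, hok⟩ := exists_ok_ge ht (γ := fun j => γ (-j))
    (fun a b hab => neg_injective (hinj hab)) (fun j => by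
      have := (hadj (-(j + 1))).symm
      rwa [show -(j + 1) + 1 = -j by ring] at this) (-i)
  exact ⟨-b, by omega, hok⟩

lemma segGeo_of_bigeo {s : Conf} {γ : ℤ → V} (h : IsBigeodesic s γ) {a b : ℤ} (hab : a < b) :
    SegGeo s γ a b :=
  ⟨hab.le, fun i _ _ => h.adj i, h.inj.injOn, h.geo a b hab⟩

lemma sub_geo {s : Conf} (h0 : ∀ e, 0 ≤ s e) {γ : ℤ → V} {a b i j : ℤ} (h : SegGeo s γ a b)
    (hai : a ≤ i) (hij : i ≤ j) (hjb : j ≤ b) :
    ∑ k ∈ Finset.Ico i j, wt s (γ k) (γ (k + 1)) = T s (γ i) (γ j) := by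
  have hle : ∀ {u v : ℤ}, a ≤ u → u ≤ v → v ≤ b →
      T s (γ u) (γ v) ≤ ∑ k ∈ Finset.Ico u v, wt s (γ k) (γ (k + 1)) := by
    intro u v hu huv hv
    obtain ⟨p, hp, -, -⟩ := seg_walk (γ := γ) huv fun k k1 k2 => h.adj k (by omega) (by omega)
    exact (hp s) ▸ T_le h0 p
  have hsplit : ∑ k ∈ Finset.Ico a b, wt s (γ k) (γ (k + 1)) =
      ∑ k ∈ Finset.Ico a i, wt s (γ k) (γ (k + 1)) +
        ∑ k ∈ Finset.Ico i j, wt s (γ k) (γ (k + 1)) +
        ∑ k ∈ Finset.Ico j b, wt s (γ k) (γ (k + 1)) := by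
    rw [← Finset.sum_union (Finset.Ico_disjoint_Ico_consecutive a i j),
      Finset.Ico_union_Ico_eq_Ico hai hij,
      ← Finset.sum_union (Finset.Ico_disjoint_Ico_consecutive a j b),
      Finset.Ico_union_Ico_eq_Ico (hai.trans hij) hjb]
  have h1 := T_triangle h0 (γ a) (γ i) (γ b)
  have h2 := T_triangle h0 (γ i) (γ j) (γ b)
  have := hle le_rfl hai (hij.trans hjb)
  have := hle hai hij hjb
  have := hle (hai.trans hij) hjb le_rfl
  have := h.geo
  linarith

theorem bigeo (hm : 0 < m) : ∀ t, Tame m t → (∀ e, 0 ≤ t e) → ∀ γ,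
    (IsBigeodesic (shield m t) γ ↔ IsBigeodesic t γ) ∧
      (IsBigeodesic t γ → ∀ i, wt (shield m t) (γ i) (γ (i + 1)) = wt t (γ i) (γ (i + 1))) := by
  intro t ht h0 γ
  have hs0 : ∀ e, 0 ≤ shield m t e := fun e => (shieldOn_spec hm _ h0 e).1
  have hext : ∀ {s : Conf}, IsBigeodesic s γ → ∀ i j : ℤ, ∃ a b, a ≤ i ∧ j ≤ b ∧ a < b ∧
      OKpt m t (γ a) ∧ OKpt m t (γ b) := by
    intro s hγ i j
    obtain ⟨a, ha, hoa⟩ := exists_ok_le ht hγ.inj hγ.adj i
    obtain ⟨b, hb, hob⟩ := exists_ok_ge ht hγ.inj hγ.adj (max j (a + 1))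
    exact ⟨a, b, ha, by omega, by omega, hoa, hob⟩
  refine ⟨⟨fun h => ⟨h.inj, h.adj, fun i j hij => ?_⟩, fun h => ⟨h.inj, h.adj, fun i j hij => ?_⟩⟩,
    fun h i => ?_⟩
  · obtain ⟨a, b, ha, hb, hab, oa, ob⟩ := hext h i j
    exact sub_geo h0 ((seg hm _ t h0 γ a b oa ob).1.1 (segGeo_of_bigeo h hab)) ha hij.le hb
  · obtain ⟨a, b, ha, hb, hab, oa, ob⟩ := hext h i j
    exact sub_geo hs0 ((seg hm _ t h0 γ a b oa ob).1.2 (segGeo_of_bigeo h hab)) ha hij.le hb
  · obtain ⟨a, b, ha, hb, hab, oa, ob⟩ := hext h i (i + 1)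
    exact (seg hm _ t h0 γ a b oa ob).2 (segGeo_of_bigeo h hab) i ha (by omega)

theorem rigid (hm : 0 < m) : ∀ t, Tame m t → (∀ e, 0 ≤ t e) → ∀ δ γ, IsBigeodesic t γ →
    RigidEdge t δ γ → RigidEdge (shield m t) (min δ m) γ := by
  intro t ht h0 δ γ hγ hR n k x z p hx hz hp
  subst hx hz
  obtain ⟨a, ha, oa⟩ := exists_ok_le ht hγ.inj hγ.adj (-((n : ℤ) + 1))
  obtain ⟨b, hb, ob⟩ := exists_ok_ge ht hγ.inj hγ.adj (k : ℤ)
  obtain ⟨n', rfl⟩ : ∃ n' : ℕ, a = -((n' : ℤ) + 1) := ⟨(-a - 1).toNat, by omega⟩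
  obtain ⟨k', rfl⟩ : ∃ k' : ℕ, b = (k' : ℤ) := ⟨b.toNat, by omega⟩
  have hs := ((bigeo hm t ht h0 γ).1.2 hγ)
  have hs0 : ∀ e, 0 ≤ shield m t e := fun e => (shieldOn_spec hm _ h0 e).1
  obtain ⟨p1, h1, -, e1⟩ := seg_walk (γ := γ) ha fun i _ _ => hγ.adj i
  obtain ⟨p2, h2, -, e2⟩ := seg_walk (γ := γ) hb fun i _ _ => hγ.adj i
  have havoid : ∀ i : ℤ, i ≠ -1 → edgeOf (γ i) (γ (i + 1)) ≠ edgeOf (γ (-1)) (γ 0) := by
    intro i hi he
    rcases (edgeOf_eq_iff (hγ.adj i) (by simpa using hγ.adj (-1))).1 he with ⟨c, -⟩ | ⟨c, d⟩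
    · exact hi (hγ.inj c)
    · have := hγ.inj c; have := hγ.inj d; omega
  have hW : WalkIn {edgeOf (γ (-1)) (γ 0)}ᶜ (p1.append (p.append p2)) := by
    refine (walkIn_append_iff _ _).2 ⟨fun d hd => ?_, (walkIn_append_iff _ _).2 ⟨hp, fun d hd => ?_⟩⟩
    · obtain ⟨i, -, hi, he⟩ := e1 _ (List.mem_map.2 ⟨d, hd, rfl⟩)
      exact he ▸ havoid i (by omega)
    · obtain ⟨i, hi, -, he⟩ := e2 _ (List.mem_map.2 ⟨d, hd, rfl⟩)
      exact he ▸ havoid i (by omega)
  have hTt := eq_T hm Set.univ t h0 _ _ oa ob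
  have hlong : T (shield m t) (γ (-((n' : ℤ) + 1))) (γ k') + min δ m ≤
      plen (shield m t) (p1.append (p.append p2)) := by
    rw [show T (shield m t) (γ (-((n' : ℤ) + 1))) (γ k') =
      T t (γ (-((n' : ℤ) + 1))) (γ k') from hTt]
    rcases walk_dichotomy hm h0 (p1.append (p.append p2)) oa ob with h | h
    · rw [show shield m t = shieldOn m Set.univ t from rfl, h]
      linarith [hR n' k' _ _ _ rfl rfl hW, min_le_left δ m]
    · exact le_trans (by linarith [min_le_right δ m]) h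
  rw [plen_append, plen_append, h1, h2,
    sub_geo hs0 (segGeo_of_bigeo hs (show -((n' : ℤ) + 1) < k' by omega)) le_rfl ha (by omega),
    sub_geo hs0 (segGeo_of_bigeo hs (show -((n' : ℤ) + 1) < k' by omega)) (by omega) hb
      le_rfl] at hlong
  have hsum := (segGeo_of_bigeo hs (show -((n' : ℤ) + 1) < k' by omega)).geo
  rw [← Finset.Ico_union_Ico_eq_Ico ha (show -((n : ℤ) + 1) ≤ (k' : ℤ) by omega),
    Finset.sum_union (Finset.Ico_disjoint_Ico_consecutive _ _ _),
    ← Finset.Ico_union_Ico_eq_Ico (show -((n : ℤ) + 1) ≤ (k : ℤ) by omega) hb,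
    Finset.sum_union (Finset.Ico_disjoint_Ico_consecutive _ _ _),
    sub_geo hs0 (segGeo_of_bigeo hs (show -((n' : ℤ) + 1) < k' by omega)) le_rfl ha (by omega),
    sub_geo hs0 (segGeo_of_bigeo hs (show -((n' : ℤ) + 1) < k' by omega)) ha (by omega) hb,
    sub_geo hs0 (segGeo_of_bigeo hs (show -((n' : ℤ) + 1) < k' by omega)) (by omega) hb
      le_rfl] at hsum
  linarith

/-! ### Trimming -/

lemma trim_start {N L : ℕ} (hloc : Loc m N L t) {γ : ℤ → V} {i₀ i₁ : ℤ}
    (hadj : ∀ i, i₀ ≤ i → i < i₁ → Adj (γ i) (γ (i + 1))) (hinj : Set.InjOn γ (Set.Icc i₀ i₁))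
    (hm : 0 < m) (hbox : InSq N (γ i₀)) (hlong : (2 * (L : ℤ) + 1) ^ 2 ≤ i₁ - i₀) :
    ∃ a, i₀ ≤ a ∧ a ≤ i₀ + (2 * (L : ℤ) + 1) ^ 2 ∧ OKpt m t (γ a) ∧
      ∀ i, i₀ ≤ i → i ≤ a →
        |(γ i).1 - (γ i₀).1| ≤ (L : ℤ) + 1 ∧ |(γ i).2 - (γ i₀).2| ≤ (L : ℤ) + 1 := by
  classical
  set K := (2 * (L : ℤ) + 1) ^ 2 with hKdef
  have hK : 0 ≤ K := sq_nonneg _
  have hnear : ∀ j, i₀ ≤ j → j ≤ i₁ → (∀ i, i₀ ≤ i → i ≤ j → ¬ OKpt m t (γ i)) →
      |(γ j).1 - (γ i₀).1| ≤ (L : ℤ) ∧ |(γ j).2 - (γ i₀).2| ≤ (L : ℤ) := by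
    intro j hj hj' hno
    obtain ⟨p, -, hp, -⟩ := seg_walk (γ := γ) hj fun i a b => hadj i a (by omega)
    refine escape hm N L t hloc _ _ p hbox (fun v hv => ?_) _ p.end_mem_support
    obtain ⟨i, a, b, rfl⟩ := hp v hv
    exact hno i a b
  have hex : ∃ n : ℕ, (n : ℤ) ≤ K ∧ OKpt m t (γ (i₀ + n)) := by
    by_contra hcon
    simp only [not_exists, not_and] at hcon
    have hall : ∀ i, i₀ ≤ i → i ≤ i₀ + K → ¬ OKpt m t (γ i) := fun i a b => by
      have := hcon (i - i₀).toNat (by omega)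
      rwa [show i₀ + ((i - i₀).toNat : ℤ) = i by omega] at this
    have hsub : (Finset.Icc i₀ (i₀ + K)).image γ ⊆
        Finset.Icc ((γ i₀).1 - L) ((γ i₀).1 + L) ×ˢ Finset.Icc ((γ i₀).2 - L) ((γ i₀).2 + L) := by
      intro v hv
      obtain ⟨j, hj, rfl⟩ := Finset.mem_image.1 hv
      rw [Finset.mem_Icc] at hj
      have h := hnear j hj.1 (by omega) fun i a b => hall i a (by omega)
      rw [abs_le, abs_le] at h
      simp only [Finset.mem_product, Finset.mem_Icc]
      omega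
    have hc := Finset.card_le_card hsub
    rw [Finset.card_image_of_injOn (hinj.mono fun i hi => by
      simp only [Finset.coe_Icc, Set.mem_Icc] at hi ⊢; omega), Finset.card_product,
      Int.card_Icc, Int.card_Icc, Int.card_Icc] at hc
    have h' : ((i₀ + K + 1 - i₀).toNat : ℤ) ≤
        (((γ i₀).1 + L + 1 - ((γ i₀).1 - L)).toNat : ℤ) *
          (((γ i₀).2 + L + 1 - ((γ i₀).2 - L)).toNat : ℤ) := by exact_mod_cast hc
    rw [Int.toNat_of_nonneg (by omega), Int.toNat_of_nonneg (by omega),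
      Int.toNat_of_nonneg (by omega)] at h'
    rw [hKdef] at h'
    nlinarith
  obtain ⟨hn1, hn2⟩ := Nat.find_spec hex
  refine ⟨i₀ + (Nat.find hex : ℤ), by omega, by omega, hn2, fun i hi hi' => ?_⟩
  have hbefore : ∀ i', i₀ ≤ i' → i' < i₀ + (Nat.find hex : ℤ) → ¬ OKpt m t (γ i') := fun i' a b h =>
    Nat.find_min hex (show (i' - i₀).toNat < Nat.find hex by omega)
      ⟨by omega, by rwa [show i₀ + ((i' - i₀).toNat : ℤ) = i' by omega]⟩
  rcases eq_or_lt_of_le hi with rfl | hlt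
  · simp only [sub_self, abs_zero]; omega
  · have h := hnear (i - 1) (by omega) (by omega) fun i' a b => hbefore i' a (by omega)
    have hs := abs_sub_le_of_adj (hadj (i - 1) (by omega) (by omega))
    rw [sub_add_cancel] at hs
    rw [abs_le, abs_le] at h hs ⊢
    omega

theorem trim (hm : 0 < m) : ∀ N L t, Loc m N L t → ∀ γ i₀ i₁, SegGeo t γ i₀ i₁ →
    InSq N (γ i₀) → InSq N (γ i₁) → 2 * (2 * (L : ℤ) + 1) ^ 2 < i₁ - i₀ →
    ∃ a b, i₀ ≤ a ∧ a ≤ i₀ + (2 * (L : ℤ) + 1) ^ 2 ∧ a ≤ b ∧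
      i₁ - (2 * (L : ℤ) + 1) ^ 2 ≤ b ∧ b ≤ i₁ ∧ OKpt m t (γ a) ∧ OKpt m t (γ b) ∧
      (∀ i, i₀ ≤ i → i ≤ a →
        |(γ i).1 - (γ i₀).1| ≤ (L : ℤ) + 1 ∧ |(γ i).2 - (γ i₀).2| ≤ (L : ℤ) + 1) ∧
      (∀ i, b ≤ i → i ≤ i₁ →
        |(γ i).1 - (γ i₁).1| ≤ (L : ℤ) + 1 ∧ |(γ i).2 - (γ i₁).2| ≤ (L : ℤ) + 1) := by
  intro N L t hloc γ i₀ i₁ hγ h₀ h₁ hlong
  have hK : 0 ≤ (2 * (L : ℤ) + 1) ^ 2 := sq_nonneg _
  obtain ⟨a, a1, a2, a3, a4⟩ := trim_start hloc hγ.adj hγ.inj hm h₀ (by omega)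
  obtain ⟨b, b1, b2, b3, b4⟩ := trim_start hloc (γ := fun i => γ (-i)) (i₀ := -i₁) (i₁ := -i₀)
    (fun i x y => by
      have := (hγ.adj (-(i + 1)) (by omega) (by omega)).symm
      rwa [show -(i + 1) + 1 = -i by ring] at this)
    (fun i hi j hj h => neg_injective (hγ.inj
      (by simp only [Set.mem_Icc] at hi ⊢; omega) (by simp only [Set.mem_Icc] at hj ⊢; omega) h))
    hm (by simpa using h₁) (by omega)
  refine ⟨a, -b, a1, a2, by omega, by omega, by omega, a3, b3, a4, fun i x y => ?_⟩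
  simpa using b4 (-i) (by omega) (by omega)

end Vale.Agent.P158.Gen.Shield
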