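import Vale.Agent.P158.Gen.ShieldMatch
import Vale.Agent.P158.Gen.Shield

/-!
The deterministic facts on shielding, given those that come from the detour argument.
-/

open MeasureTheory Filter Topology

namespace Vale.Agent.P158.Gen

/-- The properties of shielding that come from the detour argument. -/
structure DetourFacts (m : ℝ) : Prop where
  detour : ∀ t, (∀ e, 0 ≤ t e) → ∀ x y (p : grid.Walk x y) (U : Finset Edge),
    (∀ e ∈ U, m < t e ∧ cl m t e ⊆ ↑U) → OKon m ↑U t x → OKon m ↑U t y →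
    ∃ q : grid.Walk x y,
      plen t q ≤ (((edgeList p).filter fun e => e ∉ U).map t).sum + 8 * m * U.card ∧
      WalkIn {e | e ∉ U ∧ (e ∈ edgeList p ∨
        (t e ≤ m ∧ ∃ v, e ∈ sq v ∧ ∃ f ∈ U, f ∈ sq v))} q
  encl_near : ∀ t e x, (cl m t e).Finite → Encl (cl m t e) x →
    |x.1 - (eFst e).1| ≤ ((cl m t e).ncard : ℤ) ∧ |x.2 - (eFst e).2| ≤ ((cl m t e).ncard : ℤ)
  eq_T : ∀ F t, (∀ e, 0 ≤ t e) → ∀ x y, OKon m F t x → OKon m F t y →
    T (shieldOn m F t) x y = T t x y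
  lowered : ∀ F t, (∀ e, 0 ≤ t e) → ∀ x y (p : grid.Walk x y), OKon m F t x → OKon m F t y →
    (∃ d ∈ p.darts, wt (shieldOn m F t) d.toProd.1 d.toProd.2 < wt t d.toProd.1 d.toProd.2) →
    T t x y + m ≤ plen (shieldOn m F t) p
  seg : ∀ F t, (∀ e, 0 ≤ t e) → ∀ γ i₀ i₁, OKon m F t (γ i₀) → OKon m F t (γ i₁) →
    ((SegGeo (shieldOn m F t) γ i₀ i₁ ↔ SegGeo t γ i₀ i₁) ∧
      (SegGeo t γ i₀ i₁ → ∀ i, i₀ ≤ i → i < i₁ →
        wt (shieldOn m F t) (γ i) (γ (i + 1)) = wt t (γ i) (γ (i + 1))))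
  bigeo : ∀ t, Tame m t → (∀ e, 0 ≤ t e) → ∀ γ,
    (IsBigeodesic (shield m t) γ ↔ IsBigeodesic t γ) ∧
      (IsBigeodesic t γ → ∀ i, wt (shield m t) (γ i) (γ (i + 1)) = wt t (γ i) (γ (i + 1)))
  rigid : ∀ t, Tame m t → (∀ e, 0 ≤ t e) → ∀ δ γ, IsBigeodesic t γ → RigidEdge t δ γ →
    RigidEdge (shield m t) (min δ m) γ
  escape : ∀ N L t, Loc m N L t → ∀ x y (p : grid.Walk x y), InSq N x →
    (∀ v ∈ p.support, ¬ OKpt m t v) →
    ∀ v ∈ p.support, |v.1 - x.1| ≤ (L : ℤ) ∧ |v.2 - x.2| ≤ (L : ℤ)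
  trim : ∀ N L t, Loc m N L t → ∀ γ i₀ i₁, SegGeo t γ i₀ i₁ → InSq N (γ i₀) → InSq N (γ i₁) →
    2 * (2 * (L : ℤ) + 1) ^ 2 < i₁ - i₀ →
    ∃ a b, i₀ ≤ a ∧ a ≤ i₀ + (2 * (L : ℤ) + 1) ^ 2 ∧ a ≤ b ∧
      i₁ - (2 * (L : ℤ) + 1) ^ 2 ≤ b ∧ b ≤ i₁ ∧ OKpt m t (γ a) ∧ OKpt m t (γ b) ∧
      (∀ i, i₀ ≤ i → i ≤ a →
        |(γ i).1 - (γ i₀).1| ≤ (L : ℤ) + 1 ∧ |(γ i).2 - (γ i₀).2| ≤ (L : ℤ) + 1) ∧
      (∀ i, b ≤ i → i ≤ i₁ →
        |(γ i).1 - (γ i₁).1| ≤ (L : ℤ) + 1 ∧ |(γ i).2 - (γ i₁).2| ≤ (L : ℤ) + 1)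

/-- All deterministic facts on shielding. -/
theorem shieldFacts_of {m : ℝ} (hm : 0 < m) (h : DetourFacts m) : ShieldFacts m where
  le := shieldOn_le m
  le_capY := shieldOn_le_capY m
  cap_low := capTo_le_shieldOn hm
  mono := shield_mono hm
  detour := h.detour
  encl_near := h.encl_near
  eq_T := h.eq_T
  lowered := h.lowered
  seg := h.seg
  bigeo := h.bigeo
  rigid := h.rigid
  nice := (Core.mk h.eq_T h.lowered h.bigeo h.escape).nice hm
  escape := h.escape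
  trim := h.trim
  agree := shield_agree m
  act_shift := shield_shift m
  act_swap := shield_swap m
  act_flip := shield_flip m

/-- The deterministic facts on shielding. -/
theorem shieldFacts {m : ℝ} (hm : 0 < m) : ShieldFacts m :=
  shieldFacts_of hm
    { detour := Shield.detour hm
      encl_near := Shield.encl_near hm
      eq_T := Shield.eq_T hm
      lowered := Shield.lowered hm
      seg := Shield.seg hm
      bigeo := Shield.bigeo hm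
      rigid := Shield.rigid hm
      escape := Shield.escape hm
      trim := Shield.trim hm }

end Vale.Agent.P158.Gen
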