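import Vale.Agent.P158.Gen.Spec
import Vale.Agent.P158.Slope

/-!
P158 phase 3, slope bound for every atomless law: the count is made in the configuration shielded
on the step edges of finitely many heights, where the steps have integrable cost.
-/

open MeasureTheory Filter Topology

namespace Vale.Agent.P158.Gen.Slope

open Vale.Agent.P158 Vale.Agent.P158.SlopeAux

/-- The step edges of the first `Y` heights on both sides. -/
noncomputable def colE (k : ℤ) (w : V) (Y : ℕ) : Finset Edge :=
  (Finset.range Y).biUnion fun u : ℕ =>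
    stepS k (w + pt k 0 (u : ℤ)) (-1) ∪ stepS k (pt k 0 (u : ℤ)) 1

/-- The cost of the steps for a weight function. -/
noncomputable def colC (k : ℤ) (w : V) (Y : ℕ) (f : Edge → ℝ) : ℝ :=
  ∑ u ∈ Finset.range Y,
    ((∑ e ∈ stepS k (w + pt k 0 (u : ℤ)) (-1), f e) + ∑ e ∈ stepS k (pt k 0 (u : ℤ)) 1, f e)

theorem colE_card (k : ℤ) (w : V) (Y : ℕ) : (colE k w Y).card ≤ 4 * Y := by
  refine Finset.card_biUnion_le.trans ((Finset.sum_le_card_nsmul _ _ 4 fun u _ => ?_).trans ?_)
  · exact (Finset.card_union_le _ _).trans (add_le_add (stepS_card _ _ _) (stepS_card _ _ _))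
  · rw [Finset.card_range, smul_eq_mul, mul_comm]

theorem colE_lev {k : ℤ} (hk : k = 0 ∨ k = 1) {w : V} (hw : lev k w = -1) {Y : ℕ} {e : Edge}
    (he : e ∈ colE k w Y) : -2 ≤ lev k (eFst e) ∧ lev k (eFst e) ≤ 1 := by
  obtain ⟨u, -, hu⟩ := Finset.mem_biUnion.1 he
  rcases Finset.mem_union.1 hu with h | h
  · have h1 := stepS_lev hk (Or.inl rfl) h
    rw [lev_add_pt, hw, abs_le] at h1
    omega
  · have h1 := stepS_lev hk (Or.inr rfl) h
    rw [show lev k (pt k 0 (u : ℤ)) = 0 by simp [lev, pt], abs_le] at h1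
    omega

theorem capY_nonneg {m : ℝ} (hm : 0 < m) {t : Conf} {e : Edge} (h : (cl m t e).Finite) :
    0 ≤ capY m t e := by
  rw [capY, if_pos h]
  positivity

theorem capTo_nonneg {m x : ℝ} (hm : 0 < m) (hx : 0 ≤ x) : 0 ≤ capTo m x := by
  unfold capTo
  split_ifs with h
  · exact hx
  · push Not at h
    have : 0 ≤ x - m := by linarith
    positivity

/-- A vertex far from the step edges is enclosed by none of their clusters. -/
theorem okon_of_small {m : ℝ} (hF : ShieldFacts m) {k : ℤ} (hk : k = 0 ∨ k = 1) {w : V}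
    (hw : lev k w = -1) {Y n : ℕ} {t : Conf}
    (hsmall : ∀ e ∈ colE k w Y, (cl m t e).Finite ∧ 2 * (cl m t e).ncard + 3 ≤ n) {x : V}
    (hx : lev k x = -(n : ℤ) ∨ lev k x = (n : ℤ)) : OKon m ↑(colE k w Y) t x := by
  intro e he henc
  obtain ⟨hfin, hn⟩ := hsmall e he
  obtain ⟨h1, h2⟩ := hF.encl_near t e x hfin henc
  obtain ⟨h3, h4⟩ := colE_lev hk hw he
  rw [abs_le] at h1 h2
  simp only [lev] at hx h3 h4
  rcases hk with rfl | rfl <;> omega

/-- An object stays an object in the configuration shielded on the step edges. -/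
theorem obj_shield {m δ : ℝ} (hm : 0 < m) (hF : ShieldFacts m) {k : ℤ} (hk : k = 0 ∨ k = 1)
    {n : ℕ} {a b : ℝ} {J : ℕ} {w : V} (hw : lev k w = -1) {Y : ℕ} {y : ℤ} {t : Conf}
    (h0 : ∀ e, 0 ≤ t e)
    (hsmall : ∀ e ∈ colE k w Y, (cl m t e).Finite ∧ 2 * (cl m t e).ncard + 3 ≤ n)
    (h : Obj δ k n a b J w y t) :
    Obj (min δ m) k n a b J w y (shieldOn m ↑(colE k w Y) t) := by
  obtain ⟨x, z, p, q, hsh, hgap, hbase⟩ := h
  have hx : OKon m ↑(colE k w Y) t x := okon_of_small hF hk hw hsmall (Or.inl hsh.1)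
  have hz : OKon m ↑(colE k w Y) t z := okon_of_small hF hk hw hsmall (Or.inr hsh.2.1)
  set s := shieldOn m (↑(colE k w Y) : Set Edge) t with hs
  have hle : ∀ e, s e ≤ t e := hF.le _ t
  have hmono : ∀ {u v : V} (r : grid.Walk u v), plen s r ≤ plen t r := fun r =>
    List.sum_le_sum fun d _ => hle _
  have hT : plen t p + t (eH k w y) + plen t q ≤ T t x z := le_T hbase
  have hlow : ∀ r : grid.Walk x z,
      T t x z + m ≤ plen s r ∨ plen s r = plen t r := by
    intro r
    by_cases hd : ∃ d ∈ r.darts, wt s d.toProd.1 d.toProd.2 < wt t d.toProd.1 d.toProd.2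
    · exact Or.inl (hF.lowered _ t h0 x z r hx hz hd)
    · refine Or.inr (congrArg List.sum (List.map_congr_left fun d hd' => ?_))
      exact le_antisymm (hle _) (not_lt.1 fun h => hd ⟨d, hd', h⟩)
  have hp := hmono p
  have hq := hmono q
  have he := hle (eH k w y)
  refine ⟨x, z, p, q, hsh, fun r hr => ?_, fun r => ?_⟩
  · have := hgap r hr
    have := min_le_left δ m
    have := min_le_right δ m
    rcases hlow r with h1 | h1 <;> linarith
  · have := hbase r
    rcases hlow r with h1 | h1 <;> linarith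

/-- The expected number of objects of separated units at one site, for a general law. -/
theorem sum_obj_le {G : Measure ℝ} [IsProbabilityMeasure G] {m κ AY δ : ℝ} (hm : 0 < m)
    (hF : ShieldFacts m) (hL : ShieldLaw m G κ AY) (hδ : 0 < δ) {k : ℤ}
    (hk : k = 0 ∨ k = 1) {n Y J N : ℕ} (hn : 2 ≤ n) (hY : 0 < Y) (hNY : N ≤ Y)
    (hlarge : 4 * ((N : ℝ) * Y) * AY ≤ 5 * m * n) {w : V}
    (hw : w ∈ preds k) {a b : Fin N → ℝ} (hsep : ∀ u v, u < v → b u * n + Y ≤ a v * n) :
    ∑ u, (law G {t | Obj δ k n (a u) (b u) J w 0 t}).toReal ≤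
      4 * ((J : ℝ) + 1) * (1 + 8 * (AY + 1) / min δ m) + 1 := by
  classical
  have : IsProbabilityMeasure (law G) := by unfold law; infer_instance
  set δ' := min δ m with hδ'def
  have hδ' : 0 < δ' := lt_min hδ hm
  have hwl : lev k w = -1 := (preds_spec hw).2
  set L : Fin N → Set Conf := fun u => {t | Obj δ k n (a u) (b u) J w 0 t} with hLdef
  set X : ℝ := ∑ u, (law G (L u)).toReal with hX
  set F := colE k w Y with hFdef
  have hAY0 : 0 ≤ AY := by
    refine le_trans (integral_nonneg_of_ae ?_) (hL.mean_capY Units.e0)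
    filter_upwards [hL.tame] with t ht using capY_nonneg hm (ht.fin _)
  set bad : Set Conf := ⋃ e ∈ F, {t | 5 * m * n ≤ capY m t e} with hbad
  have hbadm : MeasurableSet bad :=
    Finset.measurableSet_biUnion _ fun e _ => measurableSet_le measurable_const (hL.meas_capY e)
  have hmeas : ∀ o : ℕ × Fin N, MeasurableSet (shift (pt k 0 (o.1 : ℤ)) ⁻¹' L o.2) := fun o =>
    Units.measurable_shift _ (measurableSet_obj _ _ _ _ _ _ _ _)
  set B : Conf → ℝ := fun t => 4 * ((J : ℝ) + 1) *
    ((N : ℝ) + 2 / δ' * colC k w Y fun e => capY m t e + 1) +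
      (N : ℝ) * Y * bad.indicator 1 t with hB
  set Cn : Conf → ℝ := fun t => ∑ o ∈ Finset.range Y ×ˢ (Finset.univ : Finset (Fin N)),
    (shift (pt k 0 (o.1 : ℤ)) ⁻¹' L o.2).indicator 1 t with hCn
  have hbound : Cn ≤ᵐ[law G] B := by
    filter_upwards [hL.good, hL.tame] with t ht htame
    have h0 : ∀ e, 0 ≤ t e := ht.1.nonneg
    set O := (Finset.range Y ×ˢ (Finset.univ : Finset (Fin N))).filter
      fun o => t ∈ shift (pt k 0 (o.1 : ℤ)) ⁻¹' L o.2 with hO
    have hsum : Cn t = (O.card : ℝ) := by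
      rw [hCn, hO, ← Finset.sum_boole]
      exact Finset.sum_congr rfl fun o _ => by simp [Set.indicator_apply]
    have hc0 : 0 ≤ colC k w Y fun e => capY m t e + 1 := Finset.sum_nonneg fun u _ =>
      add_nonneg
        (Finset.sum_nonneg fun e _ => by linarith [capY_nonneg hm (htame.fin e)])
        (Finset.sum_nonneg fun e _ => by linarith [capY_nonneg hm (htame.fin e)])
    rw [hsum]
    simp only [hB]
    by_cases hb : t ∈ bad
    · rw [Set.indicator_of_mem hb, Pi.one_apply, mul_one]
      have hcard : (O.card : ℝ) ≤ (N : ℝ) * Y := by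
        have : O.card ≤ N * Y := (Finset.card_filter_le _ _).trans (by
          rw [Finset.card_product, Finset.card_range, Finset.card_univ, Fintype.card_fin, mul_comm])
        exact_mod_cast this
      have : 0 ≤ 4 * ((J : ℝ) + 1) *
          ((N : ℝ) + 2 / δ' * colC k w Y fun e => capY m t e + 1) := by positivity
      linarith
    · rw [Set.indicator_of_notMem hb, mul_zero, add_zero]
      have hsmall : ∀ e ∈ colE k w Y, (cl m t e).Finite ∧ 2 * (cl m t e).ncard + 3 ≤ n := by
        intro e he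
        refine ⟨htame.fin e, ?_⟩
        have hlt : capY m t e < 5 * m * n := by
          by_contra hge
          exact hb (Set.mem_biUnion (show e ∈ F from he) (not_lt.1 hge))
        rw [capY, if_pos (htame.fin e)] at hlt
        have h2 : (2 : ℝ) * (cl m t e).ncard + 2 < n := by nlinarith
        have h3 : 2 * (cl m t e).ncard + 2 < n := by exact_mod_cast h2
        omega
      set s := shieldOn m (↑(colE k w Y) : Set Edge) t with hs
      have hs0 : ∀ e, 0 ≤ s e := fun e =>
        (capTo_nonneg hm (h0 e)).trans (hF.cap_low _ t e)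
      have hcount := card_obj_le hs0 hδ' hk hn hw hsep O (J := J) fun o ho => by
        obtain ⟨h1, h2⟩ := Finset.mem_filter.1 ho
        exact ⟨Finset.mem_range.1 (Finset.mem_product.1 h1).1,
          obj_shield hm hF hk hwl h0 hsmall (obj_shift h2)⟩
      have hcost : ∑ u ∈ Finset.range Y, ((∑ e ∈ stepS k (w + pt k 0 (u : ℤ)) (-1), s e) +
          ∑ e ∈ stepS k (pt k 0 (u : ℤ)) 1, s e) ≤ colC k w Y fun e => capY m t e + 1 :=
        Finset.sum_le_sum fun u hu => add_le_add
          (Finset.sum_le_sum fun e he => hF.le_capY _ t e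
            (Finset.mem_biUnion.2 ⟨u, hu, Finset.mem_union_left _ he⟩) (htame.fin e))
          (Finset.sum_le_sum fun e he => hF.le_capY _ t e
            (Finset.mem_biUnion.2 ⟨u, hu, Finset.mem_union_right _ he⟩) (htame.fin e))
      refine le_of_mul_le_mul_left (hcount.trans ?_) hδ'
      rw [mul_left_comm δ']
      refine mul_le_mul_of_nonneg_left ?_ (by positivity)
      rw [mul_add, ← mul_assoc, mul_div_cancel₀ _ hδ'.ne']
      linarith
  have hie : ∀ e, Integrable (fun t => capY m t e + 1) (law G) := fun e =>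
    (hL.int_capY e).add (integrable_const _)
  have hind : ∀ o : ℕ × Fin N, Integrable
      ((shift (pt k 0 (o.1 : ℤ)) ⁻¹' L o.2).indicator (1 : Conf → ℝ)) (law G) := fun o =>
    (integrable_const (1 : ℝ)).indicator (hmeas o)
  have hintC : ∀ (v : V) (d : ℤ), Integrable (fun t => ∑ e ∈ stepS k v d, (capY m t e + 1)) (law G) :=
    fun v d => integrable_finsetSum _ fun e _ => hie e
  have hmeanC : ∀ (v : V) (d : ℤ),
      ∫ t, ∑ e ∈ stepS k v d, (capY m t e + 1) ∂law G ≤ 2 * (AY + 1) := by
    intro v d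
    rw [integral_finsetSum _ fun e _ => hie e]
    refine (Finset.sum_le_card_nsmul _ _ (AY + 1) fun e _ => ?_).trans ?_
    · rw [integral_add (hL.int_capY e) (integrable_const _), integral_const, probReal_univ,
        one_smul]
      linarith [hL.mean_capY e]
    · rw [nsmul_eq_mul]
      exact mul_le_mul_of_nonneg_right (by exact_mod_cast stepS_card k v d) (by linarith)
  have hintcol : Integrable (fun t => colC k w Y fun e => capY m t e + 1) (law G) :=
    integrable_finsetSum _ fun u _ => (hintC _ _).add (hintC _ _)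
  have hmeancol : ∫ t, (colC k w Y fun e => capY m t e + 1) ∂law G ≤ Y * (4 * (AY + 1)) := by
    unfold colC
    rw [integral_finsetSum]
    · refine (Finset.sum_le_card_nsmul _ _ (4 * (AY + 1)) fun u _ => ?_).trans ?_
      · rw [integral_add (hintC _ _) (hintC _ _)]
        linarith [hmeanC (w + pt k 0 (u : ℤ)) (-1), hmeanC (pt k 0 (u : ℤ)) 1]
      · rw [Finset.card_range, nsmul_eq_mul]
    · exact fun u _ => (hintC _ _).add (hintC _ _)
  have hbadP : (law G).real bad * (5 * m * n) ≤ 4 * Y * AY := by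
    have hstep : ∀ e ∈ F, 5 * m * n * (law G).real {t | 5 * m * n ≤ capY m t e} ≤ AY :=
      fun e _ => le_trans (mul_meas_ge_le_integral_of_nonneg (by
        filter_upwards [hL.tame] with t ht using capY_nonneg hm (ht.fin e)) (hL.int_capY e) _)
        (hL.mean_capY e)
    calc (law G).real bad * (5 * m * n)
        ≤ (∑ e ∈ F, (law G).real {t | 5 * m * n ≤ capY m t e}) * (5 * m * n) :=
          mul_le_mul_of_nonneg_right (measureReal_biUnion_finset_le _ _) (by positivity)
      _ = ∑ e ∈ F, 5 * m * n * (law G).real {t | 5 * m * n ≤ capY m t e} := by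
          rw [Finset.sum_mul]; exact Finset.sum_congr rfl fun e _ => mul_comm _ _
      _ ≤ F.card * AY := by rw [← nsmul_eq_mul]; exact Finset.sum_le_card_nsmul _ _ _ hstep
      _ ≤ _ := mul_le_mul_of_nonneg_right (by exact_mod_cast colE_card k w Y) hAY0
  have hindI : Integrable (bad.indicator (1 : Conf → ℝ)) (law G) :=
    (integrable_const (1 : ℝ)).indicator hbadm
  have hi1 : Integrable (fun t => 2 / δ' * colC k w Y fun e => capY m t e + 1) (law G) :=
    hintcol.const_mul _
  have hi2 : Integrable (fun t => (N : ℝ) + 2 / δ' * colC k w Y fun e => capY m t e + 1) (law G) :=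
    (integrable_const _).add hi1
  have hi3 : Integrable (fun t => (N : ℝ) * Y * bad.indicator (1 : Conf → ℝ) t) (law G) :=
    hindI.const_mul _
  have hiB : Integrable B (law G) := (hi2.const_mul _).add hi3
  have hiC : Integrable Cn (law G) := integrable_finsetSum _ fun o _ => hind o
  have hCint : ∫ t, Cn t ∂law G = Y * X := by
    simp only [hCn]
    rw [integral_finsetSum _ fun o _ => hind o, Finset.sum_product]
    have hone : ∀ (y : ℕ) (u : Fin N),
        ∫ t, (shift (pt k 0 (y : ℤ)) ⁻¹' L u).indicator (1 : Conf → ℝ) t ∂law G =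
          (law G (L u)).toReal := fun y u => by
      rw [integral_indicator_one (Units.measurable_shift _ (measurableSet_obj _ _ _ _ _ _ _ _)),
        measureReal_def, ← Measure.map_apply (Units.measurable_shift _)
        (measurableSet_obj _ _ _ _ _ _ _ _), Units.law_shift]
    simp only [hone, Finset.sum_const, Finset.card_range, nsmul_eq_mul, hX]
  have hBint : ∫ t, B t ∂law G ≤ 4 * ((J : ℝ) + 1) * ((N : ℝ) + 2 / δ' * (Y * (4 * (AY + 1)))) +
      (N : ℝ) * Y * (law G).real bad := by
    rw [hB, integral_add (hi2.const_mul _) hi3, integral_const_mul, integral_const_mul,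
      integral_indicator_one hbadm]
    refine add_le_add (mul_le_mul_of_nonneg_left ?_ (by positivity)) le_rfl
    rw [integral_add (integrable_const _) hi1, integral_const, probReal_univ, one_smul,
      integral_const_mul]
    exact add_le_add le_rfl (mul_le_mul_of_nonneg_left hmeancol (by positivity))
  have hmain : (Y : ℝ) * X ≤ 4 * ((J : ℝ) + 1) * ((N : ℝ) + 2 / δ' * (Y * (4 * (AY + 1)))) +
      (N : ℝ) * Y * (law G).real bad := by
    rw [← hCint]
    exact (integral_mono_ae hiC hiB hbound).trans hBint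
  have hN : (N : ℝ) ≤ Y := by exact_mod_cast hNY
  have hY1 : (1 : ℝ) ≤ Y := by exact_mod_cast hY
  have hsmallbad : (N : ℝ) * Y * (law G).real bad ≤ Y := by
    have hmn : 0 < 5 * m * (n : ℝ) := by
      have : (2 : ℝ) ≤ n := by exact_mod_cast hn
      positivity
    refine le_of_mul_le_mul_right ?_ hmn
    calc (N : ℝ) * Y * (law G).real bad * (5 * m * n)
        = (N : ℝ) * Y * ((law G).real bad * (5 * m * n)) := mul_assoc _ _ _
      _ ≤ (N : ℝ) * Y * (4 * Y * AY) := mul_le_mul_of_nonneg_left hbadP (by positivity)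
      _ = Y * (4 * ((N : ℝ) * Y) * AY) := by ring
      _ ≤ _ := mul_le_mul_of_nonneg_left hlarge (by positivity)
  refine le_of_mul_le_mul_left ?_ (lt_of_lt_of_le zero_lt_one hY1)
  calc (Y : ℝ) * X ≤ 4 * ((J : ℝ) + 1) * ((Y : ℝ) + 2 / δ' * (Y * (4 * (AY + 1)))) + Y := by
        refine hmain.trans (add_le_add (mul_le_mul_of_nonneg_left ?_ (by positivity)) hsmallbad)
        linarith
    _ = _ := by ring

/-- A positive-mass set of low values below `r₁`. -/
theorem exists_low {G : Measure ℝ} (hG : LawGen G) {r₁ : ℝ} (h : 0 < G (Set.Iio r₁)) :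
    ∃ r₀, r₀ < r₁ ∧ 0 < G (Set.Icc 0 r₀) := by
  have := hG.prob
  obtain ⟨j, hj⟩ : ∃ j : ℕ, 0 < G (Set.Iic (r₁ - 1 / ((j : ℝ) + 1))) := by
    by_contra hne
    push Not at hne
    refine h.ne' (measure_mono_null (fun x hx => ?_)
      (measure_iUnion_null fun j : ℕ => nonpos_iff_eq_zero.1 (hne j)))
    obtain ⟨j, hj⟩ := exists_nat_one_div_lt (sub_pos.2 (show x < r₁ from hx))
    exact Set.mem_iUnion.2 ⟨j, show x ≤ r₁ - 1 / ((j : ℝ) + 1) by linarith⟩
  have hnull : G (Set.Ici (0 : ℝ))ᶜ = 0 := by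
    rw [measure_compl measurableSet_Ici (measure_ne_top _ _), hG.supp, measure_univ, tsub_self]
  refine ⟨r₁ - 1 / ((j : ℝ) + 1), ?_, ?_⟩
  · have : (0 : ℝ) < 1 / ((j : ℝ) + 1) := by positivity
    linarith
  · refine hj.trans_le ?_
    calc G (Set.Iic (r₁ - 1 / ((j : ℝ) + 1)))
        ≤ G (Set.Icc 0 (r₁ - 1 / ((j : ℝ) + 1)) ∪ (Set.Ici (0 : ℝ))ᶜ) := by
          refine measure_mono fun x hx => ?_
          by_cases hx' : (0 : ℝ) ≤ x
          · exact Or.inl ⟨hx', hx⟩
          · exact Or.inr hx'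
      _ ≤ G (Set.Icc 0 (r₁ - 1 / ((j : ℝ) + 1))) + G (Set.Ici (0 : ℝ))ᶜ := measure_union_le _ _
      _ = _ := by rw [hnull, add_zero]

end Vale.Agent.P158.Gen.Slope

namespace Vale.Agent.P158.Gen

open Vale.Agent.P158 Vale.Agent.P158.SlopeAux

/-- The slope bound holds for every atomless law. -/
theorem slopeBoundG {G : Measure ℝ} {m κ AY : ℝ} (hG : LawGen G) (hm : 0 < m)
    (hF : ShieldFacts m) (hL : ShieldLaw m G κ AY) : SlopeBound G := by
  intro k hk R r₁ C hr₁
  have := hG.prob
  have : IsProbabilityMeasure (law G) := by unfold law; infer_instance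
  obtain ⟨r₀, hr, hpos⟩ := Slope.exists_low hG hr₁
  set δ := r₁ - r₀ with hδdef
  have hδ : 0 < δ := sub_pos.2 hr
  set g := (G (Set.Icc 0 r₀)).toReal with hg
  have hg0 : 0 < g := ENNReal.toReal_pos hpos.ne' (measure_ne_top _ _)
  set c : ℝ := 4 * (((R + 2 : ℕ) : ℝ) + 1) * (1 + 8 * (AY + 1) / min δ m) + 1 with hc
  refine ⟨((preds k).card : ℝ) * c / g, fun gap hgap N a b _ hsep => ?_⟩
  set Y := N + 1 with hYdef
  filter_upwards [eventually_ge_atTop (max (max 2 ⌈(Y : ℝ) / gap⌉₊)
    ⌈4 * ((N : ℝ) * Y) * AY / (5 * m)⌉₊)] with n hn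
  have hn2 : 2 ≤ n := ((le_max_left _ _).trans (le_max_left _ _)).trans hn
  have hnY : (Y : ℝ) / gap ≤ n := (Nat.le_ceil _).trans
    (by exact_mod_cast ((le_max_right _ _).trans (le_max_left _ _)).trans hn)
  rw [div_le_iff₀ hgap] at hnY
  have hlarge : 4 * ((N : ℝ) * Y) * AY ≤ 5 * m * n := by
    have h1 : 4 * ((N : ℝ) * Y) * AY / (5 * m) ≤ n :=
      (Nat.le_ceil _).trans (by exact_mod_cast (le_max_right _ _).trans hn)
    rw [div_le_iff₀ (by positivity)] at h1
    linarith
  have hsep' : ∀ u v, u < v → b u * n + Y ≤ a v * n := fun u v huv => by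
    nlinarith [mul_le_mul_of_nonneg_right (hsep u v huv) (Nat.cast_nonneg n : (0 : ℝ) ≤ n)]
  set L : V → Fin N → Set Conf := fun w u => {t | Obj δ k n (a u) (b u) (R + 2) w 0 t} with hLdef
  have hstep : ∀ u, (law G (slopeSite k R r₁ C n (a u) (b u))).toReal * g ≤
      ∑ w ∈ preds k, (law G (L w u)).toReal := by
    intro u
    rw [hg, ← ENNReal.toReal_mul, ← ENNReal.toReal_sum fun w _ => measure_ne_top _ _]
    refine ENNReal.toReal_mono (ENNReal.sum_ne_top.2 fun w _ => measure_ne_top _ _) ?_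
    set Ew : V → Set Conf := fun w => {t | ∀ x ∈ Set.Icc 0 r₀,
      Obj δ k n (a u) (b u) (R + 2) w 0 (Function.update t (eH k w 0) x)}
    have hsub : law G (slopeSite k R r₁ C n (a u) (b u)) ≤ law G (⋃ w ∈ preds k, Ew w) := by
      refine measure_mono_ae ?_
      filter_upwards [hL.good] with t ht hsite
      obtain ⟨w, hw, hobj⟩ := lower_mem (r₀ := r₀) hk hr.le ht.1.nonneg hsite
      exact Set.mem_biUnion hw hobj
    refine (mul_le_mul' (hsub.trans (measure_biUnion_finset_le _ _)) le_rfl).trans ?_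
    rw [Finset.sum_mul]
    exact Finset.sum_le_sum fun w _ => Units.measure_inter_le_of_lower (eH k w 0)
      (measurableSet_obj _ _ _ _ _ _ _ _) fun t ht x hx => ht x hx
  have hobj : ∀ w ∈ preds k, ∑ u, (law G (L w u)).toReal ≤ c := fun w hw =>
    Slope.sum_obj_le hm hF hL hδ hk hn2 (Nat.succ_pos _) (Nat.le_succ _) hlarge hw hsep'
  rw [le_div_iff₀ hg0, Finset.sum_mul]
  calc ∑ u, (law G (slopeSite k R r₁ C n (a u) (b u))).toReal * g
      ≤ ∑ u, ∑ w ∈ preds k, (law G (L w u)).toReal := Finset.sum_le_sum fun u _ => hstep u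
    _ = ∑ w ∈ preds k, ∑ u, (law G (L w u)).toReal := Finset.sum_comm
    _ ≤ ∑ _w ∈ preds k, c := Finset.sum_le_sum hobj
    _ = _ := by rw [Finset.sum_const, nsmul_eq_mul]

end Vale.Agent.P158.Gen
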