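import Vale.Agent.P158.Gen.Law

/-!
Every law has a threshold above which its weights are rare.
-/

open MeasureTheory Filter Topology

namespace Vale.Agent.P158.Gen

/-- Some threshold has a tail of mass at most `2 ^ (-20)`. -/
theorem exists_smallTail {G : Measure ℝ} [IsProbabilityMeasure G] : ∃ m, SmallTail m G := by
  have h : Tendsto (fun n : ℕ => G (Set.Ioi (n : ℝ))) atTop (𝓝 (G (⋂ n : ℕ, Set.Ioi (n : ℝ)))) :=
    tendsto_measure_iInter_atTop (fun n => measurableSet_Ioi.nullMeasurableSet)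
      (fun a b hab => Set.Ioi_subset_Ioi (Nat.cast_le.2 hab)) ⟨0, measure_ne_top _ _⟩
  have he : (⋂ n : ℕ, Set.Ioi (n : ℝ)) = ∅ := by
    ext x
    simp only [Set.mem_iInter, Set.mem_Ioi, Set.mem_empty_iff_false, iff_false, not_forall, not_lt]
    exact exists_nat_ge x
  rw [he, measure_empty] at h
  obtain ⟨n, hn, hn1⟩ := ((h.eventually_le_const
    (ENNReal.ofReal_pos.2 (by positivity : (0 : ℝ) < (1 / 2) ^ 20))).and
    (eventually_gt_atTop 0)).exists
  exact ⟨n, by exact_mod_cast hn1, hn⟩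

end Vale.Agent.P158.Gen
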