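import Vale.Agent.P158.Gen.Spec
import Vale.Agent.P158.Wild

/-!
Wild sites are rare for every atomless law: by shielding, a piece of a geodesic segment in a box
is short up to the square of the local scale.
-/

open MeasureTheory Filter Topology
open scoped ENNReal

namespace Vale.Agent.P158.Gen

open Vale.Agent.P158

variable {t : Conf} {γ : ℤ → V} {i₀ i₁ : ℤ} {m κ A : ℝ}

/-- A geodesic segment between two points of a controlled box is short: between its first and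
last trimmed points the shielded weight is at least linear in the steps and at most linear in the
distance. -/
lemma wild_short (hF : ShieldFacts m) {N L : ℕ} (hB : BoxOK m κ A N L t) (hκ : 0 < κ) (hA : 0 ≤ A)
    (hL : 1 ≤ L) {k : ℤ} (hk : k = 0 ∨ k = 1) (h : SegGeo t γ i₀ i₁) {B : ℕ} (hBN : B + L + 1 ≤ N)
    (h1 : |(γ i₀).1| ≤ B) (h2 : |(γ i₀).2| ≤ B) (h3 : |(γ i₁).1| ≤ B) (h4 : |(γ i₁).2| ≤ B) :
    ((i₁ - i₀ : ℤ) : ℝ) ≤ (19 + A / κ * 9) * (L : ℝ) ^ 2 +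
      A / κ * (|(lev k (γ i₁) : ℝ) - lev k (γ i₀)| + 2 * |((γ i₁).2 : ℝ) - (γ i₀).2|) := by
  have hL1 : (1 : ℝ) ≤ L := by exact_mod_cast hL
  set D := |(lev k (γ i₁) : ℝ) - lev k (γ i₀)| + 2 * |((γ i₁).2 : ℝ) - (γ i₀).2| with hD
  have hAκ : 0 ≤ A / κ := div_nonneg hA hκ.le
  have hD0 : 0 ≤ A / κ * D := by positivity
  rcases le_or_gt (i₁ - i₀) (2 * (2 * (L : ℤ) + 1) ^ 2) with hs | hs
  · have hs' : ((i₁ - i₀ : ℤ) : ℝ) ≤ 2 * (2 * (L : ℝ) + 1) ^ 2 := by exact_mod_cast hs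
    have : 0 ≤ A / κ * 9 * (L : ℝ) ^ 2 := by positivity
    nlinarith
  obtain ⟨m0, m1⟩ : InSq N (γ i₀) ∧ InSq N (γ i₁) := by
    rw [abs_le] at h1 h2 h3 h4
    constructor <;> refine ⟨?_, ?_, ?_, ?_⟩ <;> omega
  obtain ⟨a, b, ha, haT, hab, hbT, hb, hoka, hokb, hda, hdb⟩ :=
    hF.trim N L t hB.loc γ i₀ i₁ h m0 m1 hs
  obtain ⟨hax, hay⟩ := hda a ha le_rfl
  obtain ⟨hbx, hby⟩ := hdb b le_rfl hb
  obtain ⟨hma, hmb⟩ : InSq N (γ a) ∧ InSq N (γ b) := by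
    rw [abs_le] at h1 h2 h3 h4 hax hay hbx hby
    constructor <;> refine ⟨?_, ?_, ?_, ?_⟩ <;> omega
  obtain ⟨w, hp, hl, hw⟩ := wild_walk (t := t) h.adj h.inj ha hab hb
  have hgeo : plen t w = T t (γ a) (γ b) := hw.trans (wild_sub hB.nonneg h ha hab hb).geo
  have hTd : T t (γ a) (γ b) ≤ A * (dist1 (γ a) (γ b) + (L : ℝ) ^ 2) := by
    rw [← hF.eq_T Set.univ t hB.nonneg _ _ hoka hokb]
    exact hB.dist _ _ hma hmb
  have hple : plen (shield m t) w ≤ plen t w :=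
    List.sum_le_sum fun d _ => hF.le Set.univ t _
  have hbr : ((b - a : ℤ) : ℝ) = (w.length : ℝ) := by exact_mod_cast hl.symm
  have hmid : ((b - a : ℤ) : ℝ) ≤ (L : ℝ) + A / κ * (dist1 (γ a) (γ b) + (L : ℝ) ^ 2) := by
    have hd0 : 0 ≤ dist1 (γ a) (γ b) := by simp only [dist1]; positivity
    have : 0 ≤ A / κ * (dist1 (γ a) (γ b) + (L : ℝ) ^ 2) := by positivity
    rw [hbr]
    by_cases hq : L ≤ w.length
    · have h5 := (hB.long _ _ w hma hp hq).trans (hple.trans (hgeo.trans_le hTd))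
      have : (w.length : ℝ) ≤ A / κ * (dist1 (γ a) (γ b) + (L : ℝ) ^ 2) := by
        rw [div_mul_eq_mul_div, le_div_iff₀ hκ]; linarith
      linarith
    · have : (w.length : ℝ) ≤ L := by exact_mod_cast (not_le.1 hq).le
      linarith
  have hdist : dist1 (γ a) (γ b) ≤ D + 4 * ((L : ℝ) + 1) := by
    have hax' : |((γ a).1 : ℝ) - (γ i₀).1| ≤ (L : ℝ) + 1 := by exact_mod_cast hax
    have hay' : |((γ a).2 : ℝ) - (γ i₀).2| ≤ (L : ℝ) + 1 := by exact_mod_cast hay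
    have hbx' : |((γ b).1 : ℝ) - (γ i₁).1| ≤ (L : ℝ) + 1 := by exact_mod_cast hbx
    have hby' : |((γ b).2 : ℝ) - (γ i₁).2| ≤ (L : ℝ) + 1 := by exact_mod_cast hby
    rw [abs_le] at hax' hay' hbx' hby'
    have hu : |((γ i₁).1 : ℝ) - (γ i₀).1| + |((γ i₁).2 : ℝ) - (γ i₀).2| ≤ D := by
      rcases hk with rfl | rfl
      · simp only [hD, lev]; push_cast
        simp only [zero_mul, add_zero]
        linarith [abs_nonneg (((γ i₁).2 : ℝ) - (γ i₀).2)]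
      · simp only [hD, lev]; push_cast
        set u := ((γ i₁).1 : ℝ) - (γ i₀).1
        set v := ((γ i₁).2 : ℝ) - (γ i₀).2
        have h5 : |u| ≤ |u + v| + |v| := by simpa using abs_sub (u + v) v
        rw [show ((γ i₁).1 : ℝ) + 1 * (γ i₁).2 - (((γ i₀).1 : ℝ) + 1 * (γ i₀).2) = u + v by
          simp only [u, v]; ring]
        linarith
    have hx : |((γ a).1 : ℝ) - (γ b).1| ≤ |((γ i₁).1 : ℝ) - (γ i₀).1| + 2 * ((L : ℝ) + 1) := by
      have := le_abs_self (((γ i₁).1 : ℝ) - (γ i₀).1)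
      have := neg_le_abs (((γ i₁).1 : ℝ) - (γ i₀).1)
      rw [abs_le]; constructor <;> linarith
    have hy : |((γ a).2 : ℝ) - (γ b).2| ≤ |((γ i₁).2 : ℝ) - (γ i₀).2| + 2 * ((L : ℝ) + 1) := by
      have := le_abs_self (((γ i₁).2 : ℝ) - (γ i₀).2)
      have := neg_le_abs (((γ i₁).2 : ℝ) - (γ i₀).2)
      rw [abs_le]; constructor <;> linarith
    simp only [dist1]
    linarith
  have hsplit : ((i₁ - i₀ : ℤ) : ℝ) ≤ 2 * (2 * (L : ℝ) + 1) ^ 2 + ((b - a : ℤ) : ℝ) := by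
    exact_mod_cast (by omega : i₁ - i₀ ≤ 2 * (2 * (L : ℤ) + 1) ^ 2 + (b - a))
  have h7 : A / κ * (dist1 (γ a) (γ b) + (L : ℝ) ^ 2) ≤ A / κ * (D + 9 * (L : ℝ) ^ 2) :=
    mul_le_mul_of_nonneg_left (by nlinarith) hAκ
  nlinarith

/-- The square of the local scale is of smaller order than the scale. -/
lemma wild_scale (c : ℝ) (m : ℕ) (hm : 0 < m) :
    ∀ᶠ n : ℕ in atTop, 1 ≤ n ∧ Lc n ≤ n + 1 ∧ c * (Lc n : ℝ) ^ 2 ≤ (n : ℝ) / m := by
  obtain ⟨S, hS⟩ := exists_nat_ge (|c| * 4 * m)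
  filter_upwards [eventually_ge_atTop ((S + 1) * (S + 1))] with n hn
  have hS1 : 1 ≤ n := le_trans (Nat.one_le_iff_ne_zero.2 (by positivity)) hn
  have hq : S + 1 ≤ Nat.sqrt n := Nat.le_sqrt.2 hn
  have hq1 : 1 ≤ Nat.sqrt (Nat.sqrt n) := Nat.le_sqrt.2 (by omega)
  have hle : Nat.sqrt (Nat.sqrt n) ≤ n := (Nat.sqrt_le_self _).trans (Nat.sqrt_le_self _)
  refine ⟨hS1, by simpa [Lc] using hle, ?_⟩
  have h1 : ((Lc n : ℝ)) ^ 2 ≤ 4 * (Nat.sqrt n : ℝ) := by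
    have h := Nat.sqrt_le (Nat.sqrt n)
    have h' : Lc n ^ 2 ≤ 4 * Nat.sqrt n := by
      have : Lc n ≤ 2 * Nat.sqrt (Nat.sqrt n) := by simp only [Lc]; omega
      calc Lc n ^ 2 ≤ (2 * Nat.sqrt (Nat.sqrt n)) ^ 2 := Nat.pow_le_pow_left this 2
        _ = 4 * (Nat.sqrt (Nat.sqrt n) * Nat.sqrt (Nat.sqrt n)) := by ring
        _ ≤ 4 * Nat.sqrt n := Nat.mul_le_mul_left _ h
    exact_mod_cast h'
  have h2 : (Nat.sqrt n : ℝ) * Nat.sqrt n ≤ n := by exact_mod_cast Nat.sqrt_le n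
  have h3 : (S : ℝ) ≤ Nat.sqrt n := by exact_mod_cast (Nat.le_of_succ_le hq)
  rw [le_div_iff₀ (by exact_mod_cast hm)]
  calc c * (Lc n : ℝ) ^ 2 * m ≤ |c| * (4 * (Nat.sqrt n : ℝ)) * m := by
        gcongr
        exact le_abs_self c
    _ = |c| * 4 * m * Nat.sqrt n := by ring
    _ ≤ (Nat.sqrt n : ℝ) * Nat.sqrt n := by gcongr; exact hS.trans h3
    _ ≤ n := h2

/-- **Wild sites are rare.** -/
theorem wildNullG {G : Measure ℝ} (hF : ShieldFacts m) (hBox : BoxProp m G κ A)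
    (hB : BentNull G) : WildNull G := by
  obtain ⟨hκ, hA, hlim⟩ := hBox
  refine wildNull_of_short hB (Λ := A / κ) (div_nonneg hA.le hκ.le) fun k hk K j hj => ?_
  refine tendsto_of_tendsto_of_tendsto_of_le_of_le' tendsto_const_nhds (hlim (K + 3))
    (Eventually.of_forall fun n => zero_le) ?_
  filter_upwards [wild_scale (19 + A / κ * 9) j hj] with n hn
  refine measure_mono fun t ht hOK => ht ⟨hOK.nonneg, fun γ i₀ i₁ h h1 h2 h3 h4 => ?_⟩
  have hN : K * n + Lc n + 1 ≤ (K + 3) * n := by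
    rw [add_mul]; omega
  refine (wild_short hF hOK hκ hA.le (by simp [Lc]) hk h hN h1 h2 h3 h4).trans ?_
  linarith [hn.2.2]

end Vale.Agent.P158.Gen
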