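import Vale.Agent.P158.Gen.Bent
import Vale.Agent.P158.Gen.Block
import Vale.Agent.P158.Gen.Box
import Vale.Agent.P158.Gen.Chord
import Vale.Agent.P158.Gen.ChordCount
import Vale.Agent.P158.Gen.Count2
import Vale.Agent.P158.Gen.Cut
import Vale.Agent.P158.Gen.Main
import Vale.Agent.P158.Gen.Shape
import Vale.Agent.P158.Gen.ShieldLaw
import Vale.Agent.P158.Gen.ShieldNice
import Vale.Agent.P158.Gen.Slope
import Vale.Agent.P158.Gen.Tail
import Vale.Agent.P158.Gen.Wild
import Vale.Agent.P158.ForkAll
import Vale.Agent.P158.Mass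
import Vale.Agent.P158.MatchAll

/-!
Almost surely there is no bigeodesic, for every atomless law of nonnegative weights.
-/

open MeasureTheory

namespace Vale.Agent.P158.Gen

/-- No bigeodesic for any atomless law. -/
theorem noBigeodesicG {G : Measure ℝ} (hG : LawGen G) : NoBigeodesic G := by
  have := hG.prob
  obtain ⟨m, hm⟩ := exists_smallTail (G := G)
  have hF := shieldFacts hm.1
  obtain ⟨κ, AY, hL⟩ := exists_shieldLaw hG hm hF
  obtain ⟨κ₂, A₂, hB⟩ := Box.boxProp_of_small hG hm hF hL.tame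
  obtain ⟨κ₃, A₃, hS⟩ := exists_shapeG hG hm hF hL hB
  have hcut := cutProp hG hm hF
  have hW := wildNullG hF hB (bentNullG hG hF hL hB hS)
  have hC := chordPropG hG hm.1 hF hB hS hcut (blockPropG hG hm.1 hF hS hcut)
  have hN := forkNullAllG hG hC hW (slopeBoundG hG hm.1 hF hL)
  have hM := matchAllG hG hN
  exact noBigeodesic_of_modulesG hG hm hF hL hN hM
    (massPropG hG hC (ChordCount.chordCountG hG hm.1 hF hL hN hM) hW) (countProp2G hF hL.κ_pos)

end Vale.Agent.P158.Gen
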