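import Vale.Agent.P158.Gen.Spec2
import Vale.Agent.P158.Meas2

/-!
A translation invariant Borel set of usable configurations, and null measurability of the events
of the count for all atomless laws.
-/

open MeasureTheory Filter Topology Set
open scoped ENNReal

namespace Vale.Agent.P158.Gen

open Vale.Agent.P158

/-- A translation invariant Borel set of full measure of usable configurations. -/
theorem exists_goodSet {G : Measure ℝ} {m κ AY : ℝ} (hG : LawGen G) (hS : ShieldFacts m)
    (hL : ShieldLaw m G κ AY) (hF : ForkNullAll G) (hM : MatchAll G) :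
    ∃ GS : Set Conf, MeasurableSet GS ∧ (∀ᵐ t ∂law G, t ∈ GS) ∧ Usable m κ GS ∧
      ∀ (v : V) (t : Conf), shift v t ∈ GS ↔ t ∈ GS := by
  have := hG.prob
  have hnice : ∀ᵐ t ∂law G, Tame m t ∧ NiceG κ t ∧ NiceG κ (shield m t) := by
    filter_upwards [hL.tame, hL.good, hF, hM] with t h1 h2 h3 h4
    exact ⟨h1, ⟨h2.1, h3, h4⟩, hS.nice κ t h1 h2.2 ⟨h2.1, h3, h4⟩⟩
  set N := toMeasurable (law G) {t | ¬ (Tame m t ∧ NiceG κ t ∧ NiceG κ (shield m t))} with hN
  have hN0 : law G N = 0 := by rw [hN, measure_toMeasurable]; exact ae_iff.1 hnice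
  set GS := ⋂ v : V, shift v ⁻¹' Nᶜ with hGS
  have hinv : ∀ (v : V) (t : Conf), t ∈ GS → shift v t ∈ GS := by
    intro v t ht
    simp only [hGS, mem_iInter, mem_preimage] at ht ⊢
    intro u
    rw [shift_shift]
    exact ht _
  refine ⟨GS, ?_, ?_, ?_, fun v t => ⟨fun h => ?_, hinv v t⟩⟩
  · exact MeasurableSet.iInter fun v =>
      (measurableSet_toMeasurable _ _).compl.preimage (shiftSym v).measurable_act
  · filter_upwards [ae_shift (p := fun t => t ∉ N) (measure_eq_zero_iff_ae_notMem.1 hN0)]
      with t ht using mem_iInter.2 ht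
  · intro t ht
    by_contra hn
    have h0 := mem_iInter.1 ht 0
    rw [mem_preimage, shift_zero] at h0
    exact h0 (subset_toMeasurable _ _ hn)
  · have := hinv (-v) _ h
    rwa [shift_shift, neg_add_cancel, shift_zero] at this

section Param

variable {X : Type*} [MeasurableSpace X] {ft : X → Conf} {fg : X → ℤ → V}

/-- Witnesses beating a random offset form a measurable event. -/
lemma measurableSet_wit4_offset (ht : Measurable ft) {fg' : X → ℤ → V}
    (hγ : ∀ i, Measurable fun x => fg x i) (hγ' : ∀ i, Measurable fun x => fg' x i)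
    (W : ℤ) {g : X → ℝ} (hg : Measurable g) :
    MeasurableSet {x | Wit4 (ft x) W (g x) (fg x) (fg' x)} := by
  have h : ∀ fr fs : X → ℕ → V, (∀ n, Measurable fun x => fr x n) →
      (∀ n, Measurable fun x => fs x n) →
      MeasurableSet {x | Wit (ft x) W (g x) (fr x) (fs x)} := by
    intro fr fs hr hs
    simp only [Wit, ofPred_exists]
    exact MeasurableSet.iUnion fun z => (MeasurableSet.const _).inter
      (measurableSet_lt ((measurable_bus_param ht _ hr z).add (measurable_bus_param ht _ hs z))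
        hg.neg)
  exact (h _ _ (fun n => hγ _) (fun n => hγ' _)).inter ((h _ _ (fun n => hγ _) (fun n => hγ' _)).inter
    ((h _ _ (fun n => hγ _) (fun n => hγ' _)).inter (h _ _ (fun n => hγ _) (fun n => hγ' _))))

end Param

/-- The data of a certificate once the heights and the indices are chosen. -/
def Cert2GBody (P : SiteP) (B : BlockP) (GS : Set Conf) (k c : ℤ) (s : ℝ) (h : ℤ) {n : ℕ}
    (ys iL jR : Fin n → ℤ) (pre t : Conf) (γ : Fin n → ℤ → V) : Prop :=
  pre ∈ GS ∧ t ∈ GS ∧ (∀ e, t e ≤ pre e) ∧ (∀ e, e ∉ regSet2 P k c s h B.d → t e = pre e) ∧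
  Function.Injective ys ∧
    (∀ i, h ≤ ys i ∧ ys i < h + B.d ∧ LineSite P k s (pt k c (ys i)) pre (γ i) (iL i) (jR i) ∧
      B.g ≤ ∑ m ∈ Finset.Ico (iL i) (jR i),
        (wt pre (γ i m) (γ i (m + 1)) - wt t (γ i m) (γ i (m + 1)))) ∧
    ∀ i i', i ≠ i' → Wit4 pre B.W (B.G₀ + T pre (γ i 0) (γ i' 0)) (γ i) (γ i')

lemma cert2G_iff (P : SiteP) (B : BlockP) (GS : Set Conf) (k c : ℤ) (s : ℝ) (h : ℤ) (n : ℕ)
    (pre t : Conf) : Cert2G P B GS k c s h n pre t ↔
      ∃ γ ys iL jR, Cert2GBody P B GS k c s h (n := n) ys iL jR pre t γ := by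
  constructor
  · rintro ⟨h1, h2, h3, h4, ys, γ, iL, jR, h5, h6, h7⟩
    exact ⟨γ, ys, iL, jR, h1, h2, h3, h4, h5, h6, h7⟩
  · rintro ⟨γ, ys, iL, jR, h1, h2, h3, h4, h5, h6, h7⟩
    exact ⟨h1, h2, h3, h4, ys, γ, iL, jR, h5, h6, h7⟩

lemma measurableSet_cert2G_graph {X : Type*} [MeasurableSpace X] (P : SiteP) (B : BlockP)
    {GS : Set Conf} (hGS : MeasurableSet GS) (k c : ℤ) (s : ℝ) (h : ℤ) (n : ℕ)
    {fp ft : X → Conf} (hp : Measurable fp) (ht : Measurable ft) :
    MeasurableSet {q : X × (Fin n → ℤ → V) |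
      ∃ ys iL jR, Cert2GBody P B GS k c s h ys iL jR (fp q.1) (ft q.1) q.2} := by
  simp only [ofPred_exists]
  refine MeasurableSet.iUnion fun ys => MeasurableSet.iUnion fun iL =>
    MeasurableSet.iUnion fun jR => ?_
  have hp' : Measurable fun q : X × (Fin n → ℤ → V) => fp q.1 := hp.comp measurable_fst
  have ht' : Measurable fun q : X × (Fin n → ℤ → V) => ft q.1 := ht.comp measurable_fst
  have hγ : ∀ (i : Fin n) (m : ℤ), Measurable fun q : X × (Fin n → ℤ → V) => q.2 i m :=
    fun i m => (measurable_pi_apply m).comp ((measurable_pi_apply i).comp measurable_snd)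
  simp only [Cert2GBody, ofPred_and, ofPred_forall]
  refine (hp' hGS).inter ((ht' hGS).inter (MeasurableSet.inter ?_ (MeasurableSet.inter ?_
    ((MeasurableSet.const _).inter (MeasurableSet.inter ?_ ?_)))))
  · exact MeasurableSet.iInter fun e =>
      measurableSet_le ((measurable_pi_apply e).comp ht') ((measurable_pi_apply e).comp hp')
  · exact MeasurableSet.iInter fun e => MeasurableSet.iInter fun _ =>
      measurableSet_eq_fun ((measurable_pi_apply e).comp ht') ((measurable_pi_apply e).comp hp')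
  · exact MeasurableSet.iInter fun i => (MeasurableSet.const _).inter
      ((MeasurableSet.const _).inter ((measurableSet_lineSite hp' (hγ i) P k s _ _ _).inter
        (measurableSet_le measurable_const (Finset.measurable_sum _ fun m _ =>
          (measurable_wt_param hp' (hγ i m) (hγ i (m + 1))).sub
            (measurable_wt_param ht' (hγ i m) (hγ i (m + 1)))))))
  · exact MeasurableSet.iInter fun i => MeasurableSet.iInter fun j => MeasurableSet.iInter fun _ =>
      measurableSet_wit4_offset hp' (hγ i) (hγ j) B.W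
        (g := fun q => B.G₀ + T (fp q.1) (q.2 i 0) (q.2 j 0))
        (measurable_const.add (measurable_T_param hp' (hγ i 0) (hγ j 0)))

set_option synthInstance.maxSize 1024 in
/-- The certificate event is null measurable in any parameters that give the two configurations
measurably. -/
theorem nullMeasurableSet_cert2G {Y : Type*} [TopologicalSpace Y] [PolishSpace Y]
    [MeasurableSpace Y] [BorelSpace Y] (P : SiteP) (B : BlockP) {GS : Set Conf}
    (hGS : MeasurableSet GS) (k c : ℤ) (s : ℝ) (h : ℤ) (n : ℕ) {fp ft : Y → Conf}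
    (hp : Measurable fp) (ht : Measurable ft) (μ : Measure Y) [IsFiniteMeasure μ] :
    NullMeasurableSet {y | Cert2G P B GS k c s h n (fp y) (ft y)} μ := by
  have he : {y | Cert2G P B GS k c s h n (fp y) (ft y)} = Prod.fst ''
      {q : Y × (Fin n → ℤ → V) |
        ∃ ys iL jR, Cert2GBody P B GS k c s h ys iL jR (fp q.1) (ft q.1) q.2} := by
    ext y
    simp only [mem_ofPred_eq, cert2G_iff, mem_image, Prod.exists, exists_and_right, exists_eq_right]
  rw [he]
  exact nullMeasurableSet_image (measurableSet_cert2G_graph P B hGS k c s h n hp ht)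
    measurable_fst μ

set_option synthInstance.maxSize 1024 in
/-- The block event is null measurable. -/
theorem nullMeasurableSet_blockEvent2G (P : SiteP) (B : BlockP) {GS : Set Conf}
    (hGS : MeasurableSet GS) (k c : ℤ) (s : ℝ) (h : ℤ) (n : ℕ) (μ : Measure Conf)
    [IsFiniteMeasure μ] : NullMeasurableSet (blockEvent2G P B GS k c s h n) μ := by
  have he : blockEvent2G P B GS k c s h n = (fun q : (Conf × Conf) × (Fin n → ℤ → V) => q.1.1) ''
      {q | ∃ ys iL jR, Cert2GBody P B GS k c s h ys iL jR q.1.2 q.1.1 q.2} := by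
    ext t
    simp only [blockEvent2G, mem_ofPred_eq, cert2G_iff, mem_image, Prod.exists]
    constructor
    · rintro ⟨pre, γ, h'⟩; exact ⟨t, pre, γ, h', rfl⟩
    · rintro ⟨_, pre, γ, h', rfl⟩; exact ⟨pre, γ, h'⟩
  rw [he]
  exact nullMeasurableSet_image
    (measurableSet_cert2G_graph (X := Conf × Conf) P B hGS k c s h n measurable_snd measurable_fst)
    (measurable_fst.comp measurable_fst) μ

/-- The joint event that the tilt yields a certificate is null measurable. -/
theorem nullMeasurableSet_cert2G_joint {Z : Type*} [TopologicalSpace Z] [PolishSpace Z]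
    [MeasurableSpace Z] [BorelSpace Z] (P : SiteP) (B : BlockP) {GS : Set Conf}
    (hGS : MeasurableSet GS) (k c : ℤ) (s : ℝ) (h : ℤ) (n : ℕ) {F : Conf × Z → Conf}
    (hF : Measurable F) (μ : Measure (Conf × Z)) [IsFiniteMeasure μ] :
    NullMeasurableSet {q | Cert2G P B GS k c s h n q.1 (F q)} μ :=
  nullMeasurableSet_cert2G P B hGS k c s h n measurable_fst hF μ

end Vale.Agent.P158.Gen
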