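import Vale.Agent.P158.Main2
import Vale.Agent.P158.Gen.GoodSet

/-!
Certificates whose witnesses beat the passage time between two origins: translation and
monotonicity of the level of the witnesses.
-/

open MeasureTheory Filter Topology Set
open scoped ENNReal

namespace Vale.Agent.P158.Gen

open Vale.Agent.P158

/-- A witness for a level is one for every lower level. -/
theorem wit_level {t : Conf} {W : ℤ} {G₀ G₁ : ℝ} {r s : ℕ → V} (h : G₀ ≤ G₁)
    (hw : Wit t W G₁ r s) : Wit t W G₀ r s :=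
  let ⟨z, hz, hlt⟩ := hw
  ⟨z, hz, hlt.trans_le (neg_le_neg h)⟩

/-- Witnesses for all four pairings pass to lower levels. -/
theorem wit4_level {t : Conf} {W : ℤ} {G₀ G₁ : ℝ} {γ γ' : ℤ → V} (h : G₀ ≤ G₁)
    (hw : Wit4 t W G₁ γ γ') : Wit4 t W G₀ γ γ' :=
  ⟨wit_level h hw.1, wit_level h hw.2.1, wit_level h hw.2.2.1, wit_level h hw.2.2.2⟩

/-- Translation of certificates along a level. -/
theorem blockEvent2G_translate {P : SiteP} {B : BlockP} {GS : Set Conf}
    (hinv : ∀ (v : V) (t : Conf), t ∈ GS → shift v t ∈ GS) {k c : ℤ} (hk : |k| ≤ 1) {s : ℝ}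
    {h : ℤ} {n : ℕ} {N' W' : ℕ} (hN' : (N' : ℤ) + |h| ≤ P.N) (hW : (B.W : ℤ) + |h| ≤ W')
    (hb : 2 * (|s| + P.ε + 1) * ((P.Lam : ℝ) + P.R' + |(c : ℝ)| + 2) + 2 * (B.d : ℝ) +
      2 * P.w + 4 + |(h : ℝ)| + 1 ≤ (N' : ℝ)) :
    shift (pt k 0 h) ⁻¹' blockEvent2G P B GS k c s 0 n ⊆
      blockEvent2G { P with N := N' } { B with W := W' } GS k c s h n := by
  rintro t ⟨pre, hpre, ht, hle, hoff, ys, γ, iL, jR, hinj, hline, hwit⟩
  set v := pt k 0 h with hv
  have hback : ∀ u : Conf, shift v (shift (-v) u) = u := fun u => by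
    rw [shift_shift]; simp [shift_zero]
  have hback' : ∀ u : Conf, shift (-v) (shift v u) = u := fun u => by
    rw [shift_shift]; simp [shift_zero]
  have hpt : ∀ y, pt k c y + v = pt k c (y + h) := fun y => by
    simp [hv, pt, Prod.ext_iff]; ring
  have hwt : ∀ (i : Fin n) (u : Conf) (m : ℤ),
      wt (shift v u) (γ i m) (γ i (m + 1)) = wt u (γ i m + v) (γ i (m + 1) + v) := fun i u m =>
    (shiftSym v).wt_act u ((hline i).2.2.1.line.adj m)
  refine ⟨shift (-v) pre, hinv _ _ hpre, hback' t ▸ hinv (-v) _ ht, fun e => ?_, fun e he => ?_,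
    fun i => ys i + h, fun i m => γ i m + v, iL, jR, fun a b hab => hinj (by simpa using hab),
    fun i => ⟨by have := (hline i).1; simp only; omega,
      by have := (hline i).2.1; simp only; omega, ?_, ?_⟩,
    fun i i' hne => ?_⟩
  · have := hle (eShift (-v) e)
    simpa [shift, eShift, add_assoc] using this
  · have hh := hoff (eShift (-v) e) ?_
    · simpa [shift, eShift, add_assoc] using hh
    intro hmem
    apply he
    obtain ⟨h1, h2⟩ := hmem
    rw [eFst_eShift] at h1
    rw [eSnd_eShift] at h2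
    have tr : ∀ u : V, InReg2 P k c s 0 B.d (u + -v) →
        InReg2 { P with N := N' } k c s h B.d u := by
      intro u hu
      have hl : lev k (u + -v) = lev k u := by simp [hv, lev, pt]; ring
      have h2' : (u + -v).2 = u.2 - h := by simp [hv, pt, sub_eq_add_neg]
      obtain ⟨a, b, c'⟩ := hu
      rw [hl, h2'] at *
      refine ⟨a, ?_, ?_⟩ <;> push_cast at b c' <;> simp only <;> linarith
    exact ⟨tr _ h1, tr _ h2⟩
  · have hl := (hline i).2.2.1
    rw [← hpt]
    refine LineSite.translate hk ((hback pre).symm ▸ hl) hN' ?_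
    have h1 : ((0 : ℤ) : ℝ) ≤ ys i := by exact_mod_cast (hline i).1
    have h2 : ((ys i : ℤ) : ℝ) ≤ B.d := by
      have := (hline i).2.1
      have : ys i ≤ (B.d : ℤ) := by omega
      exact_mod_cast this
    have h3 : lev k (pt k c (ys i)) = c := by simp [lev, pt]
    have h4 : |(((pt k c (ys i)).2 : ℤ) : ℝ)| ≤ B.d := by
      simp only [pt]
      rw [abs_of_nonneg (by simpa using h1)]
      exact h2
    rw [h3]
    linarith
  · have hg := (hline i).2.2.2
    have e2 : ∀ m, wt t (γ i m + v) (γ i (m + 1) + v) = wt (shift v t) (γ i m) (γ i (m + 1)) :=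
      fun m => (hwt i t m).symm
    have e1 : ∀ m, wt (shift (-v) pre) (γ i m + v) (γ i (m + 1) + v) =
        wt pre (γ i m) (γ i (m + 1)) := fun m => by
      rw [← hwt i (shift (-v) pre) m, hback]
    simp only [e1, e2]
    exact hg
  · have hw := hwit i i' hne
    have hT : T pre (γ i 0) (γ i' 0) = T (shift (-v) pre) (γ i 0 + v) (γ i' 0 + v) := by
      rw [← T_shift, hback]
    rw [hT] at hw
    obtain ⟨w1, w2, w3, w4⟩ := hw
    have ai := (hline i).2.2.1.line
    have ai' := (hline i').2.2.1.line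
    rw [← hback pre] at w1 w2 w3 w4
    simp only [hback'] at w1 w2 w3 w4
    exact ⟨w1.translate hk hW (bwd_adj ai 0) (fwd_adj ai' 0),
      w2.translate hk hW (fwd_adj ai 0) (bwd_adj ai' 0),
      w3.translate hk hW (bwd_adj ai 0) (bwd_adj ai' 0),
      w4.translate hk hW (fwd_adj ai 0) (fwd_adj ai' 0)⟩

end Vale.Agent.P158.Gen
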