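import Vale.Agent.P158.Block2
import Vale.Agent.P158.Gen.MainMeas

/-!
The probability of a certificate of a block when the witnesses beat the passage time between the
two origins: that time is tight, so one window and one level serve all pairs.
-/

open MeasureTheory ProbabilityTheory Filter Topology
open scoped ENNReal

namespace Vale.Agent.P158.Gen

open Vale.Agent.P158 Rays

/-- Lines at two sites of one level have, at every level, witnesses in all large windows. -/
def SepSites (GS : Set Conf) : Prop :=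
  ∀ t ∈ GS, ∀ (P : SiteP), 0 < P.δ → ∀ (k : ℤ) (s : ℝ) (x x' : V), lev k x = lev k x' → x ≠ x' →
    ∀ G₀ : ℝ, ∀ᶠ W in atTop, t ∉ badPair P k s x x' G₀ W

/-- Usable configurations separate the lines of two sites. -/
theorem sepSites {m κ : ℝ} (hκ : 0 < κ) {GS : Set Conf} (h : Usable m κ GS) : SepSites GS :=
  fun t ht _ hδ _ _ _ _ hlev hne G₀ => badPair_eventually (h t ht).2.1 hκ hδ hlev hne G₀

/-- All pairs of site lines of a block have witnesses beating their origins in the window. -/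
def WitAllG (P : SiteP) (k c : ℤ) (s G₀ : ℝ) (h : ℤ) (d W : ℕ) (t : Conf) : Prop :=
  ∀ (y y' : ℤ) (γ γ' : ℤ → V) (iL jR iL' jR' : ℤ), h ≤ y ∧ y < h + d → h ≤ y' ∧ y' < h + d →
    LineSite P k s (pt k c y) t γ iL jR → LineSite P k s (pt k c y') t γ' iL' jR' → y ≠ y' →
      Wit4 t W (G₀ + T t (γ 0) (γ' 0)) γ γ'

variable {G : Measure ℝ} [IsProbabilityMeasure G]

/-- The probability of the certificate of one block, on the configurations with witnesses. -/
theorem block2G_slice (hat : ∀ x, G {x} = 0) {GS : Set Conf}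
    (hGS : ∀ᵐ t ∂law G, t ∈ GS) {P : SiteP} {k c : ℤ} {s : ℝ} {h : ℤ} {d W : ℕ}
    {G₀ g r₀ η : ℝ} (hεw : P.ε * P.L ≤ P.w) (hrr : r₀ < P.r)
    (h0 : 0 ≤ η) (h1 : η ≤ 1) {S : Finset Edge} (hS : (↑S : Set Edge) = regSet2 P k c s h d)
    (hbig : 32 ≤ η * G.real (Set.Iio r₀) * P.L)
    (hg : g ≤ (P.r - r₀) * η * G.real (Set.Iio r₀) * P.L / 4)
    {q : ℕ} (hq1 : 1 ≤ q) (hq : (q : ℝ) * η ≤ 1) {lam : ℝ} (hlam : 0 < lam) (n : ℕ) :
    ENNReal.ofReal (1 / 2) * law G {t | open Classical in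
        n ≤ ((Finset.Ico h (h + d)).filter fun y => t ∈ siteEvent2 P k c s y).card
          ∧ t ∈ GS ∧ WitAllG P k c s G₀ h d W t}
      ≤ ENNReal.ofReal lam * law G (blockEvent2G P ⟨d, W, G₀, g⟩ GS k c s h ((n + 1) / 2))
        + ENNReal.ofReal ((1 + (q : ℝ) ^ 2 * η ^ 2) ^ S.card / lam ^ (q - 1)) := by
  classical
  haveI := markLaw_prob (G := G) h0 h1
  haveI : IsProbabilityMeasure (markField G η) := by unfold markField; infer_instance
  haveI : IsProbabilityMeasure (law G) := by unfold law; infer_instance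
  set μ := (law G).prod (markField G η) with hμ
  set c' := η * G.real (Set.Iio r₀) * (P.L : ℝ) / 4 with hc'
  set A := {t : Conf | n ≤ ((Finset.Ico h (h + d)).filter fun y => t ∈ siteEvent2 P k c s y).card
      ∧ t ∈ GS ∧ WitAllG P k c s G₀ h d W t} with hA
  set C : Set (Conf × (Edge → Bool × ℝ)) :=
    {p | Cert2G P ⟨d, W, G₀, g⟩ GS k c s h ((n + 1) / 2) p.1 (tiltMap S p)} with hC
  have hnew : ∀ᵐ p ∂μ, tiltMap S p ∈ GS := by
    refine ae_of_ae_map (measurable_tiltMap S).aemeasurable ?_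
    rw [hμ, tiltMap_law hat h0 h1]
    exact (withDensity_absolutelyContinuous _ _).ae_le hGS
  -- for a configuration with many sites, most marks give a certificate
  have hslice : ∀ t ∈ A, ENNReal.ofReal (1 / 2) ≤
      markField G η {ω | tiltMap S (t, ω) ∈ GS → (t, ω) ∈ C} := by
    rintro t ⟨hYk, ht, hwit⟩
    set Y := (Finset.Ico h (h + d)).filter fun y => t ∈ siteEvent2 P k c s y with hYd
    have hsel : ∀ y ∈ Y, ∃ (γ : ℤ → V) (iL jR : ℤ) (E : Finset Edge),
        LineSite P k s (pt k c y) t γ iL jR ∧ P.L ≤ E.card ∧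
        E ⊆ (Finset.Ico iL jR).image (fun m => edgeOf (γ m) (γ (m + 1))) ∧
        E ⊆ S ∧ ∀ e ∈ E, P.r ≤ t e := fun y hy => by
      obtain ⟨hy1, γ, iL, jR, hγ⟩ := Finset.mem_filter.1 hy
      obtain ⟨E, e1, e2, e3, e4⟩ := site2_edges hγ hεw (Finset.mem_Ico.1 hy1)
      exact ⟨γ, iL, jR, E, hγ, e1, e2, fun e he => by rw [← Finset.mem_coe, hS]; exact e3 e he, e4⟩
    choose! γ iL jR E hline hcard hmid hES hge using hsel
    have hhalf := markField_half_up (G := G) (r₀ := r₀) h0 h1 Y E c' fun y hy => by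
      have h3 : (P.L : ℝ) ≤ ((E y).card : ℝ) := by exact_mod_cast hcard y hy
      have h4 := mul_le_mul_of_nonneg_left h3 (mul_nonneg h0 (measureReal_nonneg (μ := G)
        (s := Set.Iio r₀)))
      calc Real.exp (c' - η * G.real (Set.Iio r₀) * (E y).card / 2)
          ≤ Real.exp (-8) := Real.exp_le_exp.2 (by rw [hc']; linarith)
        _ ≤ 1 / 8 := by
          rw [Real.exp_neg, ← one_div]
          exact one_div_le_one_div_of_le (by norm_num) (by linarith [Real.add_one_le_exp (8 : ℝ)])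
    refine hhalf.trans (measure_mono fun ω hω hnewω => ?_)
    simp only [Set.mem_setOf_eq] at hω
    obtain ⟨T, hTsub, hTcard⟩ := Finset.exists_subset_card_eq
      (le_trans (Nat.div_le_div_right (Nat.add_le_add_right hYk 1)) hω)
    set eqv := (Finset.equivFinOfCardEq hTcard).symm
    set ys : Fin ((n + 1) / 2) → ℤ := fun i => (eqv i : ℤ) with hys
    have hysinj : Function.Injective ys := fun i j hij => eqv.injective (Subtype.ext hij)
    have hmem : ∀ i, ys i ∈ Y ∧ c' ≤ (((E (ys i)).filter fun e => ω e ∈ hitSet r₀).card : ℝ) :=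
      fun i => Finset.mem_filter.1 (hTsub (eqv i).2)
    refine ⟨ht, hnewω, fun e => ?_, fun e he => ?_, ys, fun i => γ (ys i),
      fun i => iL (ys i), fun i => jR (ys i), hysinj, fun i => ?_, fun i j hij => ?_⟩
    · simp only [tiltMap, tiltVal]; split_ifs <;> simp
    · simp only at he ⊢
      rw [tiltMap, if_neg]
      rwa [← Finset.mem_coe, hS]
    · obtain ⟨hy, hcy⟩ := hmem i
      obtain ⟨hy1, hy2⟩ := Finset.mem_Ico.1 (Finset.mem_filter.1 hy).1
      refine ⟨hy1, hy2, hline _ hy, ?_⟩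
      have hgain := gain_le_sum hrr.le (hES _ hy) (hmid _ hy) (hge _ hy) ω
      rw [Finset.sum_image (step_edge_injOn (hline _ hy).line).injOn] at hgain
      refine le_trans (le_trans (hg.trans_eq (by rw [hc']; ring))
        (mul_le_mul_of_nonneg_left hcy (by linarith))) hgain
    · exact hwit _ _ _ _ _ _ _ _ (Finset.mem_Ico.1 (Finset.mem_filter.1 (hmem i).1).1)
        (Finset.mem_Ico.1 (Finset.mem_filter.1 (hmem j).1).1) (hline _ (hmem i).1)
        (hline _ (hmem j).1) (hysinj.ne hij)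
  set X := toMeasurable μ C ∪ toMeasurable μ {p | tiltMap S p ∉ GS} with hX
  have hXm : MeasurableSet X :=
    (measurableSet_toMeasurable _ _).union (measurableSet_toMeasurable _ _)
  have hsub : A ⊆ {t | ENNReal.ofReal (1 / 2) ≤ markField G η (Prod.mk t ⁻¹' X)} := fun t ht =>
    (hslice t ht).trans (measure_mono fun ω hω => by
      by_cases hn : tiltMap S (t, ω) ∈ GS
      · exact Or.inl (subset_toMeasurable _ _ (hω hn))
      · exact Or.inr (subset_toMeasurable _ _ hn))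
  have hPX : μ X ≤ μ C := by
    refine (measure_union_le _ _).trans ?_
    rw [measure_toMeasurable, measure_toMeasurable,
      (show μ {p | tiltMap S p ∉ GS} = 0 from ae_iff.1 hnew), add_zero]
  have hCU : ENNReal.ofReal (1 / 2) * law G A ≤ μ C := by
    refine le_trans ?_ hPX
    rw [hμ, Measure.prod_apply hXm]
    refine le_trans ?_ (mul_meas_ge_le_lintegral (measurable_measure_prodMk_left hXm)
      (ENNReal.ofReal (1 / 2)))
    gcongr
  exact hCU.trans ((measure_mono fun p hp => ⟨p.1, hp⟩ : μ C ≤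
    μ (tiltMap S ⁻¹' blockEvent2G P ⟨d, W, G₀, g⟩ GS k c s h ((n + 1) / 2))).trans
    (tilt_pow hat h0 h1 S hq1 hq hlam _))

/-- Outside an event of small probability the passage times between finitely many pairs of
vertices are bounded by one number. -/
theorem exists_level (F : Finset (V × V)) {β : ℝ} (hβ : 0 < β) :
    ∃ n : ℕ, law G {t | ∃ p ∈ F, (n : ℝ) < T t p.1 p.2} ≤ ENNReal.ofReal β := by
  haveI : IsProbabilityMeasure (law G) := by unfold law; infer_instance
  set B : ℕ → Set Conf := fun n => {t | ∃ p ∈ F, (n : ℝ) < T t p.1 p.2} with hB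
  have hBm : ∀ n, MeasurableSet (B n) := fun n => by
    have he : B n = ⋃ p ∈ F, {t | (n : ℝ) < T t p.1 p.2} := by ext t; simp [hB]
    rw [he]
    exact Finset.measurableSet_biUnion _ fun p _ =>
      measurableSet_lt measurable_const (measurable_T _ _)
  have hanti : Antitone B := fun n n' h t ⟨p, hp, hlt⟩ =>
    ⟨p, hp, lt_of_le_of_lt (by exact_mod_cast h) hlt⟩
  have hnone : ⋂ n, B n = ∅ := by
    refine Set.eq_empty_iff_forall_notMem.2 fun t ht => ?_
    obtain ⟨n, hn⟩ := exists_nat_ge (∑ p ∈ F, |T t p.1 p.2|)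
    obtain ⟨p, hp, hlt⟩ := Set.mem_iInter.1 ht n
    have h1 : |T t p.1 p.2| ≤ ∑ q ∈ F, |T t q.1 q.2| :=
      Finset.single_le_sum (f := fun q : V × V => |T t q.1 q.2|) (fun q _ => abs_nonneg _) hp
    linarith [le_abs_self (T t p.1 p.2)]
  have hlim := tendsto_measure_iInter_atTop (μ := law G) (fun n => (hBm n).nullMeasurableSet)
    hanti ⟨0, measure_ne_top _ _⟩
  rw [hnone, measure_empty] at hlim
  exact (hlim.eventually_le_const (ENNReal.ofReal_pos.2 hβ)).exists

/-- The probability of the certificate of one block: for any set tolerance one window works for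
all large boxes. -/
theorem block2G_prob (hat : ∀ x, G {x} = 0) {GS : Set Conf} (hGS : ∀ᵐ t ∂law G, t ∈ GS)
    (hpos : ∀ t ∈ GS, ∀ e, 0 ≤ t e) (hsep : SepSites GS) {P : SiteP} (hδ : 0 < P.δ)
    {k c : ℤ} (hk : |k| ≤ 1) {s : ℝ} {d : ℕ} {N₁ : ℕ}
    (hN₁ : 2 * (|s| + P.ε + 1) * ((P.Lam : ℝ) + P.R' + |(c : ℝ)| + 2) + 2 * (d : ℝ) +
      2 * P.w + 4 ≤ (N₁ : ℝ))
    {G₀ g r₀ η : ℝ} (hεw : P.ε * P.L ≤ P.w) (hrr : r₀ < P.r)
    (h0 : 0 ≤ η) (h1 : η ≤ 1) {S : Finset Edge} (hS : (↑S : Set Edge) = regSet2 P k c s 0 d)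
    (hbig : 32 ≤ η * G.real (Set.Iio r₀) * P.L)
    (hg : g ≤ (P.r - r₀) * η * G.real (Set.Iio r₀) * P.L / 4)
    {q : ℕ} (hq1 : 1 ≤ q) (hq : (q : ℝ) * η ≤ 1) {lam : ℝ} (hlam : 0 < lam)
    (n : ℕ) {β : ℝ} (hβ : 0 < β) :
    ∀ᶠ W in atTop, ∀ N : ℕ, N₁ ≤ N → ENNReal.ofReal (1 / 2) * law G {t | open Classical in
        n ≤ ((Finset.Ico (0 : ℤ) d).filter fun y =>
          t ∈ siteEvent2 { P with N := N } k c s y).card}
      ≤ ENNReal.ofReal lam * law G
          (blockEvent2G { P with N := N } ⟨d, W, G₀, g⟩ GS k c s 0 ((n + 1) / 2))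
        + ENNReal.ofReal ((1 + (q : ℝ) ^ 2 * η ^ 2) ^ S.card / lam ^ (q - 1))
        + ENNReal.ofReal β := by
  classical
  haveI : IsProbabilityMeasure (law G) := by unfold law; infer_instance
  set P₁ : SiteP := { P with N := N₁ } with hP₁
  set pairs := (Finset.Ico (0 : ℤ) d).offDiag with hpairs
  obtain ⟨l, hl⟩ := exists_level (G := G)
    (pairs.image fun p => (pt k c p.1, pt k c p.2)) (half_pos hβ)
  set Far := {t | ∃ p ∈ pairs.image (fun p => (pt k c p.1, pt k c p.2)), (l : ℝ) < T t p.1 p.2}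
    with hFar
  set B : ℕ → Set Conf := fun W =>
    ⋃ p ∈ pairs, badPair P₁ k s (pt k c p.1) (pt k c p.2) (G₀ + l) W with hB
  have hBm : ∀ W, MeasurableSet (B W) := fun W =>
    Finset.measurableSet_biUnion _ fun p _ => measurableSet_badPair ..
  have hanti : Antitone B := fun W W' h =>
    Set.iUnion₂_mono fun p _ => badPair_anti _ _ _ _ _ _ h
  have hzero : law G (⋂ W, B W) = 0 := by
    refine measure_mono_null (fun t ht => ?_) (ae_iff.1 hGS)
    rw [Set.mem_ofPred_eq]
    intro hts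
    have hev : ∀ᶠ W in atTop, ∀ p ∈ pairs,
        t ∉ badPair P₁ k s (pt k c p.1) (pt k c p.2) (G₀ + l) W :=
      (eventually_all_finset pairs).2 fun p hp => hsep t hts P₁ hδ k s _ _ (by simp [lev, pt])
        (fun e => (Finset.mem_offDiag.1 hp).2.2 (congrArg Prod.snd e : _)) _
    obtain ⟨W, hW⟩ := hev.exists
    obtain ⟨p, hp, hpt⟩ :
        ∃ p ∈ pairs, t ∈ badPair P₁ k s (pt k c p.1) (pt k c p.2) (G₀ + l) W := by
      simpa [hB] using Set.mem_iInter.1 ht W
    exact hW p hp hpt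
  have hlim := tendsto_measure_iInter_atTop (μ := law G) (fun W => (hBm W).nullMeasurableSet)
    hanti ⟨0, measure_ne_top _ _⟩
  rw [hzero] at hlim
  filter_upwards [hlim.eventually_le_const (ENNReal.ofReal_pos.2 (half_pos hβ))] with W hW N hN
  set A := {t : Conf | n ≤ ((Finset.Ico (0 : ℤ) d).filter fun y =>
      t ∈ siteEvent2 { P with N := N } k c s y).card}
  set A' := {t : Conf | n ≤ ((Finset.Ico (0 : ℤ) (0 + d)).filter fun y =>
      t ∈ siteEvent2 { P with N := N } k c s y).card ∧ t ∈ GS ∧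
        WitAllG { P with N := N } k c s G₀ 0 d W t}
  have hsub : A ⊆ A' ∪ (B W ∪ Far) ∪ GSᶜ := by
    intro t ht
    by_cases hts : t ∈ GS
    swap
    · exact Or.inr hts
    by_cases htF : t ∈ Far
    · exact Or.inl (Or.inr (Or.inr htF))
    by_cases htB : t ∈ B W
    · exact Or.inl (Or.inr (Or.inl htB))
    refine Or.inl (Or.inl ⟨by rw [zero_add]; exact ht, hts, ?_⟩)
    intro y y' γ γ' iL jR iL' jR' hy hy' hγ hγ' hne
    have hmono : ∀ {y : ℤ} {γ : ℤ → V} {iL jR : ℤ}, 0 ≤ y ∧ y < 0 + (d : ℤ) →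
        LineSite { P with N := N } k s (pt k c y) t γ iL jR →
        LineSite P₁ k s (pt k c y) t γ iL jR := by
      intro y γ iL jR hy hl
      refine hl.mono hk hN ?_
      have h1 : |(y : ℝ)| ≤ d := by
        rw [abs_of_nonneg (by exact_mod_cast hy.1)]
        exact_mod_cast (by omega : y ≤ (d : ℤ))
      simp only [lev, pt, sub_add_cancel]
      linarith
    have h0t := hpos t hts
    have hmem : (y, y') ∈ pairs := by
      simp only [hpairs, Finset.mem_offDiag, Finset.mem_Ico]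
      omega
    have hle : T t (γ 0) (γ' 0) ≤ (l : ℝ) := by
      rw [hγ.origin, hγ'.origin]
      exact not_lt.1 fun hlt => htF ⟨_, Finset.mem_image_of_mem _ hmem, hlt⟩
    refine wit4_level (G₁ := G₀ + l) (by linarith) ?_
    have m1 := hmono hy hγ
    have m2 := hmono hy' hγ'
    rw [wit4_iff_not_noWit4 h0t hγ.line hγ'.line]
    exact fun hno => htB (Set.mem_iUnion₂.2 ⟨(y, y'), hmem, (γ, γ'),
      ⟨⟨hγ.origin, hγ.line.adj⟩, ⟨hγ'.origin, hγ'.line.adj⟩⟩,
      ⟨h0t, _, _, m1⟩, ⟨h0t, _, _, m2⟩, hno⟩)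
  calc ENNReal.ofReal (1 / 2) * law G A
      ≤ ENNReal.ofReal (1 / 2) * (law G A' + law G (B W ∪ Far) + law G GSᶜ) := by
        gcongr
        refine (measure_mono hsub).trans ((measure_union_le _ _).trans ?_)
        gcongr
        exact measure_union_le _ _
    _ = ENNReal.ofReal (1 / 2) * law G A' + ENNReal.ofReal (1 / 2) * law G (B W ∪ Far) := by
        rw [(show law G GSᶜ = 0 from ae_iff.1 hGS), add_zero, mul_add]
    _ ≤ _ := by
        refine add_le_add (block2G_slice hat hGS (P := { P with N := N }) hεw hrr h0 h1 hS hbig hg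
          hq1 hq hlam n) ((mul_le_of_le_one_left' ?_).trans ?_)
        · exact ENNReal.ofReal_le_one.2 (by norm_num)
        · refine (measure_union_le _ _).trans ((add_le_add hW hl).trans ?_)
          rw [← ENNReal.ofReal_add (half_pos hβ).le (half_pos hβ).le, add_halves]

/-- The probability of a block in real form. -/
theorem blockG_real (hat : ∀ x, G {x} = 0) {GS : Set Conf} (hGS : ∀ᵐ t ∂law G, t ∈ GS)
    (hpos : ∀ t ∈ GS, ∀ e, 0 ≤ t e) (hsep : SepSites GS) (P : SiteP) (k c : ℤ) (s : ℝ) (d : ℕ)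
    (r₀ η : ℝ) (q : ℕ) (hk : k = 0 ∨ k = 1) (hδ : 0 < P.δ) (hw : 0 ≤ P.w)
    (hεw : P.ε * P.L ≤ P.w) (hrr : r₀ < P.r) (hη : 0 < η) (hη1 : η ≤ 1) (hq2 : 2 ≤ q)
    (hqη : q * η ≤ 1) (hbig : 1000 ≤ η * G.real (Set.Iio r₀) * P.L) (g G₀ : ℝ)
    (hg : g ≤ (P.r - r₀) * η * G.real (Set.Iio r₀) * P.L / 4) {lam : ℝ} (hlam : 0 < lam) (n : ℕ)
    {β : ℝ} (hβ : 0 < β) :
    ∀ᶠ W : ℕ in atTop, ∀ᶠ N : ℕ in atTop,
      (law G).real {t | n ≤ {y : ℤ | 0 ≤ y ∧ y < (d : ℤ) ∧
          t ∈ siteEvent2 { P with N := N } k c s y}.ncard} / 2 ≤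
        lam * (law G).real
          (blockEvent2G { P with N := N } ⟨d, W, G₀, g⟩ GS k c s 0 ((n + 1) / 2)) +
          (1 + (q : ℝ) ^ 2 * η ^ 2) ^ regCard P.L d P.w / lam ^ (q - 1) + β := by
  classical
  haveI : IsProbabilityMeasure (law G) := by unfold law; infer_instance
  obtain ⟨S, hS, hcard⟩ := exists_regSet2 (k := k) (c := c) (s := s) (h := 0) (d := d) (P := P) hw
  obtain ⟨N₁, hN₁⟩ := exists_nat_ge (2 * (|s| + P.ε + 1) *
    ((P.Lam : ℝ) + P.R' + |(c : ℝ)| + 2) + 2 * (d : ℝ) + 2 * P.w + 4)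
  have hk1 : |k| ≤ 1 := by rcases hk with rfl | rfl <;> simp
  refine (block2G_prob hat hGS hpos hsep hδ hk1 hN₁ (G₀ := G₀) hεw hrr hη.le hη1 hS (by linarith)
    hg (q := q) (by omega) hqη hlam n hβ).mono fun W hW => ?_
  filter_upwards [eventually_ge_atTop N₁] with N hN
  have h := hW N hN
  have hset : {t | n ≤ {y : ℤ | 0 ≤ y ∧ y < (d : ℤ) ∧
      t ∈ siteEvent2 { P with N := N } k c s y}.ncard} =
      {t | n ≤ ((Finset.Ico (0 : ℤ) d).filter fun y =>
        t ∈ siteEvent2 { P with N := N } k c s y).card} := by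
    ext t
    simp only [Set.mem_ofPred_eq]
    rw [← Set.ncard_coe_finset]
    simp [and_assoc]
  rw [hset]
  set E := (1 + (q : ℝ) ^ 2 * η ^ 2) ^ S.card / lam ^ (q - 1) with hE
  have hE0 : 0 ≤ E := by rw [hE]; positivity
  have hfin : ENNReal.ofReal lam * law G
      (blockEvent2G { P with N := N } ⟨d, W, G₀, g⟩ GS k c s 0 ((n + 1) / 2)) +
      ENNReal.ofReal E + ENNReal.ofReal β ≠ ⊤ := by
    simp [ENNReal.mul_eq_top, measure_ne_top]
  have h' := ENNReal.toReal_mono hfin h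
  rw [ENNReal.toReal_mul, ENNReal.toReal_add (by simp [ENNReal.mul_eq_top, measure_ne_top])
    ENNReal.ofReal_ne_top, ENNReal.toReal_add (by simp [ENNReal.mul_eq_top, measure_ne_top])
    ENNReal.ofReal_ne_top, ENNReal.toReal_mul, ENNReal.toReal_ofReal (by norm_num),
    ENNReal.toReal_ofReal hlam.le, ENNReal.toReal_ofReal hE0, ENNReal.toReal_ofReal hβ.le] at h'
  have hEle : E ≤ (1 + (q : ℝ) ^ 2 * η ^ 2) ^ regCard P.L d P.w / lam ^ (q - 1) := by
    rw [hE]
    refine div_le_div_of_nonneg_right (pow_le_pow_right₀ ?_ ?_) (by positivity)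
    · have : 0 ≤ (q : ℝ) ^ 2 * η ^ 2 := by positivity
      linarith
    · have hc : (S.card : ℝ) ≤ (regCard P.L d P.w : ℝ) := by
        refine hcard.trans ?_
        rw [regCard]; push_cast
        have := Nat.le_ceil (4 * P.w)
        gcongr
      exact_mod_cast hc
  show (law G _).toReal / 2 ≤ lam * (law G _).toReal + _ + β
  linarith

end Vale.Agent.P158.Gen
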