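import Vale.Agent.P158.Gen.ShapeCore

/-!
The time constant of the shielded passage times: subadditivity, symmetries and positivity.
-/

open MeasureTheory Filter Topology
open scoped ENNReal

namespace Vale.Agent.P158.Gen.ShapeAux

open Vale.Agent.P158 Vale.Agent.P158.Gen

variable {m κ AY : ℝ} {G : Measure ℝ}

lemma law_prob (hG : LawGen G) : IsProbabilityMeasure (law G) := by
  have := hG.prob; unfold law; infer_instance

lemma ae_nonneg (hG : LawGen G) : ∀ᵐ t ∂law G, ∀ e, 0 ≤ t e := by
  have := hG.prob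
  have := law_prob hG
  rw [ae_all_iff]
  intro e
  have hmap : (law G).map (fun t => t e) = G := Measure.infinitePi_map_eval _ e
  have h1 : ∀ᵐ u ∂G, u ∈ Set.Ici (0 : ℝ) :=
    (mem_ae_iff_prob_eq_one₀ measurableSet_Ici.nullMeasurableSet).2 hG.supp
  rw [← hmap] at h1
  exact ae_of_ae_map (measurable_pi_apply e).aemeasurable h1

lemma capTo_le_self (Y x : ℝ) : capTo Y x ≤ x := by
  unfold capTo; split_ifs with h
  · exact le_rfl
  · have : (x - Y) / (1 + (x - Y)) ≤ x - Y := div_le_self (by linarith) (by linarith)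
    linarith

lemma capTo_le_add_one (Y x : ℝ) : capTo Y x ≤ Y + 1 := by
  unfold capTo; split_ifs with h
  · linarith
  · have : (x - Y) / (1 + (x - Y)) ≤ 1 := by rw [div_le_one (by linarith)]; linarith
    linarith

lemma capTo_nonneg {Y x : ℝ} (hY : 0 ≤ Y) (hx : 0 ≤ x) : 0 ≤ capTo Y x := by
  unfold capTo; split_ifs with h
  · exact hx
  · have : 0 ≤ (x - Y) / (1 + (x - Y)) := div_nonneg (by linarith) (by linarith)
    linarith

lemma capTo_mono_level {Y Y' : ℝ} (h : Y ≤ Y') (x : ℝ) : capTo Y x ≤ capTo Y' x := by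
  unfold capTo
  split_ifs with h1 h2 h2
  · exact le_rfl
  · linarith
  · have : (x - Y) / (1 + (x - Y)) ≤ x - Y := div_le_self (by linarith) (by linarith)
    linarith
  · have hu : 0 < 1 + (x - Y) := by linarith
    have hv : 0 < 1 + (x - Y') := by linarith
    have e : (x - Y) / (1 + (x - Y)) - (x - Y') / (1 + (x - Y'))
        = (Y' - Y) / ((1 + (x - Y)) * (1 + (x - Y'))) := by field_simp; ring
    have : (Y' - Y) / ((1 + (x - Y)) * (1 + (x - Y'))) ≤ Y' - Y :=
      div_le_self (by linarith) (one_le_mul_of_one_le_of_one_le (by linarith) (by linarith))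
    linarith

lemma capTo_strictMono (Y : ℝ) : StrictMono (capTo Y) := by
  intro a b hab
  unfold capTo
  split_ifs with h1 h2 h2
  · exact hab
  · have : 0 < (b - Y) / (1 + (b - Y)) := div_pos (by linarith) (by linarith)
    linarith
  · linarith
  · have hu : 0 < 1 + (a - Y) := by linarith
    have hv : 0 < 1 + (b - Y) := by linarith
    rw [add_lt_add_iff_left, div_lt_div_iff₀ hu hv]
    linarith

lemma measurable_capTo (Y : ℝ) : Measurable (capTo Y) := (capTo_strictMono Y).monotone.measurable

/-- The configuration with all weights capped at one level. -/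
noncomputable def capC (Y : ℝ) (t : Conf) : Conf := fun e => capTo Y (t e)

lemma measurable_capC (Y : ℝ) : Measurable (capC Y) :=
  measurable_pi_iff.2 fun e => (measurable_capTo Y).comp (measurable_pi_apply e)

lemma map_capC (hG : LawGen G) (Y : ℝ) : (law G).map (capC Y) = law (G.map (capTo Y)) := by
  have := hG.prob
  exact Measure.infinitePi_map_pi _ fun _ => measurable_capTo Y

lemma lawOK_cap (hG : LawGen G) {Y : ℝ} (hY : 0 ≤ Y) : LawOK (G.map (capTo Y)) (Y + 1) := by
  have := hG.prob
  have hm := measurable_capTo Y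
  refine ⟨Measure.isProbabilityMeasure_map hm.aemeasurable, fun x => ?_, ?_⟩
  · rw [Measure.map_apply hm (measurableSet_singleton x)]
    have hsub : (capTo Y ⁻¹' {x}).Subsingleton :=
      fun a ha b hb => (capTo_strictMono Y).injective (ha.trans hb.symm)
    rcases hsub.eq_empty_or_singleton with h | ⟨a, h⟩ <;> simp [h, hG.noAtoms]
  · rw [Measure.map_apply hm measurableSet_Icc]
    refine le_antisymm prob_le_one (hG.supp.ge.trans (measure_mono fun x hx => ?_))
    exact ⟨capTo_nonneg hY hx, capTo_le_add_one Y x⟩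

lemma plen_le_plen {t t' : Conf} (h : ∀ e, t e ≤ t' e) {x y : V} (p : grid.Walk x y) :
    plen t p ≤ plen t' p :=
  List.sum_le_sum fun _ _ => h _

lemma T_le_T {t t' : Conf} (h0 : ∀ e, 0 ≤ t e) (h : ∀ e, t e ≤ t' e) (x y : V) :
    T t x y ≤ T t' x y :=
  le_T fun p => (T_le h0 p).trans (plen_le_plen h p)

section shield

set_option linter.unusedSectionVars false

variable (hm : 0 < m) (hS : ShieldFacts m)
include hm hS

lemma shield_nonneg {t : Conf} (h : ∀ e, 0 ≤ t e) (e : Edge) : 0 ≤ shield m t e :=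
  (capTo_nonneg hm.le (h e)).trans (hS.cap_low _ t e)

lemma T_shield_le {t : Conf} (h : ∀ e, 0 ≤ t e) (x y : V) : T (shield m t) x y ≤ T t x y :=
  T_le_T (shield_nonneg hm hS h) (hS.le _ t) x y

lemma T_shield_shift (v : V) (t : Conf) (x y : V) :
    T (shield m (shift v t)) x y = T (shield m t) (x + v) (y + v) := by
  rw [hS.act_shift, T_shift]

variable (hG : LawGen G) (hL : ShieldLaw m G κ AY)
include hG hL

lemma measurable_T0 (x y : V) : Measurable fun t => T (shield m t) x y :=
  (measurable_T' x y).comp hL.meas_shield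

lemma shield_le_capY : ∀ᵐ t ∂law G, ∀ e,
    0 ≤ shield m t e ∧ shield m t e ≤ capY m t e + 1 := by
  filter_upwards [hL.tame, ae_nonneg hG] with t ht h0 e
  exact ⟨shield_nonneg hm hS h0 e, hS.le_capY _ t e (Set.mem_univ e) (ht.fin e)⟩

lemma integrable_shield (e : Edge) : Integrable (fun t => shield m t e) (law G) := by
  have := law_prob hG
  refine Integrable.mono' ((hL.int_capY e).add (integrable_const 1))
    ((measurable_pi_apply e).comp hL.meas_shield).aestronglyMeasurable ?_
  filter_upwards [shield_le_capY hm hS hG hL] with t ht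
  rw [Real.norm_eq_abs, abs_of_nonneg (ht e).1]
  exact (ht e).2

lemma mean_shield_le (e : Edge) : ∫ t, shield m t e ∂law G ≤ AY + 1 := by
  have := law_prob hG
  calc ∫ t, shield m t e ∂law G ≤ ∫ t, capY m t e + 1 ∂law G :=
        integral_mono_ae (integrable_shield hm hS hG hL e) ((hL.int_capY e).add (integrable_const 1))
          ((shield_le_capY hm hS hG hL).mono fun t ht => (ht e).2)
    _ = ∫ t, capY m t e ∂law G + 1 := by
        rw [integral_add (hL.int_capY e) (integrable_const 1)]; simp
    _ ≤ AY + 1 := by linarith [hL.mean_capY e]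

lemma T0_le_sum {x y : V} (p : grid.Walk x y) :
    ∀ᵐ t ∂law G, T (shield m t) x y ≤ ((edgeList p).map (shield m t)).sum := by
  filter_upwards [ae_nonneg hG] with t h0
  rw [← plen_eq_edgeSum]
  exact T_le (shield_nonneg hm hS h0) p

lemma integrable_edgeSum (l : List Edge) :
    Integrable (fun t => (l.map (shield m t)).sum) (law G) ∧
      ∫ t, (l.map (shield m t)).sum ∂law G ≤ (AY + 1) * l.length := by
  have := law_prob hG
  induction l with
  | nil => simp
  | cons e l ih =>
    have he := integrable_shield hm hS hG hL e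
    refine ⟨by simp only [List.map_cons, List.sum_cons]; exact he.add ih.1, ?_⟩
    simp only [List.map_cons, List.sum_cons, List.length_cons, Nat.cast_add, Nat.cast_one]
    rw [integral_add he ih.1]
    have := mean_shield_le hm hS hG hL e
    linarith [ih.2]

lemma integrable_T0 (x y : V) : Integrable (fun t => T (shield m t) x y) (law G) := by
  obtain ⟨p, -⟩ := exists_walk_l1 x y
  refine Integrable.mono' (integrable_edgeSum hm hS hG hL (edgeList p)).1
    (measurable_T0 hm hS hG hL x y).aestronglyMeasurable ?_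
  filter_upwards [T0_le_sum hm hS hG hL p, ae_nonneg hG] with t ht h0
  rw [Real.norm_eq_abs, abs_of_nonneg (T_nonneg (shield_nonneg hm hS h0) x y)]
  exact ht

lemma mean_T0 (x y : V) : ∫ t, T (shield m t) x y ∂law G = muT0 m G (y - x) := by
  have := hG.prob
  have h := measurePreserving_shift (G := G) x
  calc ∫ t, T (shield m t) x y ∂law G = ∫ t, T (shield m (shift x t)) 0 (y - x) ∂law G := by
        simp only [T_shield_shift hm hS, zero_add, sub_add_cancel]
    _ = ∫ s, T (shield m s) 0 (y - x) ∂(law G).map (shift x) :=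
        (integral_map h.measurable.aemeasurable
          (measurable_T0 hm hS hG hL _ _).aestronglyMeasurable).symm
    _ = muT0 m G (y - x) := by rw [h.map_eq]; rfl

theorem muT0_subadd : Subadd (muT0 m G) (AY + 1) := by
  have := law_prob hG
  refine ⟨fun z => integral_nonneg_of_ae ((ae_nonneg hG).mono fun t ht =>
    T_nonneg (shield_nonneg hm hS ht) 0 z), fun z => ?_, fun x y => ?_, fun z => ?_⟩
  · obtain ⟨p, hp⟩ := exists_walk_l1 (0 : V) z
    refine (integral_mono_ae (integrable_T0 hm hS hG hL 0 z)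
      (integrable_edgeSum hm hS hG hL (edgeList p)).1 (T0_le_sum hm hS hG hL p)).trans
      ((integrable_edgeSum hm hS hG hL (edgeList p)).2.trans (le_of_eq ?_))
    rw [length_edgeList, r1_toR, ← Int.cast_natCast, hp]
    simp
  · have h : muT0 m G y = ∫ t, T (shield m t) x (x + y) ∂law G := by
      rw [mean_T0 hm hS hG hL]; simp
    rw [h, muT0, muT0, ← integral_add (integrable_T0 hm hS hG hL _ _)
      (integrable_T0 hm hS hG hL _ _)]
    exact integral_mono_ae (integrable_T0 hm hS hG hL _ _)
      ((integrable_T0 hm hS hG hL _ _).add (integrable_T0 hm hS hG hL _ _))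
      ((ae_nonneg hG).mono fun t ht => T_triangle (shield_nonneg hm hS ht) 0 x (x + y))
  · calc muT0 m G (-z) = ∫ t, T (shield m t) z 0 ∂law G := by rw [mean_T0 hm hS hG hL]; simp
      _ = muT0 m G z := by simp only [muT0, T_comm _ z 0]

lemma muT0_act (σ : LatSym) (hσ : ∀ t, shield m (σ.act t) = σ.act (shield m t))
    (h0 : σ.vmap 0 = 0) (z : V) : muT0 m G (σ.vmap z) = muT0 m G z := by
  have := hG.prob
  have h := σ.measurePreserving_act (G := G)
  symm
  calc muT0 m G z = ∫ s, T (shield m s) 0 z ∂(law G).map σ.act := by rw [h.map_eq]; rfl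
    _ = ∫ t, T (shield m (σ.act t)) 0 z ∂law G :=
        integral_map h.measurable.aemeasurable (measurable_T0 hm hS hG hL 0 z).aestronglyMeasurable
    _ = muT0 m G (σ.vmap z) := by simp only [hσ, σ.T_act, h0, muT0]

lemma muG_eq_of_muT0 {φ : ℝ × ℝ → ℝ × ℝ} {ψ : V → V} {p : ℝ × ℝ}
    (hψ : ∀ z, muT0 m G (ψ z) = muT0 m G z)
    (hclose : ∀ n : ℕ, r1 (toR (flr n (φ p)) - toR (ψ (flr n p))) ≤ 4) :
    muG m G (φ p) = muG m G p := by
  have hf := muT0_subadd hm hS hG hL
  refine tendsto_nhds_unique (hf.tendsto_norm (φ p)) ?_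
  have hdiff : Tendsto (fun n : ℕ => muT0 m G (flr n (φ p)) / n - muT0 m G (flr n p) / n)
      atTop (𝓝 0) := by
    refine squeeze_zero_norm' ?_ (tendsto_const_div_atTop_nhds_zero_nat (4 * (AY + 1)))
    refine Eventually.of_forall fun n => ?_
    rw [← hψ (flr n p), div_sub_div_same, Real.norm_eq_abs, abs_div, Nat.abs_cast]
    refine div_le_div_of_nonneg_right ((hf.lip _ _).trans ?_) (Nat.cast_nonneg n)
    rw [mul_comm 4]
    exact mul_le_mul_of_nonneg_left (hclose n) hf.M_nonneg
  simpa [muG] using hdiff.add (hf.tendsto_norm p)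

lemma muG_rot (a b : ℝ) : muG m G (-b, a) = muG m G (a, b) := by
  have h1 : ∀ p : ℝ × ℝ, muG m G (p.2, p.1) = muG m G p := fun p =>
    muG_eq_of_muT0 hm hS hG hL (φ := fun q => (q.2, q.1)) (ψ := fun z => (z.2, z.1))
      (fun z => by simpa using muT0_act hm hS hG hL swapSym hS.act_swap (by simp) z)
      (fun n => by simp [flr, toR, r1])
  have h2 : ∀ p : ℝ × ℝ, muG m G (p.1, -p.2) = muG m G p := fun p =>
    muG_eq_of_muT0 hm hS hG hL (φ := fun q => (q.1, -q.2)) (ψ := fun z => (z.1, -z.2))
      (fun z => by simpa using muT0_act hm hS hG hL flipSym hS.act_flip (by simp) z)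
      (fun n => by
        have h1 := Int.floor_le ((n : ℝ) * p.2)
        have h2 := Int.lt_floor_add_one ((n : ℝ) * p.2)
        have h3 := Int.floor_le ((n : ℝ) * -p.2)
        have h4 := Int.lt_floor_add_one ((n : ℝ) * -p.2)
        simp only [flr, toR, r1, Prod.fst_sub, Prod.snd_sub, sub_self, abs_zero, zero_add,
          Int.cast_neg, sub_neg_eq_add]
        rw [abs_le]; constructor <;> linarith)
  have h3 := (muT0_subadd hm hS hG hL).norm_neg (b, -a)
  rw [show (-b, a) = -((b, -a) : ℝ × ℝ) by simp]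
  exact h3.trans ((h2 (b, a)).trans (h1 (a, b)))

/-- The time constant is positive. -/
theorem exists_lowerR : ∃ κ₁ : ℝ, 0 < κ₁ ∧ ∀ p, κ₁ * r1 p ≤ muG m G p := by
  have hok := lawOK_cap hG hm.le
  obtain ⟨κ₁, hκ₁⟩ := exists_shortBound hok
  have := law_prob hG
  have := hok.prob
  have := law_isProb hok
  refine ⟨κ₁, hκ₁.1, fun p => (mu_lower hok hκ₁ p).trans ?_⟩
  refine le_of_tendsto_of_tendsto' ((muT_subadd hok).tendsto_norm p)
    ((muT0_subadd hm hS hG hL).tendsto_norm p) fun n => ?_
  refine div_le_div_of_nonneg_right ?_ (Nat.cast_nonneg n)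
  rw [muT, muT0, ← map_capC hG, integral_map (measurable_capC m).aemeasurable
    (measurable_T' _ _).aestronglyMeasurable]
  refine integral_mono_ae ?_ (integrable_T0 hm hS hG hL _ _) ((ae_nonneg hG).mono fun t ht =>
    T_le_T (fun e => capTo_nonneg hm.le (ht e)) (hS.cap_low _ t) _ _)
  have h2 := integrable_T hok 0 (flr n p)
  rw [← map_capC hG] at h2
  exact h2.comp_measurable (measurable_capC m)

end shield

end Vale.Agent.P158.Gen.ShapeAux
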