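import Vale.Agent.P158.Gen.ShapeConv

/-!
Convergence of the shielded passage times uniformly over the pairs of vertices of a box.
-/

open MeasureTheory Filter Topology
open scoped ENNReal

namespace Vale.Agent.P158.Gen.ShapeAux

open Vale.Agent.P158 Vale.Agent.P158.Gen

variable {m κ κ₂ AY A : ℝ} {G : Measure ℝ}

lemma tendsto_Lc_sq : Tendsto (fun n : ℕ => (Lc n : ℝ) ^ 2 / n) atTop (𝓝 0) := by
  refine squeeze_zero' (Eventually.of_forall fun n => by positivity) ?_
    (tendsto_scale 1 2 (Or.inl rfl))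
  refine Eventually.of_forall fun n => ?_
  rw [one_mul]
  exact div_le_div_of_nonneg_right
    (pow_le_pow_left₀ (Nat.cast_nonneg _) (by linarith) 2) (Nat.cast_nonneg n)

/-- The points of the mesh of width `1 / K`. -/
noncomputable def node (K : ℕ) (i : V) : ℝ × ℝ := ((i.1 : ℝ) / K, (i.2 : ℝ) / K)

lemma exists_node {C K n : ℕ} (hK : 1 ≤ K) (hn : 1 ≤ n) {z : V} (hz : InBox (C * n) z) :
    ∃ i ∈ (Finset.Icc (-((C * K : ℕ) : ℤ) - 1) (C * K : ℕ) ×ˢ
      Finset.Icc (-((C * K : ℕ) : ℤ) - 1) (C * K : ℕ)),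
      r1 (toR z - (n : ℝ) • node K i) ≤ 2 * n / K ∧
        r1 (toR z - toR (flr n (node K i))) ≤ 2 * n / K + 2 ∧
        InSq (((C + 2) * n : ℕ) : ℤ) (flr n (node K i)) := by
  have hn' : (0 : ℝ) < n := by exact_mod_cast hn
  have hK' : (0 : ℝ) < K := by exact_mod_cast hK
  set w : ℝ × ℝ := ((z.1 : ℝ) / n, (z.2 : ℝ) / n) with hw
  have hwz : toR z = (n : ℝ) • w := by
    refine Prod.ext ?_ ?_ <;>
      simp only [toR, w, Prod.smul_fst, Prod.smul_snd, smul_eq_mul] <;>
      rw [mul_div_cancel₀ _ hn'.ne']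
  have hbd : ∀ u : ℤ, |u| ≤ ((C * n : ℕ) : ℤ) →
      ⌊(K : ℝ) * ((u : ℝ) / n)⌋ ∈ Finset.Icc (-((C * K : ℕ) : ℤ) - 1) (C * K : ℕ) := by
    intro u hu
    have hu' : |(u : ℝ)| ≤ (C : ℝ) * n := by exact_mod_cast hu
    have h1 : |(K : ℝ) * ((u : ℝ) / n)| ≤ (C : ℝ) * K := by
      rw [abs_mul, abs_div, Nat.abs_cast, Nat.abs_cast, ← mul_div_assoc, div_le_iff₀ hn']
      have := mul_le_mul_of_nonneg_left hu' hK'.le
      linarith
    obtain ⟨a1, a2⟩ := abs_le.1 h1
    rw [Finset.mem_Icc]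
    refine ⟨Int.le_floor.2 ?_, ?_⟩
    · push_cast; linarith
    · rw [← Int.cast_le (R := ℝ)]; push_cast
      exact (Int.floor_le _).trans a2
  have hi : flr K w ∈ (Finset.Icc (-((C * K : ℕ) : ℤ) - 1) (C * K : ℕ) ×ˢ
      Finset.Icc (-((C * K : ℕ) : ℤ) - 1) (C * K : ℕ)) :=
    Finset.mem_product.2 ⟨hbd _ hz.1, hbd _ hz.2⟩
  refine ⟨flr K w, hi, ?_⟩
  have h2 : r1 (toR z - (n : ℝ) • node K (flr K w)) ≤ 2 * n / K := by
    rw [hwz, ← smul_sub, r1_smul, Nat.abs_cast, show w - node K (flr K w) =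
      -((1 / (K : ℝ)) • (toR (flr K w) - (K : ℝ) • w)) by
        refine Prod.ext ?_ ?_ <;>
          simp only [node, toR, Prod.fst_sub, Prod.snd_sub, Prod.fst_neg, Prod.snd_neg,
            Prod.smul_fst, Prod.smul_snd, smul_eq_mul] <;> field_simp <;> ring,
      r1_neg, r1_smul, abs_of_pos (by positivity : (0 : ℝ) < 1 / K)]
    refine (mul_le_mul_of_nonneg_left (mul_le_mul_of_nonneg_left (flr_close _ w)
      (by positivity)) hn'.le).trans (le_of_eq ?_)
    ring
  refine ⟨h2, ?_, ?_⟩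
  · rw [show toR z - toR (flr (n : ℕ) (node K (flr K w))) =
      (toR z - (n : ℝ) • node K (flr K w)) +
        -(toR (flr (n : ℕ) (node K (flr K w))) - (n : ℝ) • node K (flr K w)) by abel]
    refine (r1_add _ _).trans (add_le_add h2 ?_)
    rw [r1_neg]; exact flr_close _ _
  · have key : ∀ j : ℤ, j ∈ Finset.Icc (-((C * K : ℕ) : ℤ) - 1) (C * K : ℕ) →
        -(((C + 2) * n : ℕ) : ℤ) ≤ ⌊(n : ℝ) * ((j : ℝ) / K)⌋ ∧
          ⌊(n : ℝ) * ((j : ℝ) / K)⌋ ≤ (((C + 2) * n : ℕ) : ℤ) := by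
      intro j hj
      rw [Finset.mem_Icc] at hj
      have h1 : -((C : ℝ) * K) - 1 ≤ (j : ℝ) := by exact_mod_cast hj.1
      have h3 : (j : ℝ) ≤ (C : ℝ) * K := by exact_mod_cast hj.2
      have hK1 : (1 : ℝ) ≤ K := by exact_mod_cast hK
      have e1 : (j : ℝ) / K ≤ C := by rw [div_le_iff₀ hK']; exact h3
      have e2 : -((C : ℝ) + 2) ≤ (j : ℝ) / K := by rw [le_div_iff₀ hK']; nlinarith
      refine ⟨Int.le_floor.2 ?_, ?_⟩
      · push_cast
        nlinarith [mul_le_mul_of_nonneg_left e2 hn'.le]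
      · rw [← Int.cast_le (R := ℝ)]; push_cast
        refine (Int.floor_le _).trans ?_
        nlinarith [mul_le_mul_of_nonneg_left e1 hn'.le]
    have a := key _ (Finset.mem_product.1 hi).1
    have b := key _ (Finset.mem_product.1 hi).2
    exact ⟨a.1, a.2, b.1, b.2⟩

section box

variable (hm : 0 < m) (hS : ShieldFacts m) (hG : LawGen G) (hL : ShieldLaw m G κ AY)
variable (hB : BoxProp m G κ₂ A)
include hm hS hG hL hB

/-- Convergence in probability, uniformly over the pairs of vertices of a box. -/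
theorem shape_box0 (C : ℕ) (ε : ℝ) (hε : 0 < ε) :
    Tendsto (fun n : ℕ => law G {t | ∃ x y : V, InBox (C * n) x ∧ InBox (C * n) y ∧
      ε * n < |T (shield m t) x y - muG m G (toR y - toR x)|}) atTop (𝓝 0) := by
  have hA := hB.2.1
  have hf := muT0_subadd hm hS hG hL
  set M := max A (AY + 1) with hM_def
  have hM : 0 ≤ M := hA.le.trans (le_max_left _ _)
  obtain ⟨K, hK⟩ := exists_nat_gt (32 * (M + 1) / ε)
  have hK' : (0 : ℝ) < K := lt_trans (by positivity) hK
  have hK1 : 1 ≤ K := by exact_mod_cast hK'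
  set net : Finset (V × V) :=
    (Finset.Icc (-((C * K : ℕ) : ℤ) - 1) (C * K : ℕ) ×ˢ
        Finset.Icc (-((C * K : ℕ) : ℤ) - 1) (C * K : ℕ)) ×ˢ
      (Finset.Icc (-((C * K : ℕ) : ℤ) - 1) (C * K : ℕ) ×ˢ
        Finset.Icc (-((C * K : ℕ) : ℤ) - 1) (C * K : ℕ)) with hnet
  set S : V × V → ℕ → Set Conf := fun ij n => {t | ε / 4 * n <
    |T (shield m t) (flr n (node K ij.1)) (flr n (node K ij.2)) -
      n * muG m G (node K ij.2 - node K ij.1)|} with hS_def
  set Bad : ℕ → Set Conf := fun n => {t | ¬ BoxOK m κ₂ A ((C + 2) * n) (Lc n) t} with hBad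
  have hsum : Tendsto (fun n => ∑ ij ∈ net, law G (S ij n) + law G (Bad n)) atTop (𝓝 0) := by
    have h1 := tendsto_finsetSum net fun ij _ =>
      shape_pair0 hm hS hG hL hB (node K ij.1) (node K ij.2) (show 0 < ε / 4 by linarith)
    rw [Finset.sum_const_zero] at h1
    simpa using h1.add (hB.2.2 (C + 2))
  refine tendsto_of_tendsto_of_tendsto_of_le_of_le' tendsto_const_nhds hsum
    (Eventually.of_forall fun n => bot_le) ?_
  filter_upwards [eventually_ge_atTop 1,
    (tendsto_const_div_atTop_nhds_zero_nat (4 * M)).eventually_le_const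
      (show (0 : ℝ) < ε / 8 by linarith),
    (tendsto_Lc_sq.const_mul (2 * M)).eventually_le_const
      (show 2 * M * 0 < ε / 8 by linarith)] with n hn hn1 hn2
  have hn' : (0 : ℝ) < n := by exact_mod_cast hn
  rw [div_le_iff₀ hn'] at hn1
  rw [← mul_div_assoc, div_le_iff₀ hn'] at hn2
  refine (measure_mono (t := (⋃ ij ∈ net, S ij n) ∪ Bad n) ?_).trans
    ((measure_union_le _ _).trans (add_le_add (measure_biUnion_finset_le _ _) le_rfl))
  rintro t ⟨x, y, hx, hy, hxy⟩
  by_cases ht : BoxOK m κ₂ A ((C + 2) * n) (Lc n) t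
  swap
  · exact Or.inr ht
  refine Or.inl ?_
  obtain ⟨i, hi, i1, i2, i3⟩ := exists_node hK1 hn hx
  obtain ⟨j, hj, j1, j2, j3⟩ := exists_node hK1 hn hy
  simp only [Set.mem_iUnion]
  refine ⟨(i, j), Finset.mem_product.2 ⟨hi, hj⟩, ?_⟩
  simp only [S, Set.mem_ofPred_eq] at hxy ⊢
  have hin : ∀ z : V, InBox (C * n) z → InSq (((C + 2) * n : ℕ) : ℤ) z := fun z hz => by
    have h1 := abs_le.1 hz.1
    have h2 := abs_le.1 hz.2
    have : C * n ≤ (C + 2) * n := Nat.mul_le_mul_right n (by omega)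
    unfold InSq; omega
  have ht0 := shield_nonneg hm hS ht.nonneg
  have e1 := ht.dist x (flr n (node K i)) (hin x hx) i3
  have e2 := ht.dist y (flr n (node K j)) (hin y hy) j3
  rw [dist1_eq] at e1 e2
  have a1 : |T (shield m t) x y - T (shield m t) (flr n (node K i)) (flr n (node K j))| ≤
      M * (2 * n / K + 2 + (Lc n : ℝ) ^ 2) + M * (2 * n / K + 2 + (Lc n : ℝ) ^ 2) := by
    have f1 : T (shield m t) x (flr n (node K i)) ≤ M * (2 * n / K + 2 + (Lc n : ℝ) ^ 2) :=
      e1.trans (mul_le_mul (le_max_left _ _) (by linarith)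
        (add_nonneg (r1_nonneg _) (sq_nonneg _)) hM)
    have f2 : T (shield m t) y (flr n (node K j)) ≤ M * (2 * n / K + 2 + (Lc n : ℝ) ^ 2) :=
      e2.trans (mul_le_mul (le_max_left _ _) (by linarith)
        (add_nonneg (r1_nonneg _) (sq_nonneg _)) hM)
    set a := flr n (node K i)
    set b := flr n (node K j)
    have g1 := T_triangle ht0 x a y
    have g2 := T_triangle ht0 a b y
    have g3 := T_triangle ht0 a x b
    have g4 := T_triangle ht0 x y b
    rw [T_comm (shield m t) b y] at g2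
    rw [T_comm (shield m t) a x] at g3
    rw [abs_le]; constructor <;> linarith
  have a2 := hf.norm_lip (toR y - toR x) ((n : ℝ) • (node K j - node K i))
  rw [hf.norm_smul_nonneg hn'.le] at a2
  have a3 : r1 (toR y - toR x - (n : ℝ) • (node K j - node K i)) ≤ 2 * n / K + 2 * n / K := by
    rw [show toR y - toR x - (n : ℝ) • (node K j - node K i) = (toR y - (n : ℝ) • node K j) +
      -(toR x - (n : ℝ) • node K i) by rw [smul_sub]; abel]
    exact (r1_add _ _).trans (add_le_add j1 (by rw [r1_neg]; exact i1))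
  have a4 : M * (2 * n / K) ≤ ε / 16 * n := by
    rw [← mul_div_assoc, div_le_iff₀ hK']
    rw [div_lt_iff₀ hε] at hK
    nlinarith
  have b2 : |muG m G (toR y - toR x) - n * muG m G (node K j - node K i)| ≤
      M * (2 * n / K + 2 * n / K) :=
    a2.trans ((mul_le_mul_of_nonneg_left a3 hf.M_nonneg).trans
      (mul_le_mul_of_nonneg_right (le_max_right _ _) (by positivity)))
  have c1 := abs_sub_le (T (shield m t) x y)
    (T (shield m t) (flr n (node K i)) (flr n (node K j))) (n * muG m G (node K j - node K i))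
  have c2 := abs_sub_le (T (shield m t) x y) (n * muG m G (node K j - node K i))
    (muG m G (toR y - toR x))
  rw [abs_sub_comm (n * muG m G (node K j - node K i))] at c2
  linarith

end box

end Vale.Agent.P158.Gen.ShapeAux
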