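import Vale.Agent.P158.Gen.ShapePair

/-!
Convergence in probability of the shielded passage time along one pair of directions.
-/

open MeasureTheory Filter Topology
open scoped ENNReal

namespace Vale.Agent.P158.Gen.ShapeAux

open Vale.Agent.P158 Vale.Agent.P158.Gen

variable {m κ κ₂ AY A : ℝ} {G : Measure ℝ}

lemma tendsto_Lc : Tendsto Lc atTop atTop := by
  refine tendsto_atTop_atTop.2 fun b => ⟨b ^ 4, fun n hn => ?_⟩
  have h1 : b * b ≤ Nat.sqrt n := Nat.le_sqrt.2 (le_trans (le_of_eq (by ring)) hn)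
  have h2 : b ≤ Nat.sqrt (Nat.sqrt n) := Nat.le_sqrt.2 h1
  exact h2.trans (Nat.le_succ _)

lemma Lc_sq_le {n : ℕ} (hn : 1 ≤ n) : ((Lc n : ℝ) + 1) ^ 4 ≤ 81 * n := by
  unfold Lc
  set s := Nat.sqrt (Nat.sqrt n) with hs
  have h1 : s * s ≤ Nat.sqrt n := Nat.sqrt_le _
  have h2 : Nat.sqrt n * Nat.sqrt n ≤ n := Nat.sqrt_le _
  have h3 : (s * s) * (s * s) ≤ n := (Nat.mul_le_mul h1 h1).trans h2
  have h4 : 1 ≤ s := Nat.le_sqrt.2 (Nat.le_sqrt.2 (by simpa using hn))
  have h5 : ((s : ℝ) * s) * (s * s) ≤ n := by exact_mod_cast h3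
  have h6 : (1 : ℝ) ≤ s := by exact_mod_cast h4
  push_cast
  calc ((s : ℝ) + 1 + 1) ^ 4 ≤ (3 * s) ^ 4 := pow_le_pow_left₀ (by positivity) (by linarith) 4
    _ ≤ 81 * n := by
      rw [show (3 * (s : ℝ)) ^ 4 = 81 * ((s * s) * (s * s)) by ring]
      linarith

lemma scale_le {n : ℕ} (hn : 1 ≤ n) :
    ((Lc n : ℝ) + 1) ^ 2 / n ≤ 81 / (Lc n : ℝ) ∧ ((Lc n : ℝ) + 1) ^ 3 / n ≤ 81 / (Lc n : ℝ) := by
  have h := Lc_sq_le hn
  have hn' : (0 : ℝ) < n := by exact_mod_cast hn
  have hL : (1 : ℝ) ≤ Lc n := by exact_mod_cast (Nat.succ_le_succ (Nat.zero_le _))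
  have h3 : (Lc n : ℝ) * ((Lc n : ℝ) + 1) ^ 3 ≤ 81 * n := by
    refine le_trans ?_ h
    rw [show ((Lc n : ℝ) + 1) ^ 4 = ((Lc n : ℝ) + 1) * ((Lc n : ℝ) + 1) ^ 3 by ring]
    exact mul_le_mul_of_nonneg_right (by linarith) (by positivity)
  have h2 : ((Lc n : ℝ) + 1) ^ 2 ≤ ((Lc n : ℝ) + 1) ^ 3 :=
    pow_le_pow_right₀ (by linarith) (by norm_num)
  refine ⟨(div_le_div_of_nonneg_right h2 hn'.le).trans ?_, ?_⟩ <;>
    rw [div_le_div_iff₀ hn' (by linarith)] <;> linarith

lemma tendsto_scale (c : ℝ) (k : ℕ) (hk : k = 2 ∨ k = 3) :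
    Tendsto (fun n : ℕ => c * (((Lc n : ℝ) + 1) ^ k / n)) atTop (𝓝 0) := by
  rw [show (0 : ℝ) = c * 0 by simp]
  refine Tendsto.const_mul c (squeeze_zero' (Eventually.of_forall fun n => by positivity) ?_
    ((tendsto_const_div_atTop_nhds_zero_nat (81 : ℝ)).comp tendsto_Lc))
  filter_upwards [eventually_ge_atTop 1] with n hn
  rcases hk with rfl | rfl
  · exact (scale_le hn).1
  · exact (scale_le hn).2

lemma tendsto_err (hm : 0 < m) (hA : 0 ≤ A) :
    Tendsto (fun n : ℕ => err m A (Lc n) / n) atTop (𝓝 0) := by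
  refine squeeze_zero' ?_ ?_ (tendsto_scale (2 * (10 * m + 1) + 2 * (2 * A)) 2 (Or.inl rfl))
  · refine Eventually.of_forall fun n => div_nonneg ?_ (Nat.cast_nonneg n)
    unfold err lev0; positivity
  · refine Eventually.of_forall fun n => ?_
    rw [mul_div_assoc']
    refine div_le_div_of_nonneg_right ?_ (Nat.cast_nonneg n)
    unfold err lev0
    have h1 : (0 : ℝ) ≤ Lc n := Nat.cast_nonneg _
    nlinarith [mul_nonneg hm.le h1, mul_nonneg hA h1, mul_nonneg hA (mul_nonneg h1 h1),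
      mul_nonneg h1 h1]

/-- A mean differs from a constant by little if the variable does so off a set. -/
lemma integral_gap [IsProbabilityMeasure (law G)] {Z : Conf → ℝ} {B : Set Conf} {c d : ℝ}
    (hint : Integrable Z (law G)) (hBm : MeasurableSet B) (hc : 0 ≤ c) (hd : 0 ≤ d)
    (hZ : ∀ᵐ t ∂law G, 0 ≤ Z t) (hout : ∀ t ∉ B, |Z t - c| ≤ d) :
    |∫ t, Z t ∂law G - c| ≤ d + ∫ t, B.indicator Z t ∂law G + (law G).real B * c := by
  have hpt : ∀ᵐ t ∂law G, |Z t - c| ≤ d + B.indicator Z t + B.indicator (fun _ => c) t := by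
    filter_upwards [hZ] with t ht
    by_cases htB : t ∈ B
    · simp only [Set.indicator_of_mem htB]
      rw [abs_le]; constructor <;> linarith
    · simp only [Set.indicator_of_notMem htB]
      linarith [hout t htB]
  have hi1 : Integrable (fun t => d + B.indicator Z t) (law G) :=
    (integrable_const _).add (hint.indicator hBm)
  have hi2 : Integrable (B.indicator fun _ => c) (law G) := (integrable_const _).indicator hBm
  have h1 : |∫ t, (Z t - c) ∂law G| ≤ ∫ t, |Z t - c| ∂law G := abs_integral_le_integral_abs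
  rw [integral_sub hint (integrable_const _), integral_const, probReal_univ, one_smul] at h1
  refine h1.trans ((integral_mono_ae (hint.sub (integrable_const c)).abs (hi1.add hi2)
    hpt).trans ?_)
  simp only [Pi.add_apply]
  rw [integral_add hi1 hi2, integral_add (integrable_const _) (hint.indicator hBm),
    integral_indicator_const _ hBm, integral_const, probReal_univ, one_smul, smul_eq_mul]

section conv

variable (hm : 0 < m) (hS : ShieldFacts m) (hG : LawGen G) (hL : ShieldLaw m G κ AY)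
variable (hB : BoxProp m G κ₂ A)
include hm hS hG hL hB

omit hB in
lemma tendsto_mean (p q : ℝ × ℝ) :
    Tendsto (fun n : ℕ => muT0 m G (flr n q - flr n p) / n) atTop (𝓝 (muG m G (q - p))) := by
  have hf := muT0_subadd hm hS hG hL
  have h1 : Tendsto (fun n : ℕ => muT0 m G (flr n (q - p)) / n) atTop (𝓝 (muG m G (q - p))) :=
    hf.tendsto_norm _
  have h2 : Tendsto (fun n : ℕ => muT0 m G (flr n q - flr n p) / n -
      muT0 m G (flr n (q - p)) / n) atTop (𝓝 0) := by
    refine squeeze_zero_norm' ?_ (tendsto_const_div_atTop_nhds_zero_nat (6 * (AY + 1)))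
    refine Eventually.of_forall fun n => ?_
    rw [div_sub_div_same, Real.norm_eq_abs, abs_div, Nat.abs_cast]
    refine div_le_div_of_nonneg_right ((hf.lip _ _).trans ?_) (Nat.cast_nonneg n)
    rw [mul_comm 6]
    exact mul_le_mul_of_nonneg_left (r1_flr_sub n p q) hf.M_nonneg
  simpa using h2.add h1

/-- Convergence in probability along one pair of directions. -/
theorem shape_pair0 (p q : ℝ × ℝ) {ε : ℝ} (hε : 0 < ε) :
    Tendsto (fun n : ℕ => law G {t |
      ε * n < |T (shield m t) (flr n p) (flr n q) - n * muG m G (q - p)|}) atTop (𝓝 0) := by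
  have := law_prob hG
  obtain ⟨hκ, hA, hbox⟩ := hB
  obtain ⟨R, hR⟩ := exists_nat_ge (r1 p + r1 q + 2)
  obtain ⟨C, hC⟩ := exists_nat_ge ((R : ℝ) + A * (5 * R) / κ₂ + 2)
  obtain ⟨κ₁, hκ₁⟩ := exists_shortBound_cap hG hm
  set η := ε / 8 with hη_def
  have hη : 0 < η := by positivity
  set Bd : ℕ → Set Conf := fun n => {t | ¬ BoxOK m κ₂ A ((C + 1) * n) (Lc n) t} ∪
    {t | η * n ≤ |T (capC (lev0 m (Lc n)) t) (flr n p) (flr n q) -
      muT (G.map (capTo (lev0 m (Lc n)))) (flr n q - flr n p)|} ∪ {t | ¬ ∀ e, 0 ≤ t e} with hBd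
  have hm0 : m * 1 ≤ 10 * m := by linarith
  have hlev : ∀ L : ℕ, m ≤ lev0 m L := fun L => by
    unfold lev0; nlinarith [mul_nonneg hm.le (Nat.cast_nonneg (α := ℝ) L)]
  have hsize : ∀ n : ℕ, 1 ≤ n → InSq ((R * n : ℕ) : ℤ) (flr n p) ∧
      InSq ((R * n : ℕ) : ℤ) (flr n q) ∧ dist1 (flr n p) (flr n q) ≤ 2 * R * n := by
    intro n hn
    have hn' : (1 : ℝ) ≤ n := by exact_mod_cast hn
    have key : ∀ w : ℝ × ℝ, r1 (toR (flr n w)) ≤ r1 w * n + 2 := fun w => by
      have h1 := r1_add ((n : ℝ) • w) (toR (flr (n : ℝ) w) - (n : ℝ) • w)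
      rw [add_sub_cancel, r1_smul, Nat.abs_cast] at h1
      linarith [flr_close (n : ℝ) w, mul_comm (n : ℝ) (r1 w)]
    have hp2 : r1 p * n + 2 ≤ R * n := by nlinarith [r1_nonneg q]
    have hq2 : r1 q * n + 2 ≤ R * n := by nlinarith [r1_nonneg p]
    have hin : ∀ w : V, r1 (toR w) ≤ R * n → InSq ((R * n : ℕ) : ℤ) w := fun w hw => by
      have e1 : ((|w.1| + |w.2| : ℤ) : ℝ) ≤ (((R * n : ℕ) : ℤ) : ℝ) := by
        rw [← r1_toR]; push_cast; exact hw
      have e2 := Int.cast_le.1 e1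
      have a1 := abs_le.1 (show |w.1| ≤ ((R * n : ℕ) : ℤ) by linarith [abs_nonneg w.2])
      have a2 := abs_le.1 (show |w.2| ≤ ((R * n : ℕ) : ℤ) by linarith [abs_nonneg w.1])
      exact ⟨a1.1, a1.2, a2.1, a2.2⟩
    refine ⟨hin _ ((key p).trans hp2), hin _ ((key q).trans hq2), ?_⟩
    rw [dist1_eq, sub_eq_add_neg]
    refine (r1_add _ _).trans ?_
    rw [r1_neg]
    have := key p
    have := key q
    linarith
  have hlarge : ∀ᶠ n : ℕ in atTop, 1 ≤ n ∧ (Lc n : ℝ) ^ 2 ≤ R * n ∧ (Lc n : ℝ) + 2 ≤ n ∧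
      err m A (Lc n) / n ≤ η := by
    filter_upwards [eventually_ge_atTop 1, (tendsto_scale 1 2 (Or.inl rfl)).eventually_le_const
      (by norm_num : (0 : ℝ) < 1), (tendsto_scale 4 2 (Or.inl rfl)).eventually_le_const
      (by norm_num : (0 : ℝ) < 1), (tendsto_err hm hA.le).eventually_le_const hη] with n h1 h2 h3 h4
    have hn' : (0 : ℝ) < n := by exact_mod_cast h1
    rw [one_mul, div_le_one hn'] at h2
    rw [mul_div_assoc', div_le_one hn'] at h3
    have hL : (0 : ℝ) ≤ Lc n := Nat.cast_nonneg _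
    have hR1 : (1 : ℝ) ≤ R := by linarith [r1_nonneg p, r1_nonneg q]
    refine ⟨h1, ?_, by nlinarith, h4⟩
    have := mul_le_mul_of_nonneg_right hR1 hn'.le
    nlinarith
  -- the three bad events have small probability
  have hP : Tendsto (fun n => law G (Bd n)) atTop (𝓝 0) := by
    have h3 : law G {t | ¬ ∀ e, 0 ≤ t e} = 0 := ae_iff.1 (ae_nonneg hG)
    have h2 : Tendsto (fun n : ℕ => law G
        {t | η * n ≤ |T (capC (lev0 m (Lc n)) t) (flr n p) (flr n q) -
          muT (G.map (capTo (lev0 m (Lc n)))) (flr n q - flr n p)|}) atTop (𝓝 0) := by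
      set K := (10 * m + 1) ^ 2 * ((((10 * m + 1) * (2 * R) + 1) / κ₁) + 2) / η ^ 2
      have hK := ENNReal.tendsto_ofReal (tendsto_scale K 3 (Or.inr rfl))
      rw [ENNReal.ofReal_zero] at hK
      refine tendsto_of_tendsto_of_tendsto_of_le_of_le' tendsto_const_nhds hK
        (Eventually.of_forall fun n => bot_le) ?_
      filter_upwards [eventually_ge_atTop 1] with n hn
      have hn' : (1 : ℝ) ≤ n := by exact_mod_cast hn
      have hκ1 := (hκ₁ m le_rfl).1
      refine (chebyshev_cap hG (hm.le.trans (hlev _)) (hκ₁ _ (hlev _)) _ _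
        (by positivity : (0 : ℝ) < η * n)).trans (ENNReal.ofReal_le_ofReal ?_)
      have hY : lev0 m (Lc n) + 1 ≤ (10 * m + 1) * ((Lc n : ℝ) + 1) := by
        unfold lev0; nlinarith [Nat.cast_nonneg (α := ℝ) (Lc n)]
      have hY0 : 0 ≤ lev0 m (Lc n) + 1 := by linarith [hlev (Lc n)]
      have hd := (hsize n hn).2.2
      have hd0 : 0 ≤ dist1 (flr n p) (flr n q) := by unfold dist1; positivity
      set u := (Lc n : ℝ) + 1 with hu
      have hu1 : 1 ≤ u := by linarith [Nat.cast_nonneg (α := ℝ) (Lc n)]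
      have hun : (1 : ℝ) ≤ u * n := one_le_mul_of_one_le_of_one_le hu1 hn'
      calc (lev0 m (Lc n) + 1) ^ 2 * (((lev0 m (Lc n) + 1) * dist1 (flr n p) (flr n q) + 1) / κ₁
              + 2) / (η * n) ^ 2
          ≤ ((10 * m + 1) * u) ^ 2 * ((((10 * m + 1) * (2 * R) + 1) / κ₁ + 2) * (u * n)) /
              (η * n) ^ 2 := by
            gcongr
            rw [add_mul (((10 * m + 1) * (2 * R) + 1) / κ₁), div_mul_eq_mul_div]
            gcongr
            · have := mul_le_mul hY hd hd0 (by positivity)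
              nlinarith
            · nlinarith
        _ = K * (u ^ 3 / n) := by
            simp only [K]
            field_simp
    have h1 := (hbox (C + 1))
    have hsum := h1.add h2
    rw [add_zero] at hsum
    refine tendsto_of_tendsto_of_tendsto_of_le_of_le tendsto_const_nhds hsum
      (fun n => bot_le) fun n => ?_
    refine (measure_union_le _ _).trans ?_
    rw [h3, add_zero]
    exact measure_union_le _ _
  -- deterministic comparison outside the bad events
  have hgood : ∀ᶠ n : ℕ in atTop, ∀ t, t ∉ Bd n →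
      |T (shield m t) (flr n p) (flr n q) -
        muT (G.map (capTo (lev0 m (Lc n)))) (flr n q - flr n p)| ≤ 2 * η * n ∧
      T (shield m t) (flr n p) (flr n q) ≤ A * (5 * R) * n := by
    filter_upwards [hlarge] with n hn t ht
    obtain ⟨hn1, hL2, hLn, herr⟩ := hn
    simp only [Bd, Set.mem_union, Set.mem_ofPred_eq, not_or, not_not, not_le] at ht
    obtain ⟨⟨hbx, hcl⟩, -⟩ := ht
    obtain ⟨hp1, hq1, hd⟩ := hsize n hn1
    have hn' : (0 : ℝ) < n := by exact_mod_cast hn1
    rw [div_le_iff₀ hn'] at herr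
    have hC' : (R : ℝ) + 2 ≤ C := by
      have : 0 ≤ A * (5 * R) / κ₂ := by positivity
      linarith
    have hCn : R * n + 2 * n ≤ C * n := by
      have : R + 2 ≤ C := by exact_mod_cast hC'
      calc R * n + 2 * n = (R + 2) * n := by ring
        _ ≤ C * n := Nat.mul_le_mul_right n this
    have hLn' : Lc n + 2 ≤ n := by exact_mod_cast hLn
    obtain ⟨N, hN⟩ : ∃ N, (C + 1) * n = N + 1 := ⟨(C + 1) * n - 1, by
      have : 1 ≤ (C + 1) * n := by nlinarith
      omega⟩
    have hN' : (N : ℝ) = ((C : ℝ) + 1) * n - 1 := by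
      have : (((C + 1) * n : ℕ) : ℝ) = ((N + 1 : ℕ) : ℝ) := by rw [hN]
      push_cast at this; linarith
    have hNC : C * n + n = N + 1 := by rw [← hN]; ring
    rw [hN] at hbx
    have hfar : A * (dist1 (flr n p) (flr n q) + (Lc n : ℝ) ^ 2) ≤
        κ₂ * ((N : ℝ) - ((R * n : ℕ) : ℝ)) := by
      have h1 : A * (5 * R) / κ₂ ≤ (C : ℝ) - R := by linarith
      rw [div_le_iff₀ hκ] at h1
      rw [hN']
      push_cast
      have hn1' : (1 : ℝ) ≤ n := by exact_mod_cast hn1
      have h2 := mul_le_mul_of_nonneg_right h1 hn'.le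
      have h3 : A * (dist1 (flr n p) (flr n q) + (Lc n : ℝ) ^ 2) ≤ A * (3 * R * n) :=
        mul_le_mul_of_nonneg_left (by linarith) hA.le
      have h4 : 0 ≤ A * (R * n) := by positivity
      nlinarith [mul_nonneg hκ.le (sub_nonneg.2 hn1')]
    have e1 := shield_le_trunc hm hS hbx (M := R * n) (by omega) hκ.le hp1 hq1 hfar
    have e2 := trunc_le_shield hm hS hbx (M := R * n) (by omega) hA.le hp1 hq1
    have e3 := hbx.dist (flr n p) (flr n q)
      (by unfold InSq at hp1 ⊢; omega) (by unfold InSq at hq1 ⊢; omega)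
    have e4 := abs_lt.1 hcl
    refine ⟨abs_le.2 ⟨?_, ?_⟩, e3.trans ?_⟩
    · linarith
    · linarith
    · rw [mul_assoc A]
      refine mul_le_mul_of_nonneg_left ?_ hA.le
      nlinarith [Nat.cast_nonneg (α := ℝ) R]
  -- the means agree, by uniform integrability
  obtain ⟨K, hK0, hK⟩ := exists_trunc hm hS hG hL (η := η / (2 * R + 1)) (by positivity)
  set δ := min (1 / 2) (η / ((A * (5 * R) + 2 * η) + (2 * R) * K + 1)) with hδdef
  have hδ : 0 < δ := lt_min (by norm_num) (by positivity)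
  have hPsmall := hP.eventually_le_const (ENNReal.ofReal_pos.2 hδ)
  have hmean := Metric.tendsto_nhds.1 (tendsto_mean hm hS hG hL p q) η hη
  refine tendsto_of_tendsto_of_tendsto_of_le_of_le' tendsto_const_nhds hP
    (Eventually.of_forall fun n => bot_le) ?_
  filter_upwards [hgood, hPsmall, hmean, eventually_ge_atTop 1] with n hn1 hn2 hn3 hn
  have hn' : (0 : ℝ) < n := by exact_mod_cast hn
  set a := flr n p with ha
  set b := flr n q with hb
  set c := muT (G.map (capTo (lev0 m (Lc n)))) (b - a) with hc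
  set B := toMeasurable (law G) (Bd n) with hBdef
  have hBm : MeasurableSet B := measurableSet_toMeasurable _ _
  have hPB : (law G).real B ≤ δ := by
    rw [measureReal_def, measure_toMeasurable]
    exact (ENNReal.toReal_mono ENNReal.ofReal_ne_top hn2).trans (ENNReal.toReal_ofReal hδ.le).le
  obtain ⟨t₀, ht₀⟩ : ∃ t, t ∉ Bd n := by
    by_contra hcon
    push Not at hcon
    rw [show Bd n = Set.univ from Set.eq_univ_of_forall hcon, measure_univ] at hn2
    have : (1 : ℝ≥0∞) ≤ ENNReal.ofReal (1 / 2) :=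
      hn2.trans (ENNReal.ofReal_le_ofReal (min_le_left _ _))
    rw [ENNReal.one_le_ofReal] at this
    norm_num at this
  have hc1 : c ≤ (A * (5 * R) + 2 * η) * n := by
    obtain ⟨h1, h2⟩ := hn1 t₀ ht₀
    linarith [(abs_le.1 h1).1]
  have hc0 : 0 ≤ c := (muT_subadd (lawOK_cap hG (hm.le.trans (hlev _)))).nonneg _
  have hint := integrable_T0 hm hS hG hL a b
  have hEX : |muT0 m G (b - a) - c| ≤ 5 * η * n := by
    have h0 := integral_gap hint hBm hc0 (by positivity : (0 : ℝ) ≤ 2 * η * n)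
      (by filter_upwards [ae_nonneg hG] with t ht using T_nonneg (shield_nonneg hm hS ht) a b)
      fun t ht => (hn1 t fun h => ht (subset_toMeasurable _ _ h)).1
    rw [mean_T0 hm hS hG hL] at h0
    refine h0.trans ?_
    have h2 := T0_indicator_le hm hS hG hL hK hBm a b
    have h4 : dist1 a b * (K * (law G).real B + η / (2 * R + 1)) ≤
        2 * R * n * (K * δ + η / (2 * R + 1)) :=
      mul_le_mul (hsize n hn).2.2 (by nlinarith)
        (add_nonneg (mul_nonneg hK0 measureReal_nonneg) (by positivity)) (by positivity)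
    have h5 : (2 * R : ℝ) * (η / (2 * R + 1)) ≤ η := by
      rw [mul_div_assoc', div_le_iff₀ (by positivity)]; nlinarith
    have h6 : δ * ((A * (5 * R) + 2 * η) + (2 * R) * K + 1) ≤ η :=
      (le_div_iff₀ (by positivity)).1 (min_le_right _ _)
    have h7 : (law G).real B * c ≤ δ * ((A * (5 * R) + 2 * η) * n) :=
      mul_le_mul hPB hc1 hc0 hδ.le
    have h5' := mul_le_mul_of_nonneg_right h5 hn'.le
    have h6' := mul_le_mul_of_nonneg_right h6 hn'.le
    have h8 : 0 ≤ δ * n := by positivity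
    have h9 : 0 ≤ η * n := by positivity
    linarith
  rw [Real.dist_eq, show muT0 m G (b - a) / n - muG m G (q - p) =
    (muT0 m G (b - a) - n * muG m G (q - p)) / n by field_simp,
    abs_div, Nat.abs_cast, div_lt_iff₀ hn'] at hn3
  refine measure_mono fun t ht => ?_
  by_contra hcon
  obtain ⟨h1, -⟩ := hn1 t hcon
  simp only [Set.mem_ofPred_eq] at ht
  have h2 := abs_sub_le (T (shield m t) a b) c (muT0 m G (b - a))
  have h3 := abs_sub_le (T (shield m t) a b) (muT0 m G (b - a)) (n * muG m G (q - p))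
  rw [abs_sub_comm c] at h2
  rw [show ε = 8 * η by ring] at ht
  linarith

end conv

end Vale.Agent.P158.Gen.ShapeAux
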