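import Vale.Agent.P158.Gen.Spec

/-!
The shape theorem for all atomless laws without the strip statement: the interface between its
two modules.
-/

open MeasureTheory Filter Topology
open scoped ENNReal

namespace Vale.Agent.P158.Gen

open Vale.Agent.P158

/-- All properties of the shape except the one for passage times inside strips. -/
structure ShapeCore (m : ℝ) (G : Measure ℝ) (κ A : ℝ) : Prop where
  κ_pos : 0 < κ
  A_pos : 0 < A
  pos : ∀ v, v ≠ 0 → 0 < muG m G v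
  smul : ∀ (r : ℝ) v, 0 ≤ r → muG m G (r • v) = r * muG m G v
  add_le : ∀ v w, muG m G (v + w) ≤ muG m G v + muG m G w
  lip : ∀ v w, |muG m G v - muG m G w| ≤ A * r1 (v - w)
  neg : ∀ v, muG m G (-v) = muG m G v
  rot : ∀ a b : ℝ, muG m G (-b, a) = muG m G (a, b)
  upperR : ∀ p, muG m G p ≤ A * r1 p
  lowerR : ∀ p, κ * r1 p ≤ muG m G p
  lower : ∀ (x y : ℕ → V) (p q : ℝ × ℝ), Straight.Scaled x p → Straight.Scaled y q →
    ∀ ε : ℝ, 0 < ε → Tendsto
      (fun n : ℕ => (law G {t | T t (x n) (y n) < n * (muG m G (q - p) - ε)}).toReal) atTop (𝓝 0)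
  upper : ∀ (x y : ℕ → V) (p q : ℝ × ℝ), Straight.Scaled x p → Straight.Scaled y q →
    ∀ ε : ℝ, 0 < ε → Tendsto
      (fun n : ℕ => (law G {t | n * (muG m G (q - p) + ε) < T t (x n) (y n)}).toReal) atTop (𝓝 0)
  box : ∀ (C : ℕ) (ε : ℝ), 0 < ε → Tendsto (fun n : ℕ => law G {t | ∃ x y : V,
    InBox (C * n) x ∧ InBox (C * n) y ∧
      ε * n < |T (shield m t) x y - muG m G (toR y - toR x)|}) atTop (𝓝 0)

/-- The shape theorem from its core and the strip statement. -/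
theorem ShapeCore.toShapeG {m : ℝ} {G : Measure ℝ} {κ A : ℝ} (h : ShapeCore m G κ A)
    (hstrip : ∀ (k : ℤ), (k = 0 ∨ k = 1) → ∀ (x y : ℕ → V) (p q : ℝ × ℝ),
      Straight.Scaled x p → Straight.Scaled y q → p.1 + k * p.2 < q.1 + k * q.2 →
      ∀ ε : ℝ, 0 < ε → Tendsto (fun n : ℕ => (law G {t | n * (muG m G (q - p) + ε) <
        TS t (Straight.Strip k (lev k (x n)) (lev k (y n))) (x n) (y n)}).toReal) atTop (𝓝 0)) :
    ShapeG m G κ A :=
  ⟨h.κ_pos, h.A_pos, ⟨h.pos, h.smul, h.add_le, h.lip, h.neg, h.rot, h.lower, h.upper, hstrip⟩,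
    h.upperR, h.lowerR, h.box⟩

end Vale.Agent.P158.Gen
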