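import Vale.Agent.P158.Gen.ShapeBase

/-!
Convergence in probability of the shielded passage time along one pair of directions.
-/

open MeasureTheory Filter Topology
open scoped ENNReal

namespace Vale.Agent.P158.Gen.ShapeAux

open Vale.Agent.P158 Vale.Agent.P158.Gen

variable {m κ κ₂ AY A : ℝ} {G : Measure ℝ}

set_option linter.unusedSectionVars false

lemma walk_l1_le {a b : V} (q : grid.Walk a b) :
    |a.1 - b.1| + |a.2 - b.2| ≤ (q.length : ℤ) := by
  induction q with
  | nil => simp
  | @cons a b c hab q ih =>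
    have h1 : |a.1 - b.1| + |a.2 - b.2| = 1 := hab
    have := abs_sub_le a.1 b.1 c.1
    have := abs_sub_le a.2 b.2 c.2
    simp only [SimpleGraph.Walk.length_cons]; push_cast; omega

lemma dist1_eq (x y : V) : dist1 x y = r1 (toR x - toR y) := by simp [dist1, r1, toR]

/-- A walk which leaves a box has a piece inside the next box which reaches the boundary. -/
lemma exists_exit_piece {t : Conf} (h0 : ∀ e, 0 ≤ t e) (N : ℕ) :
    ∀ {a b : V} (p : grid.Walk a b), InSq N a →
    (∀ v ∈ p.support, InSq N v) ∨
      ∃ (v : V) (q : grid.Walk a v), ¬ InSq N v ∧ (∀ u ∈ q.support, InSq (N + 1) u) ∧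
        plen t q ≤ plen t p := by
  intro a b p
  induction p with
  | nil => exact fun ha => Or.inl (by simpa using ha)
  | @cons a c b h p ih =>
    intro ha
    have hac : InSq ((N : ℤ) + 1) c ∧ InSq ((N : ℤ) + 1) a := by
      have hA : |a.1 - c.1| + |a.2 - c.2| = 1 := h
      unfold InSq at ha ⊢
      rcases abs_cases (a.1 - c.1) with h1 | h1 <;> rcases abs_cases (a.2 - c.2) with h2 | h2 <;>
        omega
    by_cases hc : InSq N c
    · rcases ih hc with hin | ⟨v, q, hv, hq, hle⟩
      · refine Or.inl fun v hv => ?_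
        rcases List.mem_cons.1 (by simpa using hv) with rfl | hv'
        · exact ha
        · exact hin v hv'
      · refine Or.inr ⟨v, .cons h q, hv, fun u hu => ?_, ?_⟩
        · rcases List.mem_cons.1 (by simpa using hu) with rfl | hu'
          · exact hac.2
          · exact hq u hu'
        · simp only [plen_cons]; linarith
    · refine Or.inr ⟨c, .cons h .nil, hc, fun u hu => ?_, ?_⟩
      · rcases (show u = a ∨ u = c by simpa using hu) with rfl | hu'
        · exact hac.2
        · exact hu' ▸ hac.1
      · simp only [plen_cons, plen_nil]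
        linarith [plen_nonneg h0 p]

/-- The level of the caps at the scale `L`. -/
noncomputable def lev0 (m : ℝ) (L : ℕ) : ℝ := 10 * m * ((L : ℝ) + 1)

/-- The error of the caps at the scale `L`. -/
noncomputable def err (m A : ℝ) (L : ℕ) : ℝ :=
  2 * ((lev0 m L + 1) * ((L : ℝ) + 1)) + 2 * (A * ((L : ℝ) + 1 + (L : ℝ) ^ 2))

section det

variable (hm : 0 < m) (hS : ShieldFacts m)
include hm hS

lemma shield_le_cap {N L : ℕ} {t : Conf} (h : BoxOK m κ A N L t) {e : Edge}
    (he : InSq N (eFst e)) : shield m t e ≤ capC (lev0 m L) t e := by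
  have hf : shield m t e = capTo (capY m t e) (t e) := by simp [shield, shieldOn]
  have hc : capY m t e ≤ lev0 m L := by
    rw [capY, if_pos (h.loc.tame.fin e), lev0]
    have := h.loc.small e (Or.inl he)
    have h2 : ((cl m t e).ncard : ℝ) ≤ L := by exact_mod_cast this.le
    exact mul_le_mul_of_nonneg_left (by linarith) (by linarith)
  rw [hf]
  exact capTo_mono_level hc (t e)

lemma plen_shield_le {N L : ℕ} {t : Conf} (h : BoxOK m κ A N L t) {a b : V} (p : grid.Walk a b)
    (hp : ∀ v ∈ p.support, InSq N v) : plen (shield m t) p ≤ plen (capC (lev0 m L) t) p := by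
  refine List.sum_le_sum fun d hd => shield_le_cap hm hS h ?_
  rcases ends_edgeOf d.adj with ⟨e1, -⟩ | ⟨e1, -⟩ <;> rw [e1]
  · exact hp _ (p.dart_fst_mem_support_of_mem_darts hd)
  · exact hp _ (p.dart_snd_mem_support_of_mem_darts hd)

lemma shield_le_trunc {M N L : ℕ} {t : Conf} (h : BoxOK m κ A (N + 1) L t) (hMN : M + L ≤ N)
    (hκ : 0 ≤ κ) {a b : V} (ha : InSq M a) (hb : InSq M b)
    (hfar : A * (dist1 a b + (L : ℝ) ^ 2) ≤ κ * ((N : ℝ) - M)) :
    T (shield m t) a b ≤ T (capC (lev0 m L) t) a b := by
  have h0 : ∀ e, 0 ≤ capC (lev0 m L) t e := fun e =>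
    capTo_nonneg (by unfold lev0; positivity) (h.nonneg e)
  have ht0 := shield_nonneg hm hS h.nonneg
  have hup : ∀ {K K' : ℤ} {x : V}, InSq K x → K ≤ K' → InSq K' x := fun hx hK =>
    by unfold InSq at hx ⊢; omega
  refine le_T fun p => ?_
  rcases exists_exit_piece h0 N p (hup ha (by omega)) with hin | ⟨v, q, hv, hq, hle⟩
  · exact (T_le ht0 p).trans (plen_shield_le hm hS h p fun v hv => hup (hin v hv) (by omega))
  · have hqb := plen_bypass_le ht0 q
    have hlen : ((N : ℤ) - M) ≤ (q.bypass.length : ℤ) := by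
      refine le_trans ?_ (walk_l1_le q.bypass)
      unfold InSq at ha hv
      simp only [not_and_or, not_le] at hv
      rcases abs_cases (a.1 - v.1) with h1 | h1 <;> rcases abs_cases (a.2 - v.2) with h2 | h2 <;>
        omega
    have h1 := h.long a v q.bypass (hup ha (by omega)) q.bypass_isPath (by omega)
    have h2 := h.dist a b (hup ha (by omega)) (hup hb (by omega))
    have h3 : κ * ((N : ℝ) - M) ≤ κ * q.bypass.length :=
      mul_le_mul_of_nonneg_left (by exact_mod_cast hlen) hκ
    have h4 := plen_shield_le hm hS h q fun u hu => hup (hq u hu) (by omega)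
    linarith

lemma exists_OK {N L : ℕ} {t : Conf} (hl : Loc m N L t) {a : V} (ha : InSq N a) :
    ∃ a', OKpt m t a' ∧ |a.1 - a'.1| + |a.2 - a'.2| ≤ (L : ℤ) + 1 := by
  classical
  obtain ⟨p, hp⟩ := exists_walk_l1 a (a.1 + ((L : ℤ) + 1), a.2)
  by_contra hcon
  push Not at hcon
  have h := hS.escape N L t hl a _ p ha (fun v hv hok => ?_) _ p.end_mem_support
  · simp only at h
    rw [add_sub_cancel_left, abs_of_nonneg (by positivity)] at h
    omega
  · have h1 := hcon v hok
    have h2 := walk_l1_le (p.takeUntil v hv)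
    have h3 := p.length_takeUntil_le_length hv
    simp only [sub_self, abs_zero, add_zero, sub_add_cancel_left, abs_neg] at hp
    rw [abs_of_nonneg (by positivity)] at hp
    omega

lemma trunc_le_shield {M N L : ℕ} {t : Conf} (h : BoxOK m κ A N L t) (hMN : M + L + 1 ≤ N)
    (hA : 0 ≤ A) {a b : V} (ha : InSq M a) (hb : InSq M b) :
    T (capC (lev0 m L) t) a b ≤ T (shield m t) a b + err m A L := by
  have hY : 0 ≤ lev0 m L := by unfold lev0; positivity
  have h0 : ∀ e, 0 ≤ capC (lev0 m L) t e := fun e => capTo_nonneg hY (h.nonneg e)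
  have hr : InRange (lev0 m L + 1) (capC (lev0 m L) t) := fun e => ⟨h0 e, capTo_le_add_one _ _⟩
  have ht0 := shield_nonneg hm hS h.nonneg
  have hup : ∀ {x : V}, InSq M x → InSq N x := fun hx => by
    unfold InSq at hx ⊢; omega
  have key : ∀ x, InSq M x → ∃ x', OKpt m t x' ∧
      T (capC (lev0 m L) t) x x' ≤ (lev0 m L + 1) * ((L : ℝ) + 1) ∧
      T (shield m t) x x' ≤ A * ((L : ℝ) + 1 + (L : ℝ) ^ 2) := by
    intro x hx
    obtain ⟨x', hok, hd⟩ := exists_OK hm hS h.loc (hup hx)
    have hd' : ((|x.1 - x'.1| + |x.2 - x'.2| : ℤ) : ℝ) ≤ (L : ℝ) + 1 := by exact_mod_cast hd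
    have hd1 : dist1 x x' ≤ (L : ℝ) + 1 := by simpa [dist1] using hd'
    refine ⟨x', hok, (T_le_l1 hr x x').trans (mul_le_mul_of_nonneg_left hd' (by linarith)), ?_⟩
    refine (h.dist x x' (hup hx) ?_).trans (mul_le_mul_of_nonneg_left (by linarith) hA)
    unfold InSq at hx ⊢
    rcases abs_cases (x.1 - x'.1) with h1 | h1 <;> rcases abs_cases (x.2 - x'.2) with h2 | h2 <;>
      omega
  obtain ⟨a', ha', ha1, ha2⟩ := key a ha
  obtain ⟨b', hb', hb1, hb2⟩ := key b hb
  have e1 := T_triangle h0 a a' b
  have e2 := T_triangle h0 a' b' b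
  have e3 : T (capC (lev0 m L) t) a' b' ≤ T t a' b' := T_le_T h0 (fun e => capTo_le_self _ _) a' b'
  have e4 : T (shield m t) a' b' = T t a' b' := hS.eq_T Set.univ t h.nonneg a' b' ha' hb'
  have f1 := T_triangle ht0 a' a b'
  have f2 := T_triangle ht0 a b b'
  rw [T_comm _ b b'] at hb1
  rw [T_comm _ a' a] at f1
  unfold err
  linarith

end det

lemma exists_shortBound_cap (hG : LawGen G) (hm : 0 < m) :
    ∃ κ₁ : ℝ, ∀ Y, m ≤ Y → ShortBound (G.map (capTo Y)) κ₁ := by
  obtain ⟨κ₁, hκ₁⟩ := exists_shortBound (lawOK_cap hG hm.le)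
  refine ⟨κ₁, fun Y hY => ⟨hκ₁.1, fun x n => le_trans ?_ (hκ₁.2 x n)⟩⟩
  rw [← map_capC hG, ← map_capC hG, Measure.map_apply (measurable_capC Y)
    (measurableSet_shortSet _ _ _), Measure.map_apply (measurable_capC m)
    (measurableSet_shortSet _ _ _)]
  refine measure_mono fun t ⟨y, p, h1, h2, h3⟩ => ⟨y, p, h1, h2, lt_of_le_of_lt ?_ h3⟩
  exact plen_le_plen (fun e => capTo_mono_level hY (t e)) p

lemma chebyshev_cap (hG : LawGen G) {Y κ₁ : ℝ} (hY : 0 ≤ Y)
    (hS : ShortBound (G.map (capTo Y)) κ₁) (a b : V) {s : ℝ} (hs : 0 < s) :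
    law G {t | s ≤ |T (capC Y t) a b - muT (G.map (capTo Y)) (b - a)|} ≤
      ENNReal.ofReal ((Y + 1) ^ 2 * (((Y + 1) * dist1 a b + 1) / κ₁ + 2) / s ^ 2) := by
  have hok := lawOK_cap hG hY
  have := hok.prob
  have := law_isProb hok
  set G' := G.map (capTo Y)
  set c := muT G' (b - a)
  have hint : Integrable (fun t => (T t a b - c) ^ 2) (law G') := by
    refine Integrable.of_bound (((measurable_T' a b).sub_const c).pow_const 2).aestronglyMeasurable
      (((Y + 1) * r1 (toR a - toR b) + |c|) ^ 2) ((T_bdd hok a b).mono fun t ht => ?_)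
    rw [norm_pow, Real.norm_eq_abs]
    exact pow_le_pow_left₀ (abs_nonneg _) ((abs_sub _ _).trans (by linarith)) 2
  have hch := mul_meas_ge_le_integral_of_nonneg (Eventually.of_forall fun t => sq_nonneg _) hint
    (s ^ 2)
  have hvar : ∫ t, (T t a b - c) ^ 2 ∂law G' ≤
      (Y + 1) ^ 2 * (((Y + 1) * dist1 a b + 1) / κ₁ + 2) := by
    have h := var_T_le hok hS a b
    rw [mean_T hok] at h
    simpa [dist1] using h
  have hmeas : MeasurableSet {t : Conf | s ^ 2 ≤ (T t a b - c) ^ 2} :=
    measurableSet_le measurable_const (((measurable_T' a b).sub_const c).pow_const 2)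
  have hsub : {t | s ≤ |T (capC Y t) a b - c|} ⊆ capC Y ⁻¹' {t | s ^ 2 ≤ (T t a b - c) ^ 2} :=
    fun t ht => by
      simp only [Set.mem_preimage, Set.mem_ofPred_eq] at ht ⊢
      rw [← sq_abs (T (capC Y t) a b - c)]
      exact pow_le_pow_left₀ hs.le ht 2
  refine (measure_mono hsub).trans ?_
  rw [← Measure.map_apply (measurable_capC Y) hmeas, map_capC hG,
    ← ofReal_measureReal (measure_ne_top _ _)]
  refine ENNReal.ofReal_le_ofReal ?_
  rw [le_div_iff₀ (by positivity)]
  have := hch.trans hvar
  linarith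

section ui

variable (hm : 0 < m) (hS : ShieldFacts m) (hG : LawGen G) (hL : ShieldLaw m G κ AY)
include hm hS hG hL

lemma exists_trunc {η : ℝ} (hη : 0 < η) :
    ∃ K : ℝ, 0 ≤ K ∧ ∀ e, ∫ t, max (shield m t e - K) 0 ∂law G ≤ η := by
  have := law_prob hG
  have := hG.prob
  have hlim : ∀ e : Edge,
      Tendsto (fun K : ℕ => ∫ t, max (shield m t e - K) 0 ∂law G) atTop (𝓝 0) := by
    intro e
    have h := tendsto_integral_of_dominated_convergence (μ := law G)
      (F := fun (K : ℕ) t => max (shield m t e - K) 0) (f := fun _ => 0)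
      (fun t => |shield m t e|)
      (fun K => ((((measurable_pi_apply e).comp hL.meas_shield).sub_const _).max
        measurable_const).aestronglyMeasurable)
      (integrable_shield hm hS hG hL e).abs
      (fun K => Eventually.of_forall fun t => by
        rw [Real.norm_eq_abs, abs_of_nonneg (le_max_right _ _)]
        exact max_le ((sub_le_self _ (Nat.cast_nonneg K)).trans (le_abs_self _)) (abs_nonneg _))
      (Eventually.of_forall fun t => by
        obtain ⟨K0, hK0⟩ := exists_nat_ge (shield m t e)
        refine tendsto_const_nhds.congr' ?_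
        filter_upwards [eventually_ge_atTop K0] with K hK
        rw [max_eq_right]
        have : (K0 : ℝ) ≤ K := by exact_mod_cast hK
        linarith)
    simpa using h
  obtain ⟨K, hKf, hKt⟩ := (((hlim ((0, 0), false)).eventually_le_const hη).and
    ((hlim ((0, 0), true)).eventually_le_const hη)).exists
  refine ⟨K, Nat.cast_nonneg K, fun e => ?_⟩
  obtain ⟨v, c⟩ := e
  have h := measurePreserving_shift (G := G) v
  calc ∫ t, max (shield m t (v, c) - (K : ℝ)) 0 ∂law G
      = ∫ t, max (shield m (shift v t) ((0, 0), c) - (K : ℝ)) 0 ∂law G := by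
        simp [hS.act_shift, shift, eShift, Prod.mk_zero_zero]
    _ = ∫ s, max (shield m s ((0, 0), c) - (K : ℝ)) 0 ∂(law G).map (shift v) :=
        (integral_map h.measurable.aemeasurable
          ((((measurable_pi_apply _).comp hL.meas_shield).sub_const _).max
            measurable_const).aestronglyMeasurable).symm
    _ ≤ η := by rw [h.map_eq]; cases c <;> assumption

lemma edgeSum_indicator_le {K η : ℝ} (hK : ∀ e, ∫ t, max (shield m t e - K) 0 ∂law G ≤ η)
    {B : Set Conf} (hB : MeasurableSet B) (l : List Edge) :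
    ∫ t, B.indicator (fun t => (l.map (shield m t)).sum) t ∂law G ≤
      l.length * (K * (law G).real B + η) := by
  have := law_prob hG
  induction l with
  | nil => simp
  | cons e l ih =>
    have he := integrable_shield hm hS hG hL e
    have hsum := (integrable_edgeSum hm hS hG hL l).1
    have h1 : ∫ t, B.indicator (fun t => shield m t e) t ∂law G ≤ K * (law G).real B + η := by
      have hi1 : Integrable (B.indicator fun _ => K) (law G) := (integrable_const K).indicator hB
      have hi2 : Integrable (fun t => max (shield m t e - K) 0) (law G) :=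
        (he.sub (integrable_const K)).pos_part
      calc ∫ t, B.indicator (fun t => shield m t e) t ∂law G
          ≤ ∫ t, B.indicator (fun _ => K) t + max (shield m t e - K) 0 ∂law G := by
            refine integral_mono (he.indicator hB) (hi1.add hi2) fun t => ?_
            by_cases ht : t ∈ B <;> simp [ht]
            linarith [le_max_left (shield m t e - K) 0]
        _ ≤ K * (law G).real B + η := by
            rw [integral_add hi1 hi2, integral_indicator_const _ hB, smul_eq_mul]
            linarith [hK e, mul_comm K ((law G).real B)]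
    have e1 : (B.indicator fun t => ((e :: l).map (shield m t)).sum) =
        fun t => B.indicator (fun t => shield m t e) t +
          B.indicator (fun t => (l.map (shield m t)).sum) t := by
      funext t
      by_cases ht : t ∈ B <;> simp [ht]
    rw [e1, integral_add (he.indicator hB) (hsum.indicator hB)]
    simp only [List.length_cons, Nat.cast_add, Nat.cast_one]
    linarith

lemma T0_indicator_le {K η : ℝ} (hK : ∀ e, ∫ t, max (shield m t e - K) 0 ∂law G ≤ η)
    {B : Set Conf} (hB : MeasurableSet B) (a b : V) :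
    ∫ t, B.indicator (fun t => T (shield m t) a b) t ∂law G ≤
      dist1 a b * (K * (law G).real B + η) := by
  obtain ⟨p, hp⟩ := exists_walk_l1 a b
  refine le_trans (integral_mono_ae ((integrable_T0 hm hS hG hL a b).indicator hB)
    ((integrable_edgeSum hm hS hG hL (edgeList p)).1.indicator hB)
    ((T0_le_sum hm hS hG hL p).mono fun t ht => Set.indicator_le_indicator ht))
    ((edgeSum_indicator_le hm hS hG hL hK hB _).trans (le_of_eq ?_))
  rw [length_edgeList, show (p.length : ℝ) = dist1 a b by
    rw [← Int.cast_natCast, hp]; simp [dist1]]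

end ui

end Vale.Agent.P158.Gen.ShapeAux
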