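import Vale.Agent.P158.Gen.Spec
import Vale.Agent.P158.Meas

/-!
Elementary properties of the lowering: size, monotonicity, locality, covariance.
-/

open MeasureTheory Filter Topology Set

namespace Vale.Agent.P158.Gen

variable {m : ℝ} {t t' pre : Conf}

lemma capTo_le_self (Y x : ℝ) : capTo Y x ≤ x := by
  unfold capTo
  split_ifs with h
  · exact le_rfl
  · have : (x - Y) / (1 + (x - Y)) ≤ x - Y := div_le_self (by linarith) (by linarith)
    linarith

lemma capTo_le_add (Y x : ℝ) : capTo Y x ≤ Y + 1 := by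
  unfold capTo
  split_ifs with h
  · linarith
  · have : (x - Y) / (1 + (x - Y)) ≤ 1 := by rw [div_le_one (by linarith)]; linarith
    linarith

lemma capTo_self (x : ℝ) : capTo x x = x := if_pos le_rfl

lemma capTo_mono_right (Y : ℝ) {x x' : ℝ} (h : x ≤ x') : capTo Y x ≤ capTo Y x' := by
  unfold capTo
  split_ifs with h1 h2 h2
  · exact h
  · have : 0 ≤ (x' - Y) / (1 + (x' - Y)) := div_nonneg (by linarith) (by linarith)
    linarith
  · linarith
  · refine add_le_add le_rfl ?_
    rw [div_le_div_iff₀ (by linarith) (by linarith)]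
    nlinarith

lemma capTo_mono_left {Y Y' : ℝ} (h : Y ≤ Y') (x : ℝ) : capTo Y x ≤ capTo Y' x := by
  by_cases h2 : x ≤ Y'
  · rw [show capTo Y' x = x from if_pos h2]
    exact capTo_le_self Y x
  · rw [capTo, capTo, if_neg (by linarith), if_neg h2]
    have ha : 0 ≤ Y' - Y := sub_nonneg.2 h
    have hd : 0 < x - Y' := by linarith
    have key : (x - Y) / (1 + (x - Y)) ≤ (x - Y') / (1 + (x - Y')) + (Y' - Y) := by
      rw [div_add' _ _ _ (by linarith), div_le_div_iff₀ (by linarith) (by linarith)]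
      nlinarith [mul_nonneg ha hd.le, mul_nonneg (mul_nonneg ha hd.le) hd.le,
        mul_nonneg (mul_nonneg ha ha) hd.le, mul_nonneg ha ha]
    linarith

lemma capY_of_finite {e : Edge} (h : (cl m t e).Finite) :
    capY m t e = 10 * m * ((cl m t e).ncard + 1) := if_pos h

lemma capY_of_infinite {e : Edge} (h : ¬ (cl m t e).Finite) : capY m t e = t e := if_neg h

lemma shieldOn_le (m : ℝ) (F : Set Edge) (t : Conf) (e : Edge) : shieldOn m F t e ≤ t e := by
  unfold shieldOn
  split_ifs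
  · exact capTo_le_self _ _
  · exact le_rfl

lemma shieldOn_le_capY (m : ℝ) (F : Set Edge) (t : Conf) (e : Edge) (he : e ∈ F)
    (_h : (cl m t e).Finite) : shieldOn m F t e ≤ capY m t e + 1 := by
  unfold shieldOn
  rw [if_pos he]
  exact capTo_le_add _ _

lemma shield_apply (m : ℝ) (t : Conf) (e : Edge) : shield m t e = capTo (capY m t e) (t e) :=
  if_pos (mem_univ e)

lemma le_capY_self (hm : 0 < m) {e : Edge} (h : (cl m t e).Finite) : m ≤ capY m t e := by
  rw [capY_of_finite h]
  nlinarith [(Nat.cast_nonneg _ : (0 : ℝ) ≤ ((cl m t e).ncard : ℝ))]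

lemma capTo_le_shieldOn (hm : 0 < m) (F : Set Edge) (t : Conf) (e : Edge) :
    capTo m (t e) ≤ shieldOn m F t e := by
  unfold shieldOn
  split_ifs
  · by_cases h : (cl m t e).Finite
    · exact capTo_mono_left (le_capY_self hm h) _
    · rw [capY_of_infinite h, capTo_self]
      exact capTo_le_self _ _
  · exact capTo_le_self _ _

lemma cl_mono (h : ∀ e, t e ≤ t' e) (e : Edge) : cl m t e ⊆ cl m t' e :=
  fun _ ⟨h1, h2⟩ => ⟨h1.trans_le (h e),
    Relation.ReflTransGen.mono (fun _ b hab => ⟨hab.1, hab.2.trans_le (h b)⟩) _ _ h2⟩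

lemma shield_mono (hm : 0 < m) (t t' : Conf) (h : ∀ e, t e ≤ t' e)
    (hf : ∀ e, (cl m t' e).Finite) (e : Edge) :
    shield m t e ≤ shield m t' e ∧ capY m t e ≤ capY m t' e := by
  have hY : capY m t e ≤ capY m t' e := by
    rw [capY_of_finite ((hf e).subset (cl_mono h e)), capY_of_finite (hf e)]
    gcongr
    · exact hf e
    · exact cl_mono h e
  rw [shield_apply, shield_apply]
  exact ⟨(capTo_mono_left hY _).trans (capTo_mono_right _ (h e)), hY⟩

lemma SqAdj.symm {a b : Edge} (h : SqAdj a b) : SqAdj b a := h.imp fun _ hv => ⟨hv.2, hv.1⟩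

lemma cl_symm {e f : Edge} (h : f ∈ cl m t e) : e ∈ cl m t f := by
  obtain ⟨he, hp⟩ := h
  suffices H : m < t f ∧ Relation.ReflTransGen (fun a b => SqAdj a b ∧ m < t b) f e from H
  induction hp with
  | refl => exact ⟨he, .refl⟩
  | tail _ hbc ih => exact ⟨hbc.2, (Relation.ReflTransGen.single ⟨hbc.1.symm, ih.1⟩).trans ih.2⟩

lemma sq_ends {v : V} {e : Edge} (he : e ∈ sq v) :
    (v.1 ≤ (eFst e).1 ∧ (eFst e).1 ≤ v.1 + 1 ∧ v.2 ≤ (eFst e).2 ∧ (eFst e).2 ≤ v.2 + 1) ∧
      (v.1 ≤ (eSnd e).1 ∧ (eSnd e).1 ≤ v.1 + 1 ∧ v.2 ≤ (eSnd e).2 ∧ (eSnd e).2 ≤ v.2 + 1) := by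
  simp only [sq, Finset.mem_insert, Finset.mem_singleton] at he
  rcases he with rfl | rfl | rfl | rfl <;> simp [eFst, eSnd]

lemma shield_agree (m : ℝ) (A B : ℕ) (t pre : Conf) (S : Set Edge) (hst : Stay m (A + 1) B t)
    (hle : ∀ e, t e ≤ pre e) (hoff : ∀ e, e ∉ S → t e = pre e)
    (hS : ∀ e ∈ S, InSq A (eFst e) ∧ InSq A (eSnd e)) (e : Edge)
    (hB : ¬ (InSq B (eFst e) ∧ InSq B (eSnd e)))
    (hA : ¬ (InSq A (eFst e) ∧ InSq A (eSnd e))) :
    capY m pre e = capY m t e ∧ shield m pre e = shield m t e := by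
  have he : t e = pre e := hoff e fun h => hA (hS e h)
  have hcl : cl m pre e = cl m t e := by
    refine (Subset.antisymm ?_ (cl_mono hle e))
    rintro f ⟨hb, hp⟩
    refine ⟨by rwa [he], ?_⟩
    suffices H : Relation.ReflTransGen (fun a b => SqAdj a b ∧ m < t b) e f ∧ f ∉ S from H.1
    induction hp with
    | refl => exact ⟨.refl, fun h => hA (hS e h)⟩
    | @tail a c _ hac ih =>
      obtain ⟨ih1, ih2⟩ := ih
      have hc : c ∉ S := by
        intro hcS
        obtain ⟨v, hva, hvc⟩ := hac.1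
        obtain ⟨h1, h2⟩ := sq_ends hva
        obtain ⟨h3, h4⟩ := sq_ends hvc
        obtain ⟨hc1, -⟩ := hS c hcS
        have haA : InSq (A + 1 : ℕ) (eFst a) := by
          simp only [InSq] at hc1 ⊢
          push_cast
          omega
        exact hB (hst a (Or.inl haA) e (cl_symm ⟨by rwa [he], ih1⟩))
      exact ⟨ih1.tail ⟨hac.1, by rw [hoff c hc]; exact hac.2⟩, hc⟩
  have hY : capY m pre e = capY m t e := by
    by_cases h : (cl m t e).Finite
    · rw [capY_of_finite h, capY_of_finite (hcl ▸ h), hcl]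
    · rw [capY_of_infinite h, capY_of_infinite (hcl ▸ h), he]
  exact ⟨hY, by rw [shield_apply, shield_apply, hY, he]⟩

/-- Lowering commutes with symmetries that preserve squares. -/
lemma shield_act (σ : LatSym) (hσ : ∀ a b, SqAdj (σ.emap a) (σ.emap b) ↔ SqAdj a b) (m : ℝ)
    (t : Conf) : shield m (σ.act t) = σ.act (shield m t) := by
  funext e
  have hcl : cl m (σ.act t) e = σ.emap ⁻¹' cl m t (σ.emap e) := by
    ext f
    refine and_congr Iff.rfl ⟨fun h => ?_, fun h => ?_⟩
    · exact h.lift σ.emap fun a b hab => ⟨(hσ a b).2 hab.1, hab.2⟩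
    · have := h.lift (p := fun a b => SqAdj a b ∧ m < (σ.act t) b) σ.emap.symm fun a b hab =>
        ⟨(hσ _ _).1 (by simpa using hab.1), by simpa [LatSym.act] using hab.2⟩
      simpa [Function.onFun] using this
  have hY : capY m (σ.act t) e = capY m t (σ.emap e) := by
    unfold capY
    rw [hcl]
    by_cases h : (cl m t (σ.emap e)).Finite
    · rw [if_pos (h.preimage σ.emap.injective.injOn), if_pos h,
        ← ncard_image_of_injective _ σ.emap.injective, image_preimage_eq _ σ.emap.surjective]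
    · rw [if_neg h, if_neg fun h' => h ?_]
      · rfl
      · rw [← image_preimage_eq (cl m t (σ.emap e)) σ.emap.surjective]
        exact h'.image _
  show shield m (σ.act t) e = shield m t (σ.emap e)
  rw [shield_apply, shield_apply, hY]
  rfl

lemma sqAdj_iff_of_map (σ : LatSym) (g g' : V → V)
    (h : ∀ v a, a ∈ sq v → σ.emap a ∈ sq (g v))
    (h' : ∀ v a, a ∈ sq v → σ.emap.symm a ∈ sq (g' v)) (a b : Edge) :
    SqAdj (σ.emap a) (σ.emap b) ↔ SqAdj a b := by
  refine ⟨fun ⟨v, ha, hb⟩ => ⟨g' v, ?_, ?_⟩, fun ⟨v, ha, hb⟩ => ⟨g v, h v a ha, h v b hb⟩⟩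
  · simpa using h' v _ ha
  · simpa using h' v _ hb

lemma shift_sq (u v : V) (a : Edge) (ha : a ∈ sq v) : eShift u a ∈ sq (v + u) := by
  simp only [sq, Finset.mem_insert, Finset.mem_singleton] at ha ⊢
  rcases ha with rfl | rfl | rfl | rfl <;> simp [eShift, Prod.ext_iff] <;> omega

lemma swap_sq (v : V) (a : Edge) (ha : a ∈ sq v) : swapSym.emap a ∈ sq (v.2, v.1) := by
  simp only [sq, Finset.mem_insert, Finset.mem_singleton] at ha ⊢
  rcases ha with rfl | rfl | rfl | rfl <;> simp [swapSym]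

lemma flip_sq (v : V) (a : Edge) (ha : a ∈ sq v) : flipE a ∈ sq (v.1, -v.2 - 1) := by
  simp only [sq, Finset.mem_insert, Finset.mem_singleton] at ha ⊢
  rcases ha with rfl | rfl | rfl | rfl <;> simp [flipE] <;> omega

lemma shield_shift (m : ℝ) (v : V) (t : Conf) : shield m (shift v t) = shift v (shield m t) := by
  simp only [shift_eq_act]
  refine shield_act _ (sqAdj_iff_of_map _ (· + v) (· + -v) (fun u a ha => shift_sq v u a ha) ?_) m t
  intro u a ha
  have := shift_sq (-v) u a ha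
  convert this using 1
  apply (shiftSym v).emap.injective
  simp [eShift]

lemma shield_swap (m : ℝ) (t : Conf) : shield m (swapSym.act t) = swapSym.act (shield m t) :=
  shield_act _ (sqAdj_iff_of_map swapSym (fun v => (v.2, v.1)) (fun v => (v.2, v.1)) swap_sq
    fun v a ha => swap_sq v a ha) m t

lemma shield_flip (m : ℝ) (t : Conf) : shield m (flipSym.act t) = flipSym.act (shield m t) :=
  shield_act _ (sqAdj_iff_of_map flipSym (fun v => (v.1, -v.2 - 1)) (fun v => (v.1, -v.2 - 1))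
    (fun v a ha => flip_sq v a ha) fun v a ha => flip_sq v a ha) m t

end Vale.Agent.P158.Gen
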