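import Vale.Agent.P158.Gen.Spec
import Vale.Agent.P158.Slope.Event

/-!
Slope bound, glue for the shielded count: the edges of the steps between neighbouring targets of
the level line, the unenclosedness of the far levels with respect to them, and the mean of their
levels of shielding.
-/

open MeasureTheory Filter Topology
open scoped ENNReal

namespace Vale.Agent.P158.Gen.SlopeLoc

open Vale.Agent.P158 Vale.Agent.P158.Gen Vale.Agent.P158.SlopeAux

variable {m : ℝ} {t : Conf} {k : ℤ}

/-- The middle vertex of a step between neighbouring targets when `k = 1`. -/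
def stepMid (d : ℤ) (v : V) : V := if d = -1 then (v.1 - 1, v.2) else (v.1, v.2 + 1)

/-- The edges of the step from `v` to the next vertex of its level, on the side `d`. -/
def stepE (k d : ℤ) (v : V) : Finset Edge :=
  if k = 0 then {edgeOf v (v + pt k 0 1)}
  else {edgeOf v (stepMid d v), edgeOf (stepMid d v) (v + pt k 0 1)}

lemma card_stepE (k d : ℤ) (v : V) : (stepE k d v).card ≤ 2 := by
  simp only [stepE]
  split_ifs
  · simp
  · exact (Finset.card_insert_le _ _).trans (by simp)

/-- The step, as a walk on its side through these edges. -/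
theorem step_walk_in (hk : k = 0 ∨ k = 1) {v : V} {d : ℤ} (hd : d = -1 ∨ d = 1)
    {S : Set Edge} (hS : ∀ x y, Adj x y → (lev k x = lev k v ∨ lev k x = lev k v + d) →
      (lev k y = lev k v ∨ lev k y = lev k v + d) → edgeOf x y ∈ S) :
    ∃ p : grid.Walk v (v + pt k 0 1), WalkIn (↑(stepE k d v) ∩ S) p ∧
      ∀ t' : Conf, (∀ e, 0 ≤ t' e) → plen t' p ≤ ∑ e ∈ stepE k d v, t' e := by
  rcases hk with rfl | rfl
  · have h : grid.Adj v (v + pt 0 0 1) := by show Adj _ _; simp [adj_iff, pt]
    refine ⟨.cons h .nil, fun e he => ?_, fun t' _ => ?_⟩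
    · simp only [SimpleGraph.Walk.darts_cons, SimpleGraph.Walk.darts_nil, List.mem_cons,
        List.not_mem_nil, or_false] at he
      subst he
      exact ⟨by simp [stepE], hS _ _ h (Or.inl rfl) (Or.inl (by simp [lev, pt]))⟩
    · simp [stepE, plen, wt]
  · obtain ⟨h1, h2, h3⟩ : Adj v (stepMid d v) ∧ Adj (stepMid d v) (v + pt 1 0 1) ∧
        lev 1 (stepMid d v) = lev 1 v + d := by
      rcases hd with rfl | rfl
      · refine ⟨?_, ?_, ?_⟩ <;> simp [stepMid, adj_iff, pt, lev] <;> ring_nf
      · refine ⟨?_, ?_, ?_⟩ <;> simp [stepMid, adj_iff, pt, lev]; ring_nf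
    have hne : edgeOf v (stepMid d v) ≠ edgeOf (stepMid d v) (v + pt 1 0 1) := by
      intro he
      rcases (edgeOf_eq_iff h1 h2).1 he with ⟨e, -⟩ | ⟨e, -⟩
      · have := congrArg (lev 1) e
        rcases hd with rfl | rfl <;> omega
      · simp [Prod.ext_iff, pt] at e
    refine ⟨.cons (show grid.Adj v _ from h1) (.cons (show grid.Adj (stepMid d v) _ from h2) .nil),
      fun e he => ?_, fun t' _ => ?_⟩
    · simp only [SimpleGraph.Walk.darts_cons, SimpleGraph.Walk.darts_nil, List.mem_cons,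
        List.not_mem_nil, or_false] at he
      rcases he with rfl | rfl
      · exact ⟨by simp [stepE], hS _ _ h1 (Or.inl rfl) (Or.inr h3)⟩
      · exact ⟨by simp [stepE], hS _ _ h2 (Or.inr h3) (Or.inl (by simp [lev, pt]; ring))⟩
    · simp [stepE, plen, wt, Finset.sum_pair hne]

/-- The edges of a step are next to its first vertex. -/
theorem stepE_near (hk : k = 0 ∨ k = 1) {v : V} {d : ℤ} {e : Edge} (he : e ∈ stepE k d v) :
    |(eFst e).1 - v.1| ≤ 1 ∧ |(eFst e).2 - v.2| ≤ 1 ∧ |lev k (eFst e) - lev k v| ≤ 2 := by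
  have hor : ∀ x y : V, Adj x y → eFst (edgeOf x y) = x ∨ eFst (edgeOf x y) = y := by
    intro x y h
    rcases ends_edgeOf h with ⟨e, -⟩ | ⟨e, -⟩
    · exact Or.inl e
    · exact Or.inr e
  suffices h : |(eFst e).1 - v.1| ≤ 1 ∧ |(eFst e).2 - v.2| ≤ 1 by
    refine ⟨h.1, h.2, ?_⟩
    have h1 := abs_le.1 h.1
    have h2 := abs_le.1 h.2
    rw [abs_le]
    rcases hk with rfl | rfl <;> simp only [lev] <;> omega
  have hmid : |(stepMid d v).1 - v.1| ≤ 1 ∧ |(stepMid d v).2 - v.2| ≤ 1 := by
    simp only [stepMid]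
    split_ifs <;> simp
  have hend : |(v + pt k 0 1).1 - v.1| ≤ 1 ∧ |(v + pt k 0 1).2 - v.2| ≤ 1 := by
    rcases hk with rfl | rfl <;> simp [pt]
  simp only [stepE] at he
  split_ifs at he
  · rw [Finset.mem_singleton] at he
    subst he
    have hA : Adj v (v + pt k 0 1) := by subst k; simp [adj_iff, pt]
    rcases hor v (v + pt k 0 1) hA with h | h <;> rw [h]
    · simp
    · exact hend
  · rw [Finset.mem_insert, Finset.mem_singleton] at he
    obtain rfl : k = 1 := by omega
    have hA : Adj v (stepMid d v) ∧ Adj (stepMid d v) (v + pt 1 0 1) := by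
      simp only [stepMid]
      split_ifs <;> simp [adj_iff, pt]; ring_nf
    rcases he with rfl | rfl
    · rcases hor v (stepMid d v) hA.1 with h | h <;> rw [h]
      · simp
      · exact hmid
    · rcases hor (stepMid d v) (v + pt 1 0 1) hA.2 with h | h <;> rw [h]
      · exact hmid
      · exact hend

/-- The edges of the steps between the first `Y` targets on both sides of the level line. -/
def stepF (k : ℤ) (w : V) (Y : ℕ) : Finset Edge :=
  (Finset.range Y).biUnion fun u =>
    stepE k (-1) (w + pt k 0 (u : ℤ)) ∪ stepE k 1 (pt k 0 (u : ℤ))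

lemma stepA_sub {w : V} {Y u : ℕ} (hu : u < Y) :
    stepE k (-1) (w + pt k 0 (u : ℤ)) ⊆ stepF k w Y := fun _ he =>
  Finset.mem_biUnion.2 ⟨u, Finset.mem_range.2 hu, Finset.mem_union_left _ he⟩

lemma stepB_sub {w : V} {Y u : ℕ} (hu : u < Y) : stepE k 1 (pt k 0 (u : ℤ)) ⊆ stepF k w Y :=
  fun _ he => Finset.mem_biUnion.2 ⟨u, Finset.mem_range.2 hu, Finset.mem_union_right _ he⟩

/-- The edges of the steps are near the level line and in the box of radius `Y + 2`. -/
theorem stepF_near (hk : k = 0 ∨ k = 1) {w : V} (hw : w ∈ preds k) {Y N : ℕ} (hN : Y + 2 ≤ N)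
    {e : Edge} (he : e ∈ stepF k w Y) : InSq N (eFst e) ∧ |lev k (eFst e)| ≤ 3 := by
  obtain ⟨hwA, hwL⟩ := preds_spec hw
  simp only [stepF, Finset.mem_biUnion, Finset.mem_range, Finset.mem_union] at he
  obtain ⟨u, hu, he⟩ := he
  rw [adj_iff] at hwA
  simp only [Prod.fst_zero, Prod.snd_zero] at hwA
  rcases he with he | he <;> obtain ⟨h1, h2, h3⟩ := stepE_near hk he <;>
    rw [abs_le] at h1 h2 h3 ⊢ <;>
    simp only [InSq, lev, pt, Prod.fst_add, Prod.snd_add] at hwL h1 h2 h3 ⊢ <;>
    rcases hk with rfl | rfl <;> omega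

/-- Levels beyond the size of the local clusters are unenclosed with respect to a set of edges
near level `0`. -/
theorem okon_of_loc (SF : ShieldFacts m) (hk : k = 0 ∨ k = 1) {N L : ℕ} (hloc : Loc m N L t)
    {F : Set Edge} {c : ℤ} (hF : ∀ e ∈ F, InSq N (eFst e) ∧ |lev k (eFst e)| ≤ c)
    {x : V} (hx : c + 2 * (L : ℤ) ≤ |lev k x|) : OKon m F t x := by
  intro e he henc
  obtain ⟨hin, hc⟩ := hF e he
  have hlt := hloc.small e (Or.inl hin)
  obtain ⟨h1, h2⟩ := SF.encl_near t e x (hloc.tame.fin e) henc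
  rw [abs_le] at h1 h2 hc
  simp only [lev] at hc hx
  rcases hk with rfl | rfl <;> rcases le_abs.1 hx with h | h <;> omega

/-- The levels `n` and `-n` are beyond the local scale. -/
theorem eventually_far (c : ℕ) : ∀ᶠ n : ℕ in atTop, c + 2 * Lc n ≤ n := by
  filter_upwards [eventually_ge_atTop ((c + 6) * (c + 6))] with n hn
  have hs : c + 6 ≤ Nat.sqrt n := Nat.le_sqrt.2 hn
  have h2 := Nat.sqrt_le n
  have h3 : Lc n ≤ Nat.sqrt n + 1 := Nat.succ_le_succ (Nat.sqrt_le_self _)
  have h4 : (c + 6) * Nat.sqrt n ≤ Nat.sqrt n * Nat.sqrt n := Nat.mul_le_mul_right _ hs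
  have h5 : c + 4 ≤ (c + 4) * Nat.sqrt n := Nat.le_mul_of_pos_right _ (by omega)
  have h6 : (c + 6) * Nat.sqrt n = (c + 4) * Nat.sqrt n + 2 * Nat.sqrt n := by ring
  omega

/-- The local event fails with small probability. -/
theorem loc_tendsto {G : Measure ℝ} {κ A : ℝ} (hB : BoxProp m G κ A) (C : ℕ) :
    Tendsto (fun n : ℕ => law G {t | ¬ Loc m (C * n) (Lc n) t}) atTop (𝓝 0) :=
  tendsto_of_tendsto_of_tendsto_of_le_of_le tendsto_const_nhds (hB.2.2 C) (fun _ => zero_le)
    fun _ => measure_mono fun _ ht hOK => ht hOK.loc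

/-- The level of shielding of a step. -/
noncomputable def stepCost (m : ℝ) (k : ℤ) (w : V) (u : ℕ) (t : Conf) : ℝ :=
  ∑ e ∈ stepE k (-1) (w + pt k 0 (u : ℤ)), (capY m t e + 1) +
    ∑ e ∈ stepE k 1 (pt k 0 (u : ℤ)), (capY m t e + 1)

/-- The shielded weight of the edges of a step is below their levels. -/
theorem sum_shieldOn_le (SF : ShieldFacts m) (hT : Tame m t) {F : Set Edge} {s : Finset Edge}
    (hs : (s : Set Edge) ⊆ F) :
    ∑ e ∈ s, shieldOn m F t e ≤ ∑ e ∈ s, (capY m t e + 1) :=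
  Finset.sum_le_sum fun e he => SF.le_capY F t e (hs he) (hT.fin e)

theorem capY_nonneg (hm : 0 ≤ m) (hT : Tame m t) (e : Edge) : 0 ≤ capY m t e := by
  rw [capY, if_pos (hT.fin e)]
  positivity

theorem stepCost_nonneg (hm : 0 ≤ m) (hT : Tame m t) (w : V) (u : ℕ) :
    0 ≤ stepCost m k w u t :=
  add_nonneg (Finset.sum_nonneg fun e _ => by linarith [capY_nonneg hm hT e])
    (Finset.sum_nonneg fun e _ => by linarith [capY_nonneg hm hT e])

/-- The mean of the levels of the steps is linear in their number. -/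
theorem integral_stepCost {G : Measure ℝ} {κ AY : ℝ} (hG : LawGen G) (hm : 0 ≤ m)
    (SL : ShieldLaw m G κ AY) (w : V) (Y : ℕ) :
    Integrable (fun t => ∑ u ∈ Finset.range Y, stepCost m k w u t) (law G) ∧
      0 ≤ AY ∧ ∫ t, ∑ u ∈ Finset.range Y, stepCost m k w u t ∂law G ≤ 4 * (AY + 1) * Y := by
  have := hG.prob
  have : IsProbabilityMeasure (law G) := by unfold law; infer_instance
  have hAY : 0 ≤ AY := le_trans (integral_nonneg_of_ae
    (SL.tame.mono fun t ht => capY_nonneg hm ht ((0, 0), false))) (SL.mean_capY _)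
  have hi : ∀ e, Integrable (fun t => capY m t e + 1) (law G) := fun e =>
    (SL.int_capY e).add (integrable_const 1)
  have hs : ∀ s : Finset Edge, s.card ≤ 2 →
      ∫ t, ∑ e ∈ s, (capY m t e + 1) ∂law G ≤ 2 * (AY + 1) := by
    intro s hs
    rw [integral_finsetSum _ fun e _ => hi e]
    refine (Finset.sum_le_card_nsmul s _ (AY + 1) fun e _ => ?_).trans ?_
    · rw [integral_add (SL.int_capY e) (integrable_const 1), integral_const, probReal_univ,
        one_smul]
      linarith [SL.mean_capY e]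
    · rw [nsmul_eq_mul]
      exact mul_le_mul_of_nonneg_right (by exact_mod_cast hs) (by linarith)
  have hint : ∀ u, Integrable (stepCost m k w u) (law G) := fun u =>
    (integrable_finsetSum _ fun e _ => hi e).add (integrable_finsetSum _ fun e _ => hi e)
  refine ⟨integrable_finsetSum _ fun u _ => hint u, hAY, ?_⟩
  rw [integral_finsetSum _ fun u _ => hint u]
  refine (Finset.sum_le_card_nsmul _ _ (4 * (AY + 1)) fun u _ => ?_).trans (le_of_eq ?_)
  · simp only [stepCost]
    rw [integral_add (integrable_finsetSum _ fun e _ => hi e)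
      (integrable_finsetSum _ fun e _ => hi e)]
    linarith [hs _ (card_stepE k (-1) (w + pt k 0 (u : ℤ))), hs _ (card_stepE k 1 (pt k 0 (u : ℤ)))]
  · rw [Finset.card_range, nsmul_eq_mul, mul_comm]

end Vale.Agent.P158.Gen.SlopeLoc
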