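import Vale.Agent.P158.Gen.Spec

/-!
Certificates and the count for all atomless laws.
-/

open MeasureTheory Filter Topology
open scoped ENNReal

namespace Vale.Agent.P158.Gen

open Vale.Agent.P158

/-- The edges of the cycle around the box of radius `R`. -/
noncomputable def cycE (R : ℕ) : Finset Edge :=
  open Classical in
  ((Finset.Icc (-(R : ℤ)) R ×ˢ Finset.Icc (-(R : ℤ)) R) ×ˢ (Finset.univ : Finset Bool)).filter
    fun e => OnBd R (eFst e) ∧ OnBd R (eSnd e)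

/-- The radius of the cycle of the count. -/
def countRad (P : SiteP) (B : BlockP) (H : ℕ) : ℕ := 2 * H + P.Lam + B.W + 2

/-- The certificate of a block; the witnesses beat the passage time between the two origins. -/
def Cert2G (P : SiteP) (B : BlockP) (GS : Set Conf) (k c : ℤ) (s : ℝ) (h : ℤ) (n : ℕ)
    (pre t : Conf) : Prop :=
  pre ∈ GS ∧ t ∈ GS ∧ (∀ e, t e ≤ pre e) ∧ (∀ e, e ∉ regSet2 P k c s h B.d → t e = pre e) ∧
  ∃ (ys : Fin n → ℤ) (γ : Fin n → ℤ → V) (iL jR : Fin n → ℤ), Function.Injective ys ∧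
    (∀ i, h ≤ ys i ∧ ys i < h + B.d ∧ LineSite P k s (pt k c (ys i)) pre (γ i) (iL i) (jR i) ∧
      B.g ≤ ∑ m ∈ Finset.Ico (iL i) (jR i),
        (wt pre (γ i m) (γ i (m + 1)) - wt t (γ i m) (γ i (m + 1)))) ∧
    ∀ i i', i ≠ i' → Wit4 pre B.W (B.G₀ + T pre (γ i 0) (γ i' 0)) (γ i) (γ i')

/-- The configurations in which a block carries a certificate. -/
def blockEvent2G (P : SiteP) (B : BlockP) (GS : Set Conf) (k c : ℤ) (s : ℝ) (h : ℤ) (n : ℕ) :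
    Set Conf :=
  {t | ∃ pre, Cert2G P B GS k c s h n pre t}

/-- The configurations used by the count. -/
def Usable (m κ : ℝ) (GS : Set Conf) : Prop :=
  ∀ t ∈ GS, Tame m t ∧ NiceG κ t ∧ NiceG κ (shield m t)

/-- The deterministic count. -/
def CountProp2G (m κ : ℝ) : Prop :=
  ∀ (GS : Set Conf), Usable m κ GS → ∀ (P : SiteP) (B : BlockP) (k : ℤ),
    (k = 0 ∨ k = 1) → 0 < P.δ → 0 < B.g → ∀ C : ℝ, 0 < P.ε → P.ε ≤ 1 → 1 ≤ C →
    P.ε * P.L ≤ P.w → 2 * B.g < B.G₀ →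
    ∀ (U : Finset ℕ) (s : ℕ → ℝ) (c : ℕ → ℤ),
      (∀ u ∈ U, |s u| ≤ C ∧ |c u| + P.L < (P.Lam : ℤ)) →
      (∀ u ∈ U, ∀ v ∈ U, u < v → 6 * P.ε ≤ s v - s u ∧
        (10 * C + 20) * P.L + 20 * P.w + 10 * B.d ≤ P.ε * ((c v : ℝ) - c u)) →
    ∀ (D : ℕ), (B.d : ℝ) + 6 * P.w + 3 < D → ∀ (J : Finset ℤ) (H : ℕ),
      (∀ j ∈ J, (|j * (D : ℤ)| : ℝ) + B.d + 6 * P.w + 8 * (C + 2) * P.Lam + P.R' + 2 ≤ H) →
      8 * (C + 2) * (P.Lam : ℝ) + 4 * H ≤ P.N →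
    ∀ {t : Conf}, t ∈ GS → Stay m (H + P.Lam + 1) (countRad P B H - 2) t →
    ∀ (n : ℕ → ℤ → ℕ), (∀ u ∈ U, ∀ j ∈ J, 0 < n u j →
        t ∈ blockEvent2G P B GS k (c u) (s u) (j * D) (n u j)) →
      B.g * ∑ u ∈ U, ∑ j ∈ J, (n u j : ℝ) ≤
        100000 * ∑ e ∈ cycE (countRad P B H), (capY m t e + 1) + 100 * B.g

end Vale.Agent.P158.Gen
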